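import Mathlib
import Vale.Agent.P345.Bdl.B2
import Vale.Agent.P345.Bdl.B3

set_option linter.all false

section

section

/-! Shared definitions for problem P027 (one universal quantifier over the rationals). -/

namespace Vale.Agent.P027

/-- primes for which two is a quadratic nonresidue -/
def Inert (q : ℕ) : Prop := q.Prime ∧ (q % 8 = 3 ∨ q % 8 = 5)

/-- `b` is congruent to three modulo eight in the two-adic integers -/
def Three8 (b : ℚ) : Prop := 0 ≤ padicValRat 2 ((b - 3) / 8)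

def Cap (a b : ℚ) : Prop :=
  a ≠ 0 ∧ (∃ e f : ℚ, a = e ^ 2 - 2 * f ^ 2) ∧ ∃ u v : ℚ, 2 * a = u ^ 2 - b * v ^ 2

def Con (a b r : ℚ) : Prop := ∃ x z : ℚ, x ^ 2 - a * z ^ 2 = 1 + 4 * b * r ^ 2

/-- `x` is the first coordinate of a rational point of order greater than two
on the curve `y^2 = x^3 - 2x` -/
def Good (x : ℚ) : Prop := ∃ y : ℚ, y ≠ 0 ∧ y ^ 2 = x ^ 3 - 2 * x

/-- first coordinate of the double of the point -/
def ww (x : ℚ) : ℚ := (x ^ 2 + 2) ^ 2 / (4 * (x ^ 3 - 2 * x))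

def kap (x : ℚ) : ℚ :=
  (3 * (ww x) ^ 4 - 12 * (ww x) ^ 2 - 4) / ((ww x) ^ 4 + 12 * (ww x) ^ 2 - 12)

/-- first coordinate of four times the point -/
def xi (x : ℚ) : ℚ := ((ww x) ^ 2 + 2) ^ 2 / (4 * ((ww x) ^ 3 - 2 * ww x))

end Vale.Agent.P027
end
end

section

section

/-! Soundness of the prime capture (part B2). -/

namespace Vale.Agent.P027

section norms

variable {q : ℕ} [hq : Fact q.Prime]

lemma pn_pos {x : ℚ} (hx : x ≠ 0) : 0 < padicNorm q x :=
  lt_of_le_of_ne (padicNorm.nonneg _) (padicNorm.nonzero hx).symm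

lemma pn_sq (x : ℚ) : padicNorm q (x ^ 2) = padicNorm q x ^ 2 := by
  rw [pow_two, padicNorm.mul, pow_two]

omit hq in
lemma pn_sub_comm (x y : ℚ) : padicNorm q (x - y) = padicNorm q (y - x) := by
  rw [← padicNorm.neg (x - y), neg_sub]

lemma pn_add_left {a b : ℚ} (h : padicNorm q b < padicNorm q a) :
    padicNorm q (a + b) = padicNorm q a := by
  rw [padicNorm.add_eq_max_of_ne h.ne', max_eq_left h.le]

lemma pn_add_right {a b : ℚ} (h : padicNorm q a < padicNorm q b) :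
    padicNorm q (a + b) = padicNorm q b := by
  rw [padicNorm.add_eq_max_of_ne h.ne, max_eq_right h.le]

lemma pn_sub_left {a b : ℚ} (h : padicNorm q b < padicNorm q a) :
    padicNorm q (a - b) = padicNorm q a := by
  rw [sub_eq_add_neg, pn_add_left (by rwa [padicNorm.neg])]

lemma pn_sub_right {a b : ℚ} (h : padicNorm q a < padicNorm q b) :
    padicNorm q (a - b) = padicNorm q b := by
  rw [pn_sub_comm, pn_sub_left h]

lemma pn_eq_iff {x y : ℚ} (hx : x ≠ 0) (hy : y ≠ 0) :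
    padicNorm q x = padicNorm q y ↔ padicValRat q x = padicValRat q y := by
  rw [padicNorm.eq_zpow_of_nonzero hx, padicNorm.eq_zpow_of_nonzero hy]
  have hp1 : (1 : ℚ) < q := by exact_mod_cast hq.out.one_lt
  constructor
  · intro h
    have := zpow_right_injective₀ (by linarith) hp1.ne' h
    omega
  · intro h; rw [h]

lemma pn_le_one_iff {x : ℚ} : padicNorm q x ≤ 1 ↔ 0 ≤ padicValRat q x := by
  by_cases hx : x = 0
  · subst hx; simp only [padicNorm.zero, zero_le_one, padicValRat.zero, Std.le_refl]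
  have hp1 : (1 : ℚ) < q := by exact_mod_cast hq.out.one_lt
  rw [padicNorm.eq_zpow_of_nonzero hx]
  constructor
  · intro h
    by_contra hcon
    have : (1 : ℚ) < (q : ℚ) ^ (-padicValRat q x) := one_lt_zpow₀ hp1 (by omega)
    linarith only [h, this]
  · intro h
    have : (q : ℚ) ^ (-padicValRat q x) ≤ (q : ℚ) ^ (0 : ℤ) :=
      zpow_le_zpow_right₀ hp1.le (by omega)
    simpa only [zpow_neg, ge_iff_le, zpow_ofNat, pow_zero] using this

/-- `c` is a nonresidue unit, in the language of norms -/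
def NR (q : ℕ) (c : ℚ) : Prop := padicNorm q c = 1 ∧ ∀ s : ℚ, 1 ≤ padicNorm q (c - s ^ 2)

lemma NR.norm_form {c : ℚ} (hc : NR q c) (x z : ℚ) :
    padicNorm q (x ^ 2 - c * z ^ 2) = max (padicNorm q x ^ 2) (padicNorm q z ^ 2) := by
  have e1 : padicNorm q (c * z ^ 2) = padicNorm q z ^ 2 := by
    rw [padicNorm.mul, hc.1, one_mul, pn_sq]
  rcases lt_trichotomy (padicNorm q x ^ 2) (padicNorm q z ^ 2) with h | h | h
  · rw [pn_sub_right (by rw [e1, pn_sq]; exact h), e1, max_eq_right h.le]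
  · by_cases hz : z = 0
    · subst hz
      simp only [padicNorm.zero] at h
      have hx : padicNorm q x = 0 := by
        have : padicNorm q x ^ 2 = 0 := by rw [h]; norm_num
        exact pow_eq_zero_iff (by norm_num) |>.1 this
      have := padicNorm.zero_of_padicNorm_eq_zero hx
      subst this
      simp
    · have hz' := pn_pos (q := q) hz
      have e2 : x ^ 2 - c * z ^ 2 = -(z ^ 2 * (c - (x / z) ^ 2)) := by
        field_simp; ring
      have h1 : padicNorm q (x / z) = 1 := by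
        rw [padicNorm.div, div_eq_one_iff_eq hz'.ne']
        exact (pow_left_inj₀ (padicNorm.nonneg _) hz'.le (by norm_num : (2 : ℕ) ≠ 0)).1 h
      have h2 : padicNorm q (c - (x / z) ^ 2) = 1 := by
        apply le_antisymm _ (hc.2 _)
        refine padicNorm.sub.trans ?_
        rw [pn_sq, h1, hc.1]; norm_num
      rw [e2, padicNorm.neg, padicNorm.mul, h2, mul_one, pn_sq, h, max_self]
  · rw [pn_sub_left (by rw [e1, pn_sq]; exact h), pn_sq, max_eq_left h.le]

lemma NR.norm_form' {c : ℚ} (hc : NR q c) (x z : ℚ) :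
    ∃ ρ : ℚ, padicNorm q (x ^ 2 - c * z ^ 2) = padicNorm q ρ ^ 2 := by
  rw [hc.norm_form x z]
  rcases max_choice (padicNorm q x ^ 2) (padicNorm q z ^ 2) with h | h
  · exact ⟨x, h⟩
  · exact ⟨z, h⟩

/-- an integer that is not a square modulo `q` is a nonresidue -/
lemma NR_of_int {n : ℤ} (h : ¬ IsSquare (n : ZMod q)) : NR q (n : ℚ) := by
  have hn : ¬ (q : ℤ) ∣ n := by
    intro hd
    apply h
    rw [(ZMod.intCast_zmod_eq_zero_iff_dvd n q).2 hd]
    exact ⟨0, by simp⟩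
  have hn1 : padicNorm q (n : ℚ) = 1 := (padicNorm.int_eq_one_iff n).2 hn
  refine ⟨hn1, fun s => ?_⟩
  by_contra hcon
  push Not at hcon
  have hs1 : padicNorm q s ≤ 1 := by
    by_contra hs
    push Not at hs
    have h2 : 1 < padicNorm q (s ^ 2) := by rw [pn_sq]; nlinarith only [hs]
    rw [pn_sub_right (by rw [hn1]; exact h2)] at hcon
    linarith
  have hden : ¬ q ∣ s.den := by
    intro hd
    have h3 := pn_le_one_iff.1 hs1
    have h4 : ¬ (q : ℤ) ∣ s.num := by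
      intro hd'
      have h5 : q ∣ Nat.gcd s.num.natAbs s.den :=
        Nat.dvd_gcd (Int.natCast_dvd.1 hd') hd
      rw [s.reduced] at h5
      exact hq.out.one_lt.ne' (Nat.dvd_one.1 h5)
    have h6 : padicNorm q s = padicNorm q s.num / padicNorm q s.den := by
      rw [← padicNorm.div]
      congr 1
      exact (Rat.num_div_den s).symm
    have h7 : padicNorm q (s.num : ℚ) = 1 := (padicNorm.int_eq_one_iff _).2 h4
    have h8 : padicNorm q (s.den : ℚ) < 1 := (padicNorm.nat_lt_one_iff _).2 hd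
    have h9 : 0 < padicNorm q (s.den : ℚ) := pn_pos (by exact_mod_cast s.den_ne_zero)
    rw [h6, h7, div_le_one h9] at hs1
    linarith only [hs1, h8]
  have hden1 : padicNorm q (s.den : ℚ) = 1 := (padicNorm.nat_eq_one_iff _).2 hden
  have h3 : ((n * s.den ^ 2 - s.num ^ 2 : ℤ) : ℚ) = ((n : ℚ) - s ^ 2) * (s.den : ℚ) ^ 2 := by
    have : s = s.num / s.den := (Rat.num_div_den s).symm
    have hd0 : (s.den : ℚ) ≠ 0 := by exact_mod_cast s.den_ne_zero
    nth_rw 3 [this]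
    push_cast
    (clear * - hd0; field_simp)
  have h4 : padicNorm q ((n * s.den ^ 2 - s.num ^ 2 : ℤ) : ℚ) < 1 := by
    rw [h3, padicNorm.mul, pn_sq, hden1]; simpa only [one_pow, mul_one] using hcon
  have h5 := (padicNorm.int_lt_one_iff _).1 h4
  rw [← ZMod.intCast_zmod_eq_zero_iff_dvd] at h5
  push_cast at h5
  have h6 : (s.den : ZMod q) ≠ 0 := by
    rw [Ne, ZMod.natCast_eq_zero_iff]; exact hden
  apply h
  refine ⟨(s.num : ZMod q) / s.den, ?_⟩
  field_simp
  linear_combination h5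

lemma NR_two (h : q % 8 = 3 ∨ q % 8 = 5) : NR q 2 := by
  have h1 : ¬ IsSquare ((2 : ℤ) : ZMod q) := by
    have hq2 : q ≠ 2 := by omega
    have := (ZMod.exists_sq_eq_two_iff hq2).not.2 (by omega)
    simpa only [Int.cast_ofNat] using this
  have := NR_of_int h1
  exact_mod_cast this

/-- the quotient of nonresidue by residue -/
lemma NR_cap (h : q % 8 = 3 ∨ q % 8 = 5) {a b : ℚ} (hb : Odd (padicValRat q b)) (hc : Cap a b) :
    ∃ ρ c : ℚ, ρ ≠ 0 ∧ NR q c ∧ a = c * ρ ^ 2 := by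
  obtain ⟨ha, ⟨e, f, hef⟩, u, v, huv⟩ := hc
  have h2 := NR_two h
  have hb0 : b ≠ 0 := by
    rintro rfl
    simp at hb
  obtain ⟨ρ, hρ⟩ := h2.norm_form' e f
  rw [← hef] at hρ
  have hρ0 : ρ ≠ 0 := by
    rintro rfl
    rw [padicNorm.zero] at hρ
    have := pn_pos (q := q) ha
    rw [hρ] at this
    norm_num at this
  have hρpos := pn_pos (q := q) hρ0
  set U := u / ρ with hU
  set W := v / ρ with hW
  set c := a / ρ ^ 2 with hcdef
  have hac : a = c * ρ ^ 2 := by rw [hcdef]; field_simp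
  have hc1 : padicNorm q c = 1 := by
    rw [hcdef, padicNorm.div, pn_sq, hρ, div_self (by (clear * - hρpos; positivity))]
  have hUW : 2 * c = U ^ 2 - b * W ^ 2 := by
    rw [hU, hW, hcdef]
    field_simp
    linear_combination huv
  have h2c : padicNorm q (2 * c) = 1 := by rw [padicNorm.mul, h2.1, hc1, one_mul]
  -- the term with `b` is small
  have hsmall : padicNorm q (b * W ^ 2) < 1 := by
    by_cases hW0 : W = 0
    · rw [hW0]; simp only [ne_eq, OfNat.ofNat_ne_zero, not_false_eq_true, zero_pow, mul_zero, padicNorm.zero, zero_lt_one]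
    have hbW0 : b * W ^ 2 ≠ 0 := by (clear * - hb0 hW0; positivity)
    have hodd : Odd (padicValRat q (b * W ^ 2)) := by
      rw [padicValRat.mul hb0 (by (clear * - hW0; positivity)), padicValRat.pow]
      rw [Int.odd_iff] at hb ⊢
      push_cast
      omega
    by_contra hcon
    push Not at hcon
    rcases hcon.lt_or_eq with hlt | heq
    · have h5 : padicNorm q (U ^ 2) = padicNorm q (b * W ^ 2) := by
        have e : U ^ 2 = 2 * c + b * W ^ 2 := by rw [hUW]; ring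
        rw [e, pn_add_right (by rw [h2c]; exact hlt)]
      have hU0 : U ≠ 0 := by
        intro h6
        rw [h6] at h5
        simp only [ne_eq, OfNat.ofNat_ne_zero, not_false_eq_true, zero_pow, padicNorm.zero] at h5
        exact padicNorm.nonzero hbW0 h5.symm
      rw [pn_eq_iff (by (clear * - hU0; positivity)) hbW0, padicValRat.pow] at h5
      rw [← h5, Int.odd_iff] at hodd
      push_cast at hodd
      omega
    · have h6 : padicNorm q (b * W ^ 2) = padicNorm q 1 := by rw [← heq, padicNorm.one]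
      rw [pn_eq_iff hbW0 one_ne_zero] at h6
      rw [h6] at hodd
      simp at hodd
  refine ⟨ρ, c, hρ0, ⟨hc1, fun s => ?_⟩, hac⟩
  by_contra hcon
  push Not at hcon
  have hs1 : padicNorm q s = 1 := by
    have e : s ^ 2 = c - (c - s ^ 2) := by ring
    have h7 : padicNorm q (s ^ 2) = 1 := by
      rw [e, pn_sub_left (by rw [hc1]; exact hcon), hc1]
    rw [pn_sq] at h7
    exact (pow_eq_one_iff_of_nonneg (padicNorm.nonneg _) (by norm_num)).1 h7
  have hs0 : s ≠ 0 := by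
    rintro rfl
    rw [padicNorm.zero] at hs1
    norm_num at hs1
  have h8 := h2.2 (U / s)
  have e8 : 2 - (U / s) ^ 2 = -((2 * (c - s ^ 2) + -(2 * c - U ^ 2)) / s ^ 2) := by
    field_simp; ring
  have h9 : padicNorm q (2 * (c - s ^ 2) + -(2 * c - U ^ 2)) < 1 := by
    refine padicNorm.nonarchimedean.trans_lt (max_lt ?_ ?_)
    · rw [padicNorm.mul, h2.1, one_mul]; exact hcon
    · rw [padicNorm.neg]
      have e9 : 2 * c - U ^ 2 = -(b * W ^ 2) := by rw [hUW]; ring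
      rw [e9, padicNorm.neg]; exact hsmall
  rw [e8, padicNorm.neg, padicNorm.div, pn_sq, hs1, one_pow, div_one] at h8
  linarith only [h8, h9]

end norms

/-- soundness of the prime capture -/
theorem capture_sound {a b r : ℚ} {q : ℕ} (hq : Inert q) (hb : Odd (padicValRat q b))
    (hc : Cap a b) (h : Con a b r) : r = 0 ∨ 0 ≤ padicValRat q (b * r ^ 2) := by
  have : Fact q.Prime := ⟨hq.1⟩
  by_contra hcon
  push Not at hcon
  obtain ⟨hr0, hneg⟩ := hcon
  obtain ⟨ρ, c, hρ0, hNR, hac⟩ := NR_cap hq.2 hb hc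
  obtain ⟨x, z, hxz⟩ := h
  have hb0 : b ≠ 0 := by
    rintro rfl
    simp at hb
  have hbr0 : b * r ^ 2 ≠ 0 := by (clear * - hb0 hr0; positivity)
  have hlarge : 1 < padicNorm q (b * r ^ 2) := by
    by_contra h1
    push Not at h1
    rw [pn_le_one_iff] at h1
    omega
  have h4 : padicNorm q 4 = 1 := by
    have h2 := (NR_two hq.2).1
    rw [show (4 : ℚ) = 2 * 2 by norm_num, padicNorm.mul, h2, one_mul]
  have e1 : padicNorm q (1 + 4 * b * r ^ 2) = padicNorm q (b * r ^ 2) := by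
    have e : padicNorm q (4 * b * r ^ 2) = padicNorm q (b * r ^ 2) := by
      rw [mul_assoc, padicNorm.mul, h4, one_mul]
    rw [pn_add_right (by rw [e, padicNorm.one]; exact hlarge), e]
  have e2 : x ^ 2 - a * z ^ 2 = x ^ 2 - c * (ρ * z) ^ 2 := by rw [hac]; ring
  rw [e2] at hxz
  obtain ⟨σ, hσ⟩ := hNR.norm_form' x (ρ * z)
  rw [hxz, e1] at hσ
  have hσ0 : σ ≠ 0 := by
    rintro rfl
    rw [padicNorm.zero] at hσ
    rw [hσ] at hlarge
    norm_num at hlarge
  rw [← pn_sq, pn_eq_iff hbr0 (by (clear * - hσ0; positivity)), padicValRat.pow,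
    padicValRat.mul hb0 (by (clear * - hr0; positivity)), padicValRat.pow] at hσ
  rw [Int.odd_iff] at hb
  push_cast at hσ
  omega

/-- a natural number congruent to three or five modulo eight is divisible to an odd power by a
prime of this kind -/
lemma exists_odd_factor (n : ℕ) : n % 2 = 1 →
    (∀ q : ℕ, q.Prime → (q % 8 = 3 ∨ q % 8 = 5) → Even (n.factorization q)) →
    n % 8 = 1 ∨ n % 8 = 7 := by
  induction n using Nat.recOnPosPrimePosCoprime with
  | zero => intro h; omega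
  | one => intro _ _; left; norm_num
  | prime_pow p k hp hk =>
    intro h1 h2
    by_cases hev : Even k
    · obtain ⟨j, rfl⟩ := hev
      have hpo : p % 2 = 1 := by
        by_contra hcon
        have : 2 ∣ p ^ (j + j) := dvd_pow (by omega) (by omega)
        omega
      have h3 : p * p % 8 = 1 := by
        have : p % 8 = 1 ∨ p % 8 = 3 ∨ p % 8 = 5 ∨ p % 8 = 7 := by omega
        rcases this with h | h | h | h <;> simp [Nat.mul_mod, h]
      left
      rw [← two_mul, pow_mul, pow_two, Nat.pow_mod, h3]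
      simp
    · have h4 : ¬ (p % 8 = 3 ∨ p % 8 = 5) := by
        intro h5
        have := h2 p hp h5
        rw [Nat.factorization_pow, hp.factorization] at this
        simp only [Finsupp.smul_single, smul_eq_mul, mul_one, Finsupp.single_eq_same] at this
        exact hev this
      have hpo : p % 2 = 1 := by
        by_contra hcon
        have : 2 ∣ p ^ k := dvd_pow (by omega) (by omega)
        omega
      have h6 : p % 8 = 1 ∨ p % 8 = 7 := by omega
      rcases h6 with h | h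
      · left; rw [Nat.pow_mod, h]; simp
      · obtain ⟨j, hj⟩ := Nat.not_even_iff_odd.1 hev
        right
        rw [hj, Nat.pow_mod, h, pow_succ, pow_mul, Nat.mul_mod, Nat.pow_mod]
        norm_num
  | coprime a b ha hb hab iha ihb =>
    intro h1 h2
    have hao : a % 2 = 1 := by
      by_contra hcon
      have : 2 ∣ a * b := Dvd.dvd.mul_right (by omega) b
      omega
    have hbo : b % 2 = 1 := by
      by_contra hcon
      have : 2 ∣ a * b := Dvd.dvd.mul_left (by omega) a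
      omega
    have key : ∀ q : ℕ, q.Prime → (a * b).factorization q = a.factorization q + b.factorization q := by
      intro q hq
      rw [Nat.factorization_mul (by omega) (by omega)]
      rfl
    have hdis : ∀ q : ℕ, q.Prime → a.factorization q = 0 ∨ b.factorization q = 0 := by
      intro q hq
      by_contra hcon
      push Not at hcon
      have h5 : q ∣ a := Nat.dvd_of_factorization_pos hcon.1
      have h6 : q ∣ b := Nat.dvd_of_factorization_pos hcon.2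
      have := Nat.dvd_gcd h5 h6
      rw [hab] at this
      exact hq.one_lt.ne' (Nat.dvd_one.1 this)
    have ra := iha hao (fun q hq h8 => by
      have := h2 q hq h8
      rw [key q hq] at this
      rcases hdis q hq with h | h
      · rw [h]; exact ⟨0, rfl⟩
      · rwa [h, add_zero] at this)
    have rb := ihb hbo (fun q hq h8 => by
      have := h2 q hq h8
      rw [key q hq] at this
      rcases hdis q hq with h | h
      · rwa [h, zero_add] at this
      · rw [h]; exact ⟨0, rfl⟩)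
    rcases ra with h | h <;> rcases rb with h' | h' <;> simp [Nat.mul_mod, h, h']

theorem exists_inert_odd {b : ℚ} (hb : Three8 b) :
    ∃ q, Inert q ∧ Odd (padicValRat q b) := by
  set z := (b - 3) / 8 with hz
  have : Fact (Nat.Prime 2) := ⟨Nat.prime_two⟩
  have hden : z.den % 2 = 1 := by
    have h1 : padicNorm 2 z ≤ 1 := pn_le_one_iff.2 hb
    by_contra hcon
    have hd : 2 ∣ z.den := by (clear * - hcon; omega)
    have h4 : ¬ ((2 : ℕ) : ℤ) ∣ z.num := by
      intro hd'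
      have h5 : 2 ∣ Nat.gcd z.num.natAbs z.den := Nat.dvd_gcd (Int.natCast_dvd.1 hd') hd
      rw [z.reduced] at h5
      omega
    have h6 : padicNorm 2 z = padicNorm 2 z.num / padicNorm 2 z.den := by
      rw [← padicNorm.div]
      congr 1
      exact (Rat.num_div_den z).symm
    have h7 : padicNorm 2 (z.num : ℚ) = 1 := (padicNorm.int_eq_one_iff _).2 h4
    have h8 : padicNorm 2 (z.den : ℚ) < 1 := (padicNorm.nat_lt_one_iff _).2 hd
    have h9 : 0 < padicNorm 2 (z.den : ℚ) := pn_pos (by exact_mod_cast z.den_ne_zero)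
    rw [h6, h7, div_le_one h9] at h1
    linarith only [h1, h8]
  set d : ℤ := ((z.den : ℕ) : ℤ) with hd
  set N : ℤ := (3 * d + 8 * z.num) * d with hN
  have hN8 : N % 8 = 3 := by
    have hd2 : d % 2 = 1 := by omega
    have h1 : d * d % 8 = 1 := by
      have : d % 8 = 1 ∨ d % 8 = 3 ∨ d % 8 = 5 ∨ d % 8 = 7 := by omega
      rcases this with h | h | h | h <;> simp [Int.mul_emod, h]
    have h2 : N = 3 * (d * d) + 8 * (z.num * d) := by rw [hN]; ring
    omega
  have hN0 : N ≠ 0 := by omega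
  have hbN : b * (d : ℚ) ^ 2 = N := by
    have h1 : z = z.num / z.den := (Rat.num_div_den z).symm
    have h2 : b = 3 + 8 * z := by rw [hz]; ring
    have h3 : (z.den : ℚ) ≠ 0 := by exact_mod_cast z.den_ne_zero
    rw [h2, h1, hN, hd]
    push_cast
    (clear * - h3; field_simp)
  have hd0 : (d : ℚ) ≠ 0 := by rw [hd]; exact_mod_cast z.den_ne_zero
  have hb0 : b ≠ 0 := by
    rintro rfl
    rw [zero_mul] at hbN
    exact hN0 (by exact_mod_cast hbN.symm)
  by_contra hcon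
  push Not at hcon
  have h1 := exists_odd_factor N.natAbs (by omega) (fun q hq h8 => by
    have : Fact q.Prime := ⟨hq⟩
    have h2 := hcon q ⟨hq, h8⟩
    rw [Int.not_odd_iff_even] at h2
    have h3 := congrArg (padicValRat q) hbN
    have h4 : padicValRat q (N : ℚ) = padicValNat q N.natAbs := by
      rw [padicValRat.of_int, padicValInt]
    rw [padicValRat.mul hb0 (by positivity), padicValRat.pow, h4] at h3
    rw [Nat.factorization_def _ hq]
    rw [Int.even_iff] at h2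
    rw [Nat.even_iff]
    generalize padicValRat q (d : ℚ) = w at h3
    generalize padicValRat q b = w' at h3 h2
    rw [Nat.cast_ofNat] at h3
    omega)
  omega

end Vale.Agent.P027
end
end

section

section

/-! Legendre's theorem on conics, by the pigeonhole principle. -/

namespace Vale.Agent.P027

/-- number of naturals with square less than `n` -/
theorem exists_box (n : ℕ) (hn : 0 < n) :
    ∃ k : ℕ, n ≤ k ^ 2 ∧ (∀ i, i < k → i ^ 2 < n) ∧ (n = k ^ 2 ∨ n < k ^ 2) := by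
  classical
  have hex : ∃ k, n ≤ k ^ 2 := ⟨n, by nlinarith⟩
  refine ⟨Nat.find hex, Nat.find_spec hex, ?_, ?_⟩
  · intro i hi
    exact not_le.1 (Nat.find_min hex hi)
  · exact Nat.eq_or_lt_of_le (Nat.find_spec hex)

theorem conic_aux {a b : ℕ} (ha : 0 < a) (hb : 0 < b) (hsq : ∀ k, a ≠ k ^ 2) (s t : ℤ) :
    ∃ x y z : ℤ, (x ≠ 0 ∨ y ≠ 0 ∨ z ≠ 0) ∧ x ^ 2 < a * b ∧ y ^ 2 < b ∧ z ^ 2 < a ∧
      (b : ℤ) ∣ x - s * y ∧ (a : ℤ) ∣ x - t * z := by
  classical
  obtain ⟨k₁, h11, h12, -⟩ := exists_box (a * b) (Nat.mul_pos ha hb)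
  obtain ⟨k₂, h21, h22, -⟩ := exists_box b hb
  obtain ⟨k₃, h31, h32, h33⟩ := exists_box a ha
  have h33' : a < k₃ ^ 2 := h33.resolve_left (hsq k₃)
  have hcard : a * b < k₁ * k₂ * k₃ := by
    have h1 : (a * b) ^ 2 < (k₁ * k₂ * k₃) ^ 2 := by
      calc (a * b) ^ 2 = (a * b) * b * a := by ring
        _ < k₁ ^ 2 * k₂ ^ 2 * k₃ ^ 2 := by
          have e1 : (a * b) * b ≤ k₁ ^ 2 * k₂ ^ 2 := Nat.mul_le_mul h11 h21
          have e2 : 0 < (a * b) * b := by positivity
          calc (a * b) * b * a < (a * b) * b * k₃ ^ 2 := Nat.mul_lt_mul_of_pos_left h33' e2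
            _ ≤ _ := Nat.mul_le_mul_right _ e1
        _ = (k₁ * k₂ * k₃) ^ 2 := by ring
    exact lt_of_pow_lt_pow_left₀ 2 (Nat.zero_le _) h1
  have : NeZero a := ⟨ha.ne'⟩
  have : NeZero b := ⟨hb.ne'⟩
  let f : Fin k₁ × Fin k₂ × Fin k₃ → ZMod b × ZMod a := fun p =>
    ((((p.1 : ℕ) : ℤ) - s * ((p.2.1 : ℕ) : ℤ) : ℤ), (((p.1 : ℕ) : ℤ) - t * ((p.2.2 : ℕ) : ℤ) : ℤ))
  have hlt : Fintype.card (ZMod b × ZMod a) < Fintype.card (Fin k₁ × Fin k₂ × Fin k₃) := by
    simp only [Fintype.card_prod, ZMod.card, Fintype.card_fin]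
    calc b * a = a * b := by ring
      _ < k₁ * k₂ * k₃ := hcard
      _ = k₁ * (k₂ * k₃) := by ring
  obtain ⟨p, q, hpq, hf⟩ := Fintype.exists_ne_map_eq_of_card_lt f hlt
  have hf1 := congrArg Prod.fst hf
  have hf2 := congrArg Prod.snd hf
  simp only [f] at hf1 hf2
  rw [ZMod.intCast_eq_intCast_iff_dvd_sub] at hf1 hf2
  have bound : ∀ (k n : ℕ) (i j : Fin k), (∀ i, i < k → i ^ 2 < n) →
      (((j : ℕ) : ℤ) - ((i : ℕ) : ℤ)) ^ 2 < n := by
    intro k n i j h
    have hi := h i i.2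
    have hj := h j j.2
    rcases le_total (i : ℕ) (j : ℕ) with hij | hij
    · have : ((((j : ℕ) : ℤ) - ((i : ℕ) : ℤ)) ^ 2) ≤ ((j : ℕ) : ℤ) ^ 2 := by
        have h1 : (((i : ℕ) : ℤ)) ≤ ((j : ℕ) : ℤ) := by exact_mod_cast hij
        have h2 : (0 : ℤ) ≤ ((i : ℕ) : ℤ) := Int.natCast_nonneg _
        exact pow_le_pow_left₀ (by linarith only [hij]) (by linarith only []) 2
      have h3 : (((j : ℕ) : ℤ)) ^ 2 < n := by exact_mod_cast hj
      linarith only [hj, this]
    · have : ((((j : ℕ) : ℤ) - ((i : ℕ) : ℤ)) ^ 2) ≤ ((i : ℕ) : ℤ) ^ 2 := by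
        have h1 : (((j : ℕ) : ℤ)) ≤ ((i : ℕ) : ℤ) := by exact_mod_cast hij
        have h2 : (0 : ℤ) ≤ ((j : ℕ) : ℤ) := Int.natCast_nonneg _
        rw [sub_sq_comm]; exact pow_le_pow_left₀ (by linarith only [hij]) (by linarith only []) 2
      have h3 : (((i : ℕ) : ℤ)) ^ 2 < n := by exact_mod_cast hi
      linarith only [hi, this]
  refine ⟨((q.1 : ℕ) : ℤ) - ((p.1 : ℕ) : ℤ), ((q.2.1 : ℕ) : ℤ) - ((p.2.1 : ℕ) : ℤ),
    ((q.2.2 : ℕ) : ℤ) - ((p.2.2 : ℕ) : ℤ), ?_, ?_, ?_, ?_, ?_, ?_⟩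
  · by_contra hc
    push Not at hc
    apply hpq
    obtain ⟨c1, c2, c3⟩ := hc
    have e1 : (p.1 : ℕ) = q.1 := by omega
    have e2 : (p.2.1 : ℕ) = q.2.1 := by omega
    have e3 : (p.2.2 : ℕ) = q.2.2 := by omega
    exact Prod.ext (Fin.ext e1) (Prod.ext (Fin.ext e2) (Fin.ext e3))
  · have := bound k₁ (a * b) p.1 q.1 h12
    push_cast at this
    exact this
  · exact bound k₂ b p.2.1 q.2.1 h22
  · exact bound k₃ a p.2.2 q.2.2 h32
  · have e : (((q.1 : ℕ) : ℤ) - ((p.1 : ℕ) : ℤ)) - s * (((q.2.1 : ℕ) : ℤ) - ((p.2.1 : ℕ) : ℤ)) =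
      (((q.1 : ℕ) : ℤ) - s * ((q.2.1 : ℕ) : ℤ)) - (((p.1 : ℕ) : ℤ) - s * ((p.2.1 : ℕ) : ℤ)) := by
      ring
    rw [e]; exact hf1
  · have e : (((q.1 : ℕ) : ℤ) - ((p.1 : ℕ) : ℤ)) - t * (((q.2.2 : ℕ) : ℤ) - ((p.2.2 : ℕ) : ℤ)) =
      (((q.1 : ℕ) : ℤ) - t * ((q.2.2 : ℕ) : ℤ)) - (((p.1 : ℕ) : ℤ) - t * ((p.2.2 : ℕ) : ℤ)) := by
      ring
    rw [e]; exact hf2

theorem legendre_conic {α β s t : ℤ} (hα : 0 < α) (hβ : β ≠ 0) (hco : IsCoprime α β)
    (hs : β ∣ s ^ 2 - α) (ht : α ∣ t ^ 2 - β) :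
    ∃ X Y Z : ℤ, (X ≠ 0 ∨ Y ≠ 0 ∨ Z ≠ 0) ∧ X ^ 2 = α * Y ^ 2 + β * Z ^ 2 := by
  by_cases hsq : ∃ k : ℤ, α = k ^ 2
  · obtain ⟨k, hk⟩ := hsq
    exact ⟨k, 1, 0, Or.inr (Or.inl one_ne_zero), by rw [hk]; ring⟩
  push Not at hsq
  obtain ⟨a, rfl⟩ := Int.eq_ofNat_of_zero_le hα.le
  have ha : 0 < a := by exact_mod_cast hα
  have hb : 0 < β.natAbs := Int.natAbs_pos.2 hβ
  obtain ⟨x, y, z, hne, hx, hy, hz, hd1, hd2⟩ := conic_aux ha hb
    (fun k hk => hsq k (by rw [hk]; push_cast; ring)) s t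
  have hd1' : β ∣ x - s * y := by
    rw [Int.natCast_natAbs] at hd1
    exact (abs_dvd _ _).1 hd1
  have hN1 : β ∣ x ^ 2 - a * y ^ 2 - β * z ^ 2 := by
    have e : x ^ 2 - (a : ℤ) * y ^ 2 - β * z ^ 2 =
      (x - s * y) * (x + s * y) + (s ^ 2 - a) * y ^ 2 - β * z ^ 2 := by ring
    rw [e]
    exact dvd_sub (dvd_add (hd1'.mul_right _) (hs.mul_right _)) (dvd_mul_right _ _)
  have hN2 : (a : ℤ) ∣ x ^ 2 - a * y ^ 2 - β * z ^ 2 := by
    have e : x ^ 2 - (a : ℤ) * y ^ 2 - β * z ^ 2 =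
      (x - t * z) * (x + t * z) + (t ^ 2 - β) * z ^ 2 - a * y ^ 2 := by ring
    rw [e]
    exact dvd_sub (dvd_add (hd2.mul_right _) (ht.mul_right _)) (dvd_mul_right _ _)
  obtain ⟨c, hc⟩ := hco.mul_dvd hN2 hN1
  have hy0 : 0 ≤ y ^ 2 := sq_nonneg y
  have hz0 : 0 ≤ z ^ 2 := sq_nonneg z
  have hx0 : 0 ≤ x ^ 2 := sq_nonneg x
  rcases lt_or_gt_of_ne hβ with hneg | hpos
  · -- negative case
    obtain ⟨b, hb'⟩ : ∃ b : ℤ, b = -β := ⟨_, rfl⟩
    have hb0 : 0 < b := by omega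
    have hbabs : (β.natAbs : ℤ) = b := by (clear * - hne hneg hb'; omega)
    rw [hbabs] at hx hy
    have hβb : β = -b := by omega
    rw [hβb] at hc ⊢
    have hab : 0 < (a : ℤ) * b := mul_pos hα hb0
    have h1 : (a : ℤ) * y ^ 2 < a * b := mul_lt_mul_of_pos_left hy hα
    have h2 : b * z ^ 2 < a * b := by
      rw [mul_comm (a : ℤ) b]; exact mul_lt_mul_of_pos_left hz hb0
    have h3 : 0 ≤ (a : ℤ) * y ^ 2 := by (clear * - ha; positivity)
    have h4 : 0 ≤ b * z ^ 2 := by (clear * - hb0; positivity)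
    have hc1 : c < 1 := by
      by_contra hcc
      have : (a : ℤ) * b * 1 ≤ (a : ℤ) * b * c := by
        apply mul_le_mul_of_nonneg_left _ hab.le; omega
      linarith only [hx0, hc, h1, h4, this]
    have hc2 : -2 < c := by
      by_contra hcc
      have : (a : ℤ) * b * c ≤ (a : ℤ) * b * (-2) := by
        apply mul_le_mul_of_nonneg_left _ hab.le; omega
      linarith only [hc, hx, h2, h3, this]
    have : c = 0 ∨ c = -1 := by omega
    rcases this with rfl | rfl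
    · exact ⟨x, y, z, hne, by linarith only [hc]⟩
    · refine ⟨x * y - b * z, y ^ 2 + b, x + y * z, Or.inr (Or.inl (by (clear * - hb0; positivity))), ?_⟩
      have e : x ^ 2 + b * z ^ 2 = a * y ^ 2 + a * b := by linarith only [hc]
      have : (x * y - b * z) ^ 2 - (a * (y ^ 2 + b) ^ 2 + -b * (x + y * z) ^ 2) =
        (y ^ 2 + b) * (x ^ 2 + b * z ^ 2 - (a * y ^ 2 + a * b)) := by ring
      rw [e, sub_self, mul_zero] at this
      linarith only [this]
  · have hbabs : (β.natAbs : ℤ) = β := by (clear * - hne hpos; omega)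
    rw [hbabs] at hx hy
    have hab : 0 < (a : ℤ) * β := mul_pos hα hpos
    have h1 : (a : ℤ) * y ^ 2 < a * β := mul_lt_mul_of_pos_left hy hα
    have h2 : β * z ^ 2 < a * β := by
      rw [mul_comm (a : ℤ) β]; exact mul_lt_mul_of_pos_left hz hpos
    have h3 : 0 ≤ (a : ℤ) * y ^ 2 := by (clear * - ha; positivity)
    have h4 : 0 ≤ β * z ^ 2 := by (clear * - hpos; positivity)
    have hc1 : c < 1 := by
      by_contra hcc
      have : (a : ℤ) * β * 1 ≤ (a : ℤ) * β * c := by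
        apply mul_le_mul_of_nonneg_left _ hab.le; omega
      linarith only [hx, hc, h3, h4, this]
    have hc2 : -2 < c := by
      by_contra hcc
      have : (a : ℤ) * β * c ≤ (a : ℤ) * β * (-2) := by
        apply mul_le_mul_of_nonneg_left _ hab.le; omega
      linarith only [hc, hx0, h1, h2, this]
    have : c = 0 ∨ c = -1 := by omega
    rcases this with rfl | rfl
    · exact ⟨x, y, z, hne, by linarith only [hc]⟩
    · refine ⟨x ^ 2 + a * β, x * y + β * z, x * z - a * y, Or.inl (by (clear * - ha hpos; positivity)), ?_⟩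
      have e : a * y ^ 2 + β * z ^ 2 = x ^ 2 + a * β := by linarith only [hc]
      have : (x ^ 2 + a * β) ^ 2 - (a * (x * y + β * z) ^ 2 + β * (x * z - a * y) ^ 2) =
        (x ^ 2 + a * β) * ((x ^ 2 + a * β) - (a * y ^ 2 + β * z ^ 2)) := by ring
      rw [e, sub_self, mul_zero] at this
      linarith only [this]

end Vale.Agent.P027
end
end

section

section

/-! Integrality at two and at three (part B1). -/

namespace Vale.Agent.P027

/-- rational form of the conic theorem when `β` is not a square -/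
lemma conic_ratI {α β s t : ℤ} (hα : 0 < α) (hβ : β ≠ 0) (hco : IsCoprime α β)
    (hs : β ∣ s ^ 2 - α) (ht : α ∣ t ^ 2 - β) (hsq : ¬ IsSquare (β : ℚ)) :
    ∃ x z : ℚ, (α : ℚ) = x ^ 2 - β * z ^ 2 := by
  obtain ⟨X, Y, Z, hne, h⟩ := legendre_conic hα hβ hco hs ht
  have hq : (X : ℚ) ^ 2 = α * Y ^ 2 + β * Z ^ 2 := by exact_mod_cast h
  have hY : Y ≠ 0 := by
    rintro rfl
    have h1 : (X : ℚ) ^ 2 = β * Z ^ 2 := by rw [hq]; push_cast; ring
    by_cases hZ : Z = 0
    · subst hZ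
      have h2 : (X : ℚ) ^ 2 = 0 := by rw [h1]; push_cast; ring
      have h3 : X = 0 := by
        have := pow_eq_zero_iff (by norm_num : 2 ≠ 0) |>.1 h2
        exact_mod_cast this
      rcases hne with h | h | h <;> exact h (by first | exact h3 | rfl)
    · have hZq : (Z : ℚ) ≠ 0 := by exact_mod_cast hZ
      apply hsq
      refine ⟨X / Z, ?_⟩
      field_simp
      linear_combination -h1
  have hYq : (Y : ℚ) ≠ 0 := by exact_mod_cast hY
  refine ⟨X / Y, Z / Y, ?_⟩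
  field_simp
  linear_combination -hq

lemma not_isSquare_neg {n : ℤ} (hn : n < 0) : ¬ IsSquare (n : ℚ) := by
  rintro ⟨x, hx⟩
  have h1 : (n : ℚ) < 0 := by exact_mod_cast hn
  linarith only [hx, h1, mul_self_nonneg x]

lemma not_isSquare_two' : ¬ IsSquare (((2 : ℤ) : ℚ)) := by
  intro h3
  obtain ⟨n, hn⟩ : IsSquare (2 : ℕ) :=
    Rat.isSquare_natCast_iff.1 (by exact_mod_cast h3 : IsSquare ((2 : ℕ) : ℚ))
  have : n < 2 := by
    by_contra h
    have h1 : 2 * 2 ≤ n * n := Nat.mul_le_mul (by omega) (by omega)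
    omega
  interval_cases n <;> omega

lemma exists_sq_sub_of_jacobi {p : ℕ} (hp : p.Prime) {a : ℤ} (h : jacobiSym a p = 1) :
    ∃ s : ℤ, (p : ℤ) ∣ s ^ 2 - a := by
  have : Fact p.Prime := ⟨hp⟩
  obtain ⟨c, hc⟩ := ZMod.isSquare_of_jacobiSym_eq_one h
  obtain ⟨s, rfl⟩ := ZMod.intCast_surjective c
  refine ⟨s, ?_⟩
  rw [← ZMod.intCast_zmod_eq_zero_iff_dvd]
  push_cast
  rw [hc]; ring

lemma odd_den {p : ℕ} [hp : Fact p.Prime] {r : ℚ} (h : 0 ≤ padicValRat p r) : ¬ p ∣ r.den := by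
  intro hd
  have h1 : padicNorm p r ≤ 1 := pn_le_one_iff.2 h
  have h4 : ¬ (p : ℤ) ∣ r.num := by
    intro hd'
    have h5 : p ∣ Nat.gcd r.num.natAbs r.den := Nat.dvd_gcd (Int.natCast_dvd.1 hd') hd
    rw [r.reduced] at h5
    exact hp.out.one_lt.ne' (Nat.dvd_one.1 h5)
  have h6 : padicNorm p r = padicNorm p r.num / padicNorm p r.den := by
    rw [← padicNorm.div]
    congr 1
    exact (Rat.num_div_den r).symm
  have h7 : padicNorm p (r.num : ℚ) = 1 := (padicNorm.int_eq_one_iff _).2 h4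
  have h8 : padicNorm p (r.den : ℚ) < 1 := (padicNorm.nat_lt_one_iff _).2 hd
  have h9 : 0 < padicNorm p (r.den : ℚ) := pn_pos (by exact_mod_cast r.den_ne_zero)
  rw [h6, h7, div_le_one h9] at h1
  linarith only [h1, h8]

/-! ### the prime three -/

lemma neg_one_three : ¬ IsSquare ((-1 : ℤ) : ZMod 3) := by decide

lemma int3_backward {r A u v e f x z : ℚ} (hA0 : A ≠ 0) (hA : A = u ^ 2 + 3 * v ^ 2)
    (hA' : A = e ^ 2 - 2 * f ^ 2) (h : x ^ 2 + A * z ^ 2 = 1 + 3 * r ^ 2) :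
    0 ≤ padicValRat 3 r := by
  have : Fact (Nat.Prime 3) := ⟨Nat.prime_three⟩
  have n3 : padicNorm 3 3 = (3 : ℚ)⁻¹ := by
    have := padicNorm.padicNorm_p (p := 3) (by norm_num)
    exact_mod_cast this
  have n3' : padicValRat 3 3 = 1 := by
    have := padicValRat.self (p := 3) (by norm_num)
    exact_mod_cast this
  by_contra hcon
  have hr0 : r ≠ 0 := by rintro rfl; simp at hcon
  have hr1 : 1 < padicNorm 3 r := by
    by_contra h1
    push Not at h1
    exact hcon (pn_le_one_iff.1 h1)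
  have h2 : NR 3 2 := NR_two (q := 3) (by norm_num)
  have hm1 : NR 3 (-1) := by
    have := NR_of_int neg_one_three
    exact_mod_cast this
  obtain ⟨ρ, hρ⟩ := h2.norm_form' e f
  rw [← hA'] at hρ
  have hρ0 : ρ ≠ 0 := by
    rintro rfl
    rw [padicNorm.zero] at hρ
    have := pn_pos (q := 3) hA0
    rw [hρ] at this
    norm_num at this
  have hρpos := pn_pos (q := 3) hρ0
  set U := u / ρ with hU
  set W := v / ρ with hW
  set c := A / ρ ^ 2 with hcdef
  have hac : A = c * ρ ^ 2 := by rw [hcdef]; field_simp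
  have hc1 : padicNorm 3 c = 1 := by
    rw [hcdef, padicNorm.div, pn_sq, hρ, div_self (by (clear * - hρpos; positivity))]
  have hUW : c = U ^ 2 + 3 * W ^ 2 := by
    rw [hU, hW, hcdef]
    field_simp
    linear_combination hA
  have hsmall : padicNorm 3 (3 * W ^ 2) < 1 := by
    by_cases hW0 : W = 0
    · rw [hW0]; simp only [ne_eq, OfNat.ofNat_ne_zero, not_false_eq_true, zero_pow, mul_zero, padicNorm.zero, zero_lt_one]
    have hbW0 : 3 * W ^ 2 ≠ 0 := by (clear * - hW0; positivity)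
    have hval : padicValRat 3 (3 * W ^ 2) = 1 + 2 * padicValRat 3 W := by
      rw [padicValRat.mul (by norm_num) (by (clear * - hW0; positivity)), padicValRat.pow, n3']
      norm_num
    by_contra hcon
    push Not at hcon
    rcases hcon.lt_or_eq with hlt | heq
    · have h5 : padicNorm 3 (U ^ 2) = padicNorm 3 (3 * W ^ 2) := by
        have e : U ^ 2 = c - 3 * W ^ 2 := by rw [hUW]; ring
        rw [e, pn_sub_right (by rw [hc1]; exact hlt)]
      have hU0 : U ≠ 0 := by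
        intro h6
        rw [h6] at h5
        simp only [ne_eq, OfNat.ofNat_ne_zero, not_false_eq_true, zero_pow, padicNorm.zero] at h5
        exact padicNorm.nonzero hbW0 h5.symm
      rw [pn_eq_iff (by (clear * - hU0; positivity)) hbW0, padicValRat.pow, hval, Nat.cast_ofNat] at h5
      omega
    · have h6 : padicNorm 3 (3 * W ^ 2) = padicNorm 3 1 := by rw [← heq, padicNorm.one]
      rw [pn_eq_iff hbW0 one_ne_zero, hval, padicValRat.one] at h6
      omega
  have hU1 : padicNorm 3 U = 1 := by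
    have e : U ^ 2 = c - 3 * W ^ 2 := by rw [hUW]; ring
    have h7 : padicNorm 3 (U ^ 2) = 1 := by
      rw [e, pn_sub_left (by rw [hc1]; exact hsmall), hc1]
    rw [pn_sq] at h7
    exact (pow_eq_one_iff_of_nonneg (padicNorm.nonneg _) (by norm_num)).1 h7
  have hU0 : U ≠ 0 := by
    rintro h0
    rw [h0, padicNorm.zero] at hU1
    norm_num at hU1
  have hNR : NR 3 (-c) := by
    refine ⟨by rw [padicNorm.neg, hc1], fun s => ?_⟩
    by_contra hcon
    push Not at hcon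
    have h8 := hm1.2 (s / U)
    have e8 : -1 - (s / U) ^ 2 = (3 * W ^ 2 + (-c - s ^ 2)) / U ^ 2 := by
      rw [hUW]; field_simp; ring
    have h9 : padicNorm 3 (3 * W ^ 2 + (-c - s ^ 2)) < 1 :=
      padicNorm.nonarchimedean.trans_lt (max_lt hsmall hcon)
    rw [e8, padicNorm.div, pn_sq, hU1, one_pow, div_one] at h8
    linarith only [h8, h9]
  obtain ⟨σ, hσ⟩ := hNR.norm_form' x (ρ * z)
  have e2 : x ^ 2 - (-c) * (ρ * z) ^ 2 = 1 + 3 * r ^ 2 := by
    rw [← h, hac]; ring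
  have h3r : padicNorm 3 (3 * r ^ 2) = padicNorm 3 r ^ 2 / 3 := by
    rw [padicNorm.mul, pn_sq, n3]; ring
  have hr3 : 3 ≤ padicNorm 3 r := by
    rw [padicNorm.eq_zpow_of_nonzero hr0]
    have : (1 : ℤ) ≤ -padicValRat 3 r := by omega
    calc (3 : ℚ) = ((3 : ℕ) : ℚ) ^ (1 : ℤ) := by norm_num
      _ ≤ _ := zpow_le_zpow_right₀ (by norm_num) this
  have e3 : padicNorm 3 (1 + 3 * r ^ 2) = padicNorm 3 (3 * r ^ 2) := by
    rw [pn_add_right]
    rw [h3r, padicNorm.one]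
    have h9 : (3 : ℚ) ^ 2 ≤ padicNorm 3 r ^ 2 := pow_le_pow_left₀ (by norm_num) hr3 2
    linarith only [h9]
  rw [e2, e3] at hσ
  have hσ0 : σ ≠ 0 := by
    rintro rfl
    rw [padicNorm.zero, h3r] at hσ
    have h9 : (3 : ℚ) ^ 2 ≤ padicNorm 3 r ^ 2 := pow_le_pow_left₀ (by norm_num) hr3 2
    linarith only [hσ, h9]
  rw [← pn_sq, pn_eq_iff (by (clear * - hr0; positivity)) (by (clear * - hσ0; positivity)), padicValRat.pow,
    padicValRat.mul (by norm_num) (by (clear * - hr0; positivity)), padicValRat.pow, n3', Nat.cast_ofNat] at hσ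
  omega

lemma jacobi_neg_one_class {M A : ℕ} (hM : 0 < M) (hA : A % (4 * M) = 4 * M - 1) :
    jacobiSym (M : ℤ) A = 1 := by
  have hodd : Odd A := by
    rw [Nat.odd_iff]
    have h1 : A % (4 * M) % 2 = A % 2 := Nat.mod_mod_of_dvd _ ⟨2 * M, by ring⟩
    omega
  have hodd' : Odd (4 * M - 1) := by rw [Nat.odd_iff]; omega
  rw [jacobiSym.mod_right' M hodd, hA]
  have h4 : jacobiSym (4 * (M : ℤ)) (4 * M - 1) = jacobiSym 1 (4 * M - 1) := by
    apply jacobiSym.mod_left'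
    have : (4 * (M : ℤ)) = 1 + ((4 * M - 1 : ℕ) : ℤ) := by
      have : 1 ≤ 4 * M := by omega
      push_cast [this]; ring
    rw [this, Int.add_emod_right]
  rw [jacobiSym.mul_left, jacobiSym.at_four hodd', one_mul, jacobiSym.one_left] at h4
  exact h4

lemma int3_forward {r : ℚ} (h : 0 ≤ padicValRat 3 r) :
    ∃ A u v e f x z : ℚ, A ≠ 0 ∧ A = u ^ 2 + 3 * v ^ 2 ∧ A = e ^ 2 - 2 * f ^ 2 ∧
      x ^ 2 + A * z ^ 2 = 1 + 3 * r ^ 2 := by
  have : Fact (Nat.Prime 3) := ⟨Nat.prime_three⟩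
  have hden := odd_den (p := 3) h
  set n := r.den with hn
  set m := r.num with hm
  have hn0 : 0 < n := r.den_pos
  have hr : r = m / n := (Rat.num_div_den r).symm
  set M := n ^ 2 + 3 * m.natAbs ^ 2 with hM
  have hM0 : 0 < M := by (clear * -; positivity)
  obtain ⟨M₀, s, hM₀, hs0, hsM, hsqf⟩ := Nat.sq_mul_squarefree_of_pos hM0
  have hMq : (s : ℚ) ^ 2 * M₀ = n ^ 2 + 3 * m ^ 2 := by
    have h1 : ((s ^ 2 * M₀ : ℕ) : ℚ) = ((n ^ 2 + 3 * m.natAbs ^ 2 : ℕ) : ℚ) := by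
      rw [hsM]
    push_cast at h1
    rw [h1, Nat.cast_natAbs, Int.cast_abs, sq_abs]
  have h3M : ¬ 3 ∣ M₀ := by
    intro hd
    have h1 : 3 ∣ n ^ 2 + 3 * m.natAbs ^ 2 := by
      rw [← hM, ← hsM]; exact Dvd.dvd.mul_left hd _
    have h2 : 3 ∣ n ^ 2 := (Nat.dvd_add_left (Dvd.intro _ rfl)).1 h1
    exact hden (Nat.prime_three.dvd_of_dvd_pow h2)
  -- the prime
  have hcop : Nat.Coprime (8 * M₀) 3 := by
    rw [Nat.coprime_comm, Nat.Prime.coprime_iff_not_dvd Nat.prime_three]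
    intro hd
    rcases (Nat.Prime.dvd_mul Nat.prime_three).1 hd with h1 | h1
    · omega
    · exact h3M h1
  obtain ⟨a, ha1, ha2⟩ := Nat.chineseRemainder hcop (8 * M₀ - 1) 1
  have hac : a.Coprime (8 * M₀ * 3) := by
    apply Nat.Coprime.mul_right
    · have h1 : Nat.Coprime (8 * M₀ - 1) (8 * M₀) := by
        have : 8 * M₀ = (8 * M₀ - 1) + 1 := by omega
        nth_rw 2 [this]
        exact Nat.coprime_self_add_right.2 (Nat.coprime_one_right _)
      exact (ha1.gcd_eq).trans h1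
    · exact (ha2.gcd_eq).trans (by norm_num)
  obtain ⟨p, hpM, hp, hpa⟩ := Nat.forall_exists_prime_gt_and_modEq (8 * M₀) (by positivity) hac
  have hp1 : p % (8 * M₀) = 8 * M₀ - 1 := by
    have h1 : p ≡ 8 * M₀ - 1 [MOD 8 * M₀] := (hpa.of_mul_right _).trans ha1
    have h2 : p % (8 * M₀) = (8 * M₀ - 1) % (8 * M₀) := h1
    rw [h2, Nat.mod_eq_of_lt (by omega)]
  have hp3 : p % 3 = 1 := by
    have h1 : p ≡ 1 [MOD 3] := (hpa.of_mul_left _).trans ha2
    exact h1
  have hp4 : p % (4 * M₀) = 4 * M₀ - 1 := by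
    have h1 : p % (8 * M₀) % (4 * M₀) = p % (4 * M₀) := Nat.mod_mod_of_dvd _ ⟨2, by ring⟩
    rw [← h1, hp1]
    have : 8 * M₀ - 1 = (4 * M₀ - 1) + 4 * M₀ := by (clear * - hM₀; omega)
    rw [this, Nat.add_mod_right, Nat.mod_eq_of_lt (by omega)]
  have hp8 : p % 8 = 7 := by
    have h1 : p % (8 * M₀) % 8 = p % 8 := Nat.mod_mod_of_dvd _ ⟨M₀, by ring⟩
    omega
  have : Fact p.Prime := ⟨hp⟩
  have hp0 : (0 : ℤ) < p := by exact_mod_cast hp.pos
  -- three conics
  have c1 : ∃ u v : ℚ, ((p : ℤ) : ℚ) = u ^ 2 - ((-3 : ℤ) : ℚ) * v ^ 2 := by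
    have h1 : jacobiSym (-3) p = 1 := by
      have e : (-3 : ℤ) = -1 * ((3 : ℕ) : ℤ) := by norm_num
      have hodd : Odd p := by rw [Nat.odd_iff]; (clear * - hp3 hp8; omega)
      rw [e, jacobiSym.mul_left, jacobiSym.at_neg_one hodd,
        jacobiSym.quadratic_reciprocity_three_mod_four (by norm_num) (by (clear * - hp3 hp8; omega)),
        ZMod.χ₄_nat_three_mod_four (by (clear * - hp3 hp8; omega))]
      have h2 : jacobiSym (p : ℤ) 3 = jacobiSym 1 3 := by
        apply jacobiSym.mod_left'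
        (clear * - hp3; omega)
      rw [h2, jacobiSym.one_left]; norm_num
    obtain ⟨t, ht⟩ := exists_sq_sub_of_jacobi hp h1
    refine conic_ratI (s := 1) (t := t) hp0 (by norm_num) ?_ ?_ ht (not_isSquare_neg (by norm_num))
    · rw [Int.isCoprime_iff_gcd_eq_one]
      have h5 : Nat.Coprime p 3 := by
        rw [Nat.coprime_comm, Nat.Prime.coprime_iff_not_dvd Nat.prime_three]; omega
      simpa only [Int.gcd, Int.natAbs_natCast, Int.reduceNeg, Int.natAbs_neg, Int.reduceAbs] using h5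
    · have : (3 : ℤ) ∣ 1 ^ 2 - (p : ℤ) := by (clear * - hp3 hp8; omega)
      rw [show (-3 : ℤ) = -(3 : ℤ) by norm_num, neg_dvd]; exact this
  have c2 : ∃ e f : ℚ, ((p : ℤ) : ℚ) = e ^ 2 - ((2 : ℤ) : ℚ) * f ^ 2 := by
    have hodd : Odd p := by rw [Nat.odd_iff]; (clear * - hp3 hp8; omega)
    have h1 : jacobiSym 2 p = 1 := by
      rw [jacobiSym.at_two hodd, ZMod.χ₈_nat_eq_if_mod_eight]
      have : p % 2 ≠ 0 := by omega
      simp [hp8, this]
    obtain ⟨t, ht⟩ := exists_sq_sub_of_jacobi hp h1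
    refine conic_ratI (s := 1) (t := t) hp0 (by norm_num) ?_ ?_ ht not_isSquare_two'
    · rw [Int.isCoprime_iff_gcd_eq_one]
      have h5 : Nat.Coprime p 2 := (Nat.coprime_comm.1 (Nat.coprime_two_left.2 hodd))
      simpa only [Int.gcd, Int.natAbs_natCast, Int.reduceAbs, Nat.coprime_two_right] using h5
    · (clear * - hp3 hp8; omega)
  have c3 : ∃ x z : ℚ, ((M₀ : ℤ) : ℚ) = x ^ 2 - ((-(p : ℤ) : ℤ) : ℚ) * z ^ 2 := by
    have h1 := jacobi_neg_one_class hM₀ hp4
    obtain ⟨t, ht⟩ := exists_sq_sub_of_jacobi hp h1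
    refine conic_ratI (s := t) (t := 1) (by exact_mod_cast hM₀) (by (clear * - hp3 hp8; omega)) ?_ ?_ ?_
      (not_isSquare_neg (by (clear * - hp3 hp8; omega)))
    · rw [Int.isCoprime_iff_gcd_eq_one]
      have h5 : Nat.Coprime M₀ p := by
        rw [Nat.coprime_comm, Nat.Prime.coprime_iff_not_dvd hp]
        intro hd
        have := Nat.le_of_dvd hM₀ hd
        (clear * - hM₀ hpM hp3 hp8 this; omega)
      simpa only [Int.gcd, Int.natAbs_natCast, Int.natAbs_neg] using h5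
    · rw [neg_dvd]; exact ht
    · have h1 : (4 * M₀ : ℤ) ∣ (p : ℤ) + 1 := by
        have h2 : 4 * M₀ ∣ p + 1 := by
          rw [Nat.dvd_iff_mod_eq_zero, Nat.add_mod, hp4]
          rw [Nat.mod_eq_of_lt (show 1 < 4 * M₀ by omega)]
          have : 4 * M₀ - 1 + 1 = 4 * M₀ := by (clear * - hM₀; omega)
          rw [this, Nat.mod_self]
        exact_mod_cast h2
      have h3 : (M₀ : ℤ) ∣ (p : ℤ) + 1 := dvd_trans ⟨4, by ring⟩ h1
      have e : (1 : ℤ) ^ 2 - -(p : ℤ) = p + 1 := by ring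
      rw [e]; exact h3
  obtain ⟨u, v, huv⟩ := c1
  obtain ⟨e, f, hef⟩ := c2
  obtain ⟨x, z, hxz⟩ := c3
  have hnq : (n : ℚ) ≠ 0 := by exact_mod_cast hn0.ne'
  refine ⟨p, u, v, e, f, x * (s / n), z * (s / n), by exact_mod_cast hp.ne_zero, ?_, ?_, ?_⟩
  · push_cast at huv ⊢
    rw [huv]; ring
  · push_cast at hef ⊢
    exact hef
  · push_cast at hxz
    rw [hr]
    field_simp
    linear_combination hMq + (s : ℚ) ^ 2 * (-hxz)

theorem int3_iff (r : ℚ) : 0 ≤ padicValRat 3 r ↔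
    ∃ A u v e f x z : ℚ, A ≠ 0 ∧ A = u ^ 2 + 3 * v ^ 2 ∧ A = e ^ 2 - 2 * f ^ 2 ∧
      x ^ 2 + A * z ^ 2 = 1 + 3 * r ^ 2 :=
  ⟨int3_forward, fun ⟨_, _, _, _, _, _, _, h0, h1, h2, h3⟩ => int3_backward h0 h1 h2 h3⟩

/-! ### the prime two -/

lemma no_three_sq_aux (D : ℕ) : ∀ (K a b c : ℤ), K % 8 = 7 → 0 < D →
    (D : ℤ) ^ 2 * K = a ^ 2 + b ^ 2 + c ^ 2 → False := by
  induction D using Nat.strong_induction_on with
  | _ D ih =>
  intro K a b c hK hD h
  have key : ∀ x : ℤ, (x % 2 = 0 ∧ x ^ 2 % 4 = 0) ∨ (x % 2 = 1 ∧ x ^ 2 % 8 = 1) := by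
    intro x
    have h8 : x % 8 = 0 ∨ x % 8 = 1 ∨ x % 8 = 2 ∨ x % 8 = 3 ∨ x % 8 = 4 ∨ x % 8 = 5 ∨
      x % 8 = 6 ∨ x % 8 = 7 := by omega
    rcases h8 with h | h | h | h | h | h | h | h
    · left; refine ⟨by omega, ?_⟩; rw [pow_two, Int.mul_emod, show x % 4 = 0 by omega]; norm_num
    · right; refine ⟨by omega, ?_⟩; rw [pow_two, Int.mul_emod, h]; norm_num
    · left; refine ⟨by omega, ?_⟩; rw [pow_two, Int.mul_emod, show x % 4 = 2 by omega]; norm_num
    · right; refine ⟨by omega, ?_⟩; rw [pow_two, Int.mul_emod, h]; norm_num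
    · left; refine ⟨by omega, ?_⟩; rw [pow_two, Int.mul_emod, show x % 4 = 0 by omega]; norm_num
    · right; refine ⟨by omega, ?_⟩; rw [pow_two, Int.mul_emod, h]; norm_num
    · left; refine ⟨by omega, ?_⟩; rw [pow_two, Int.mul_emod, show x % 4 = 2 by omega]; norm_num
    · right; refine ⟨by omega, ?_⟩; rw [pow_two, Int.mul_emod, h]; norm_num
  have ka := key a
  have kb := key b
  have kc := key c
  rcases key D with ⟨hD2, -⟩ | ⟨hD2, hD8⟩
  · obtain ⟨D', rfl⟩ : ∃ D', D = 2 * D' := ⟨D / 2, by omega⟩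
    have h4 : (a ^ 2 + b ^ 2 + c ^ 2) % 4 = 0 := by
      rw [← h]; push_cast
      have : (2 * (D' : ℤ)) ^ 2 * K = 4 * ((D' : ℤ) ^ 2 * K) := by ring
      rw [this]; omega
    obtain ⟨a', rfl⟩ : ∃ a', a = 2 * a' := ⟨a / 2, by omega⟩
    obtain ⟨b', rfl⟩ : ∃ b', b = 2 * b' := ⟨b / 2, by omega⟩
    obtain ⟨c', rfl⟩ : ∃ c', c = 2 * c' := ⟨c / 2, by omega⟩
    refine ih D' (by omega) K a' b' c' hK (by omega) ?_
    push_cast at h
    linarith only [h]
  · have h8 : ((D : ℤ) ^ 2 * K) % 8 = 7 := by rw [Int.mul_emod, hD8, hK]; norm_num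
    rw [h] at h8
    omega

lemma int2_backward {r y₁ y₂ y₃ : ℚ} (h : 7 * r ^ 2 + 2 = y₁ ^ 2 + y₂ ^ 2 + y₃ ^ 2) :
    0 ≤ padicValRat 2 r := by
  have : Fact (Nat.Prime 2) := ⟨Nat.prime_two⟩
  by_contra hcon
  have hd : 2 ∣ r.den := by
    by_contra hd
    apply hcon
    rw [← pn_le_one_iff (q := 2)]
    have h6 : padicNorm 2 r = padicNorm 2 r.num / padicNorm 2 r.den := by
      rw [← padicNorm.div]
      congr 1
      exact (Rat.num_div_den r).symm
    have h8 : padicNorm 2 (r.den : ℚ) = 1 := (padicNorm.nat_eq_one_iff _).2 hd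
    rw [h6, h8, div_one]
    exact padicNorm.of_int _
  have hnum : r.num % 2 = 1 := by
    by_contra hcon2
    have h5 : 2 ∣ Nat.gcd r.num.natAbs r.den := Nat.dvd_gcd (by omega) hd
    rw [r.reduced] at h5
    omega
  set D := y₁.den * y₂.den * y₃.den with hD
  have hD0 : 0 < D := by positivity
  refine no_three_sq_aux D (7 * r.num ^ 2 + 2 * r.den ^ 2) (y₁.num * y₂.den * y₃.den * r.den)
    (y₂.num * y₁.den * y₃.den * r.den) (y₃.num * y₁.den * y₂.den * r.den) ?_ hD0 ?_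
  · obtain ⟨k, hk⟩ := hd
    have h1 : r.num ^ 2 % 8 = 1 := by
      have : r.num % 8 = 1 ∨ r.num % 8 = 3 ∨ r.num % 8 = 5 ∨ r.num % 8 = 7 := by omega
      rcases this with h | h | h | h <;> rw [pow_two, Int.mul_emod, h] <;> norm_num
    have h2 : (2 * (r.den : ℤ) ^ 2) = 8 * (k : ℤ) ^ 2 := by rw [hk]; push_cast; ring
    rw [h2]
    omega
  · have e : ∀ y : ℚ, (y.num : ℚ) = y * y.den := fun y => by
      have := Rat.num_div_den y
      have h0 : (y.den : ℚ) ≠ 0 := by exact_mod_cast y.den_ne_zero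
      field_simp at this
      linarith only [this]
    have hq : ((((D : ℤ) ^ 2 * (7 * r.num ^ 2 + 2 * r.den ^ 2) : ℤ)) : ℚ) =
        (((y₁.num * y₂.den * y₃.den * r.den) ^ 2 + (y₂.num * y₁.den * y₃.den * r.den) ^ 2 +
        (y₃.num * y₁.den * y₂.den * r.den) ^ 2 : ℤ) : ℚ) := by
      rw [hD]
      push_cast
      rw [e y₁, e y₂, e y₃, e r]
      linear_combination ((y₁.den : ℚ) * y₂.den * y₃.den * r.den) ^ 2 * h
    exact_mod_cast hq

/-- sums of three rational squares -/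
lemma three_squares {N₀ : ℕ} (h : N₀ % 8 = 1 ∨ N₀ % 4 = 2) (h0 : 0 < N₀) :
    ∃ a b c : ℚ, (N₀ : ℚ) = a ^ 2 + b ^ 2 + c ^ 2 := by
  -- the prime
  obtain ⟨p, hp, hpN, hp4, hdvd, hj⟩ : ∃ p : ℕ, p.Prime ∧ N₀ < p ∧ p % 4 = 1 ∧ N₀ ∣ p + 1 ∧
      jacobiSym (N₀ : ℤ) p = 1 := by
    obtain ⟨N₁, e, hN₁, hN, he⟩ : ∃ N₁ e : ℕ, N₁ % 2 = 1 ∧ (N₀ = N₁ ∧ N₁ % 8 = 1 ∧ e = 1 ∨
        N₀ = 2 * N₁ ∧ (N₁ % 4 = 1 ∧ e = 1 ∨ N₁ % 4 = 3 ∧ e = 5)) ∧ (e = 1 ∨ e = 5) := by
      rcases h with h | h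
      · exact ⟨N₀, 1, by omega, Or.inl ⟨rfl, h, rfl⟩, Or.inl rfl⟩
      · obtain ⟨N₁, rfl⟩ : ∃ N₁, N₀ = 2 * N₁ := ⟨N₀ / 2, by omega⟩
        have h1 : N₁ % 4 = 1 ∨ N₁ % 4 = 3 := by omega
        rcases h1 with h1 | h1
        · exact ⟨N₁, 1, by omega, Or.inr ⟨rfl, Or.inl ⟨h1, rfl⟩⟩, Or.inl rfl⟩
        · exact ⟨N₁, 5, by omega, Or.inr ⟨rfl, Or.inr ⟨h1, rfl⟩⟩, Or.inr rfl⟩
    have hN₁0 : 0 < N₁ := by omega
    have hcop : Nat.Coprime N₁ 8 := by
      have : Nat.Coprime N₁ (2 ^ 3) := by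
        apply Nat.Coprime.pow_right
        rw [Nat.coprime_comm, Nat.coprime_two_left, Nat.odd_iff]; exact hN₁
      simpa using this
    obtain ⟨a, ha1, ha2⟩ := Nat.chineseRemainder hcop (N₁ * 2 - 1) e
    have hac : a.Coprime (N₁ * 8) := by
      apply Nat.Coprime.mul_right
      · have h1 : Nat.Coprime (N₁ * 2 - 1) N₁ := by
          have h2 : Nat.Coprime (N₁ * 2 - 1) (N₁ * 2) := by
            have : N₁ * 2 = (N₁ * 2 - 1) + 1 := by omega
            nth_rw 2 [this]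
            exact Nat.coprime_self_add_right.2 (Nat.coprime_one_right _)
          exact h2.coprime_mul_right_right
        exact (ha1.gcd_eq).trans h1
      · refine (ha2.gcd_eq).trans ?_
        rcases he with rfl | rfl <;> norm_num
    obtain ⟨p, hpM, hp, hpa⟩ := Nat.forall_exists_prime_gt_and_modEq N₀
      (q := N₁ * 8) (by positivity) hac
    have hp1 : N₁ ∣ p + 1 := by
      have h1 : p ≡ N₁ * 2 - 1 [MOD N₁] := (hpa.of_mul_right _).trans ha1
      have h2 : p + 1 ≡ N₁ * 2 - 1 + 1 [MOD N₁] := h1.add_right 1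
      have h3 : N₁ * 2 - 1 + 1 = N₁ * 2 := by omega
      rw [h3] at h2
      exact (Nat.modEq_zero_iff_dvd).1 (h2.trans ((Nat.modEq_zero_iff_dvd).2 ⟨2, rfl⟩))
    have hp8 : p % 8 = e := by
      have h1 : p ≡ e [MOD 8] := (hpa.of_mul_left _).trans ha2
      have h2 : p % 8 = e % 8 := h1
      rcases he with rfl | rfl <;> simpa using h2
    have hpodd : Odd p := by rw [Nat.odd_iff]; rcases he with rfl | rfl <;> omega
    have hN₁odd : Odd N₁ := Nat.odd_iff.2 hN₁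
    have hj1 : jacobiSym (N₁ : ℤ) p = ZMod.χ₄ N₁ := by
      rw [← jacobiSym.quadratic_reciprocity_one_mod_four (a := p) (b := N₁)
        (by rcases he with rfl | rfl <;> omega) hN₁odd, ← jacobiSym.at_neg_one hN₁odd]
      apply jacobiSym.mod_left'
      have h1 : (N₁ : ℤ) ∣ (p : ℤ) + 1 := by exact_mod_cast hp1
      apply Int.emod_eq_emod_iff_emod_sub_eq_zero.2
      rw [sub_neg_eq_add]
      exact Int.emod_eq_zero_of_dvd h1
    refine ⟨p, hp, hpM, by rcases he with rfl | rfl <;> omega, ?_, ?_⟩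
    · rcases hN with ⟨hNN, -, -⟩ | ⟨hNN, -⟩
      · rw [hNN]; exact hp1
      · rw [hNN]
        apply Nat.Coprime.mul_dvd_of_dvd_of_dvd _ _ hp1
        · rw [Nat.coprime_two_left]; exact hN₁odd
        · rw [Nat.odd_iff] at hpodd; omega
    · rcases hN with ⟨hNN, h8, -⟩ | ⟨hNN, h8⟩
      · rw [hNN, hj1, ZMod.χ₄_nat_one_mod_four (by omega)]
      · rw [hNN]
        push_cast
        rw [jacobiSym.mul_left, hj1, jacobiSym.at_two hpodd, ZMod.χ₈_nat_eq_if_mod_eight]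
        have hp2 : p % 2 ≠ 0 := by rw [Nat.odd_iff] at hpodd; (clear * - hp8 hpodd; omega)
        rcases h8 with ⟨h8, rfl⟩ | ⟨h8, rfl⟩
        · rw [ZMod.χ₄_nat_one_mod_four h8]
          simp [hp8, hp2]
        · rw [ZMod.χ₄_nat_three_mod_four h8]
          simp [hp8, hp2]
  obtain ⟨t, ht⟩ := exists_sq_sub_of_jacobi hp hj
  have c3 : ∃ x z : ℚ, ((N₀ : ℤ) : ℚ) = x ^ 2 - ((-(p : ℤ) : ℤ) : ℚ) * z ^ 2 := by
    refine conic_ratI (s := t) (t := 1) (by exact_mod_cast h0) (by have := hp.pos; omega) ?_ ?_ ?_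
      (not_isSquare_neg (by have := hp.pos; omega))
    · rw [Int.isCoprime_iff_gcd_eq_one]
      have h5 : Nat.Coprime N₀ p := by
        rw [Nat.coprime_comm, Nat.Prime.coprime_iff_not_dvd hp]
        intro hd
        have := Nat.le_of_dvd h0 hd
        omega
      simpa only [Int.gcd, Int.natAbs_natCast, Int.natAbs_neg] using h5
    · rw [neg_dvd]; exact ht
    · have h1 : (N₀ : ℤ) ∣ (p : ℤ) + 1 := by exact_mod_cast hdvd
      have e : (1 : ℤ) ^ 2 - -(p : ℤ) = p + 1 := by ring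
      rw [e]; exact h1
  obtain ⟨x, z, hxz⟩ := c3
  have : Fact p.Prime := ⟨hp⟩
  obtain ⟨c, d, hcd⟩ := Nat.Prime.sq_add_sq (p := p) (by omega)
  refine ⟨x, c * z, d * z, ?_⟩
  have hcdq : (c : ℚ) ^ 2 + (d : ℚ) ^ 2 = p := by exact_mod_cast hcd
  push_cast at hxz
  rw [hxz, ← hcdq]; ring

lemma int2_forward {r : ℚ} (h : 0 ≤ padicValRat 2 r) :
    ∃ y₁ y₂ y₃ : ℚ, 7 * r ^ 2 + 2 = y₁ ^ 2 + y₂ ^ 2 + y₃ ^ 2 := by
  have : Fact (Nat.Prime 2) := ⟨Nat.prime_two⟩
  have hden := odd_den (p := 2) h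
  set n := r.den with hn
  set m := r.num with hm
  have hn0 : 0 < n := r.den_pos
  have hr : r = m / n := (Rat.num_div_den r).symm
  set M := 7 * m.natAbs ^ 2 + 2 * n ^ 2 with hM
  have hM0 : 0 < M := by (clear * -; positivity)
  have hn8 : n ^ 2 % 8 = 1 := by
    have : n % 8 = 1 ∨ n % 8 = 3 ∨ n % 8 = 5 ∨ n % 8 = 7 := by omega
    rcases this with h | h | h | h <;> rw [Nat.pow_mod, h]
  have hM8 : M % 8 = 1 ∨ M % 4 = 2 := by
    by_cases hmo : m.natAbs % 2 = 1
    · left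
      have hm8 : m.natAbs ^ 2 % 8 = 1 := by
        have : m.natAbs % 8 = 1 ∨ m.natAbs % 8 = 3 ∨ m.natAbs % 8 = 5 ∨ m.natAbs % 8 = 7 := by omega
        rcases this with h | h | h | h <;> rw [Nat.pow_mod, h]
      omega
    · right
      have hm4 : m.natAbs ^ 2 % 4 = 0 := by
        have : m.natAbs % 4 = 0 ∨ m.natAbs % 4 = 2 := by omega
        rcases this with h | h <;> rw [Nat.pow_mod, h]
      omega
  obtain ⟨M₀, s, hM₀, hs0, hsM, hsqf⟩ := Nat.sq_mul_squarefree_of_pos hM0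
  have hso : s % 2 = 1 := by
    by_contra hs
    have h1 : 4 ∣ s ^ 2 * M₀ := by
      have : 2 ^ 2 ∣ s ^ 2 := pow_dvd_pow_of_dvd (by omega) 2
      exact Dvd.dvd.mul_right (by simpa using this) _
    rw [hsM] at h1
    omega
  have hs8 : s ^ 2 % 8 = 1 := by
    have : s % 8 = 1 ∨ s % 8 = 3 ∨ s % 8 = 5 ∨ s % 8 = 7 := by (clear * - hso; omega)
    rcases this with h | h | h | h <;> rw [Nat.pow_mod, h]
  have hM₀8 : M₀ % 8 = M % 8 := by
    rw [← hsM, Nat.mul_mod, hs8, one_mul, Nat.mod_mod]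
  obtain ⟨a, b, c, habc⟩ := three_squares (N₀ := M₀) (by omega) hM₀
  have hMq : (s : ℚ) ^ 2 * M₀ = 7 * m ^ 2 + 2 * n ^ 2 := by
    have h1 : ((s ^ 2 * M₀ : ℕ) : ℚ) = ((7 * m.natAbs ^ 2 + 2 * n ^ 2 : ℕ) : ℚ) := by
      rw [hsM]
    push_cast at h1
    rw [h1, Nat.cast_natAbs, Int.cast_abs, sq_abs]
  have hnq : (n : ℚ) ≠ 0 := by exact_mod_cast hn0.ne'
  refine ⟨a * (s / n), b * (s / n), c * (s / n), ?_⟩
  rw [hr]
  field_simp
  rw [habc] at hMq
  linear_combination -hMq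

theorem int2_iff (r : ℚ) : 0 ≤ padicValRat 2 r ↔
    ∃ y₁ y₂ y₃ : ℚ, 7 * r ^ 2 + 2 = y₁ ^ 2 + y₂ ^ 2 + y₃ ^ 2 :=
  ⟨int2_forward, fun ⟨_, _, _, h⟩ => int2_backward h⟩

end Vale.Agent.P027
end
end

section

section

namespace Vale.Agent.P027

theorem vnat_zero {p n : ℕ} (h : ¬ p ∣ n) : padicValRat p (n : ℚ) = 0 := by
  rw [padicValRat.of_nat, padicValNat.eq_zero_of_not_dvd h]; rfl

theorem vself {p : ℕ} (hp : p.Prime) : padicValRat p (p : ℚ) = 1 :=
  padicValRat.self hp.one_lt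

theorem vprime {p q : ℕ} (hp : p.Prime) (hq : q.Prime) (h : p ≠ q) :
    padicValRat p (q : ℚ) = 0 :=
  vnat_zero (fun hd => h ((Nat.prime_dvd_prime_iff_eq hp hq).1 hd))

theorem v23 : padicValRat 2 (3 : ℚ) = 0 := by
  have := vnat_zero (p := 2) (n := 3) (by norm_num)
  simpa using this

theorem v22 : padicValRat 2 (2 : ℚ) = 1 := by
  simpa using vself Nat.prime_two

theorem v28 : padicValRat 2 (8 : ℚ) = 3 := by
  rw [show (8 : ℚ) = 2 ^ 3 by norm_num, padicValRat.pow, v22]; norm_num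

theorem v24 : padicValRat 2 (4 : ℚ) = 2 := by
  rw [show (4 : ℚ) = 2 ^ 2 by norm_num, padicValRat.pow, v22]; norm_num

theorem v33 : padicValRat 3 (3 : ℚ) = 1 := by
  simpa using vself Nat.prime_three

theorem v39 : padicValRat 3 (9 : ℚ) = 2 := by
  rw [show (9 : ℚ) = 3 ^ 2 by norm_num, padicValRat.pow, v33]; norm_num

theorem Three8.val {b : ℚ} (hb : Three8 b) : b ≠ 0 ∧ padicValRat 2 b = 0 := by
  unfold Three8 at hb
  obtain ⟨c, hc⟩ : ∃ c, c = (b - 3) / 8 := ⟨_, rfl⟩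
  rw [← hc] at hb
  have hbc : b = 3 + 8 * c := by rw [hc]; ring
  rcases eq_or_ne c 0 with h0 | h0
  · rw [hbc, h0]; norm_num [v23]
  have h8 : padicValRat 2 (8 * c) = 3 + padicValRat 2 c := by
    rw [padicValRat.mul (by norm_num) h0, v28]
  have hb0 : (3 : ℚ) + 8 * c ≠ 0 := by
    intro h
    have h1 : 8 * c = -3 := by linarith only [h]
    rw [h1, padicValRat.neg, v23] at h8
    linarith only [hb, h8]
  refine ⟨by rw [hbc]; exact hb0, ?_⟩
  rw [hbc, padicValRat.add_eq_of_lt hb0 (by norm_num) (mul_ne_zero (by norm_num) h0)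
    (by rw [v23, h8]; linarith only [hb]), v23]

theorem not_three8_iff {t : ℚ} : ¬ Three8 t ↔ (t ≠ 3 ∧ 0 ≤ padicValRat 2 (4 / (t - 3))) := by
  unfold Three8
  rcases eq_or_ne t 3 with h | h
  · subst h; simp
  have h' : t - 3 ≠ 0 := sub_ne_zero.2 h
  rw [padicValRat.div h' (by norm_num), padicValRat.div (by norm_num) h', v28, v24]
  constructor
  · intro h1; exact ⟨h, by omega⟩
  · rintro ⟨-, h1⟩; omega

theorem Inert.ne_two {q : ℕ} (hq : Inert q) : q ≠ 2 := by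
  rintro rfl; rcases hq.2 with h | h <;> omega

theorem Inert.v2 {q : ℕ} (hq : Inert q) : padicValRat 2 (q : ℚ) = 0 :=
  vprime Nat.prime_two hq.1 hq.ne_two.symm

end Vale.Agent.P027
end
end

section

section

namespace Vale.Agent.P027

theorem sqf_rat {x : ℚ} (hx : x ≠ 0) : ∃ (n : ℤ) (s : ℚ), Squarefree n ∧ s ≠ 0 ∧
    x = n * s ^ 2 := by
  obtain ⟨a, b, hab, ha⟩ := Nat.sq_mul_squarefree (x.num * x.den).natAbs
  have hN : x.num * x.den ≠ 0 := mul_ne_zero (Rat.num_ne_zero.2 hx) (by exact_mod_cast x.den_ne_zero)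
  have hb : b ≠ 0 := by
    rintro rfl
    rw [zero_pow (by norm_num), zero_mul] at hab
    exact hN (Int.natAbs_eq_zero.1 hab.symm)
  have hd : (x.den : ℚ) ≠ 0 := by exact_mod_cast x.den_ne_zero
  have hx' : x = (x.num * x.den : ℤ) / (x.den : ℚ) ^ 2 := by
    push_cast
    conv_lhs => rw [← Rat.num_div_den x]
    (clear * - hd hx; field_simp)
  obtain ⟨e, he, hN'⟩ : ∃ e : ℤ, (e = 1 ∨ e = -1) ∧ (x.num * x.den : ℤ) = e * ((b : ℤ) ^ 2 * a) := by
    have hab' : ((b : ℤ) ^ 2 * a) = ((x.num * x.den).natAbs : ℤ) := by exact_mod_cast hab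
    rcases Int.natAbs_eq (x.num * x.den) with h | h
    · exact ⟨1, Or.inl rfl, by rw [hab', one_mul]; exact h⟩
    · exact ⟨-1, Or.inr rfl, by rw [hab', neg_one_mul]; exact h⟩
  refine ⟨e * a, b / x.den, ?_, div_ne_zero (by exact_mod_cast hb) hd, ?_⟩
  · rw [← Int.squarefree_natAbs, Int.natAbs_mul, Int.natAbs_natCast]
    rcases he with rfl | rfl <;> simpa using ha
  · conv_lhs => rw [hx', hN']
    push_cast
    (clear * - hd hb; field_simp)

theorem den_odd_of_val {x : ℚ} (h : 0 ≤ padicValRat 2 x) : Odd (x.den : ℤ) := by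
  by_contra hc
  rw [Int.not_odd_iff_even] at hc
  have h2 : 2 ∣ x.den := by
    have := hc.two_dvd
    exact_mod_cast this
  have hx : x ≠ 0 := by rintro rfl; simp at h2
  have hn : ¬ (2 : ℤ) ∣ x.num := by
    intro hd
    have h3 : 2 ∣ x.num.natAbs := Int.natCast_dvd.1 hd
    have := Nat.dvd_gcd h3 h2
    rw [x.reduced.gcd_eq_one] at this
    norm_num at this
  rw [padicValRat_def, padicValInt.eq_zero_of_not_dvd hn] at h
  have h4 : 1 ≤ padicValNat 2 x.den := one_le_padicValNat_of_dvd x.den_ne_zero h2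
  omega

theorem sq_mod8 {c : ℤ} (h : Odd c) : c ^ 2 ≡ 1 [ZMOD 8] := by
  obtain ⟨k, rfl⟩ := h
  obtain ⟨m, hm⟩ := Int.even_mul_succ_self k
  refine Int.modEq_iff_dvd.2 ⟨-m, ?_⟩
  linarith only [hm]

/-- parity and residue modulo eight of the squarefree part of a two-adic unit -/
theorem sqf_mod {n N D : ℤ} {s : ℚ} (hn : Squarefree n) (hD : Odd D) (hN : Odd N)
    (h : (N : ℚ) / D = n * s ^ 2) : n * D ≡ N [ZMOD 8] := by
  have hD0 : (D : ℚ) ≠ 0 := by
    have : D ≠ 0 := by rintro rfl; simp at hD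
    exact_mod_cast this
  have hd0 : (s.den : ℚ) ≠ 0 := by exact_mod_cast s.den_ne_zero
  have hcop := s.reduced
  obtain ⟨c, hc⟩ : ∃ c, c = s.num := ⟨_, rfl⟩
  obtain ⟨d, hd⟩ : ∃ d, d = s.den := ⟨_, rfl⟩
  have hs : s = c / d := by rw [hc, hd]; exact (Rat.num_div_den s).symm
  rw [← hc, ← hd] at hcop
  rw [← hd] at hd0
  have key : n * c ^ 2 * D = N * (d : ℤ) ^ 2 := by
    have : (n : ℚ) * c ^ 2 * D = N * (d : ℚ) ^ 2 := by
      rw [hs] at h
      field_simp at h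
      linarith only [h]
    exact_mod_cast this
  have hdodd : Odd (d : ℤ) := by
    by_contra hcon
    rw [Int.not_odd_iff_even] at hcon
    obtain ⟨k, hk⟩ := hcon.two_dvd
    have hcodd : Odd c := by
      by_contra hce
      rw [Int.not_odd_iff_even] at hce
      have h2d : 2 ∣ d := by exact_mod_cast hcon.two_dvd
      have h2c : 2 ∣ c.natAbs := Int.natCast_dvd.1 (by exact_mod_cast hce.two_dvd)
      have := Nat.dvd_gcd h2c h2d
      rw [hcop.gcd_eq_one] at this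
      norm_num at this
    have h4 : (2 * 2 : ℤ) ∣ n * (c ^ 2 * D) := ⟨N * k ^ 2, by rw [← mul_assoc, key, hk]; ring⟩
    have hodd : Odd (c ^ 2 * D) := hcodd.pow.mul hD
    have hco : IsCoprime (2 * 2 : ℤ) (c ^ 2 * D) := by
      have h2 : IsCoprime (2 : ℤ) (c ^ 2 * D) := by
        obtain ⟨m, hm⟩ := hodd
        exact ⟨-m, 1, by rw [hm]; ring⟩
      exact IsCoprime.mul_left h2 h2
    have h5 : (2 * 2 : ℤ) ∣ n := hco.dvd_of_dvd_mul_right h4
    have := hn 2 h5
    rw [Int.isUnit_iff] at this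
    omega
  have hcodd : Odd c := by
    by_contra hce
    rw [Int.not_odd_iff_even] at hce
    have h1 : Odd (N * (d : ℤ) ^ 2) := hN.mul hdodd.pow
    rw [← key] at h1
    have h2 : Even (n * c ^ 2 * D) := ((hce.pow_of_ne_zero (by norm_num)).mul_left n).mul_right D
    exact (Int.not_even_iff_odd.2 h1) h2
  have hc8 : c ^ 2 ≡ 1 [ZMOD 8] := sq_mod8 hcodd
  have hd8 : (d : ℤ) ^ 2 ≡ 1 [ZMOD 8] := sq_mod8 hdodd
  calc n * D = n * 1 * D := by ring
    _ ≡ n * c ^ 2 * D [ZMOD 8] := ((hc8.symm.mul_left n).mul_right D)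
    _ = N * (d : ℤ) ^ 2 := key
    _ ≡ N * 1 [ZMOD 8] := hd8.mul_left N
    _ = N := by ring

theorem val_sqf {p : ℕ} (hp : p.Prime) {n : ℤ} (hn : Squarefree n) {s : ℚ} (hs : s ≠ 0) {x : ℚ}
    (hx : x = n * s ^ 2) : Odd (padicValRat p x) ↔ (p : ℤ) ∣ n := by
  have := Fact.mk hp
  have hn0 : n ≠ 0 := hn.ne_zero
  have hn0' : (n : ℚ) ≠ 0 := by exact_mod_cast hn0
  rw [hx, padicValRat.mul hn0' (pow_ne_zero _ hs), padicValRat.pow, padicValRat.of_int]
  push_cast
  have h2 : padicValInt p n ≤ 1 := by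
    by_contra hc
    have h3 : ((p : ℤ) ^ 2) ∣ n := by
      refine dvd_trans (pow_dvd_pow _ (by omega : 2 ≤ padicValInt p n)) (padicValInt_dvd n)
    have h4 := hn p (by rwa [← sq])
    rw [Int.isUnit_iff] at h4
    have := hp.two_le
    omega
  constructor
  · intro ho
    by_contra hd
    rw [padicValInt.eq_zero_of_not_dvd hd] at ho
    have : Even (((0 : ℕ) : ℤ) + 2 * padicValRat p s) := by simp only [CharP.cast_eq_zero, zero_add, even_two, Even.mul_right]
    exact (Int.not_even_iff_odd.2 ho) this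
  · intro hd
    have h5 : padicValInt p n ≠ 0 := by
      intro h0
      rw [padicValInt.eq_zero_iff] at h0
      rcases h0 with h0 | h0 | h0
      · exact hp.one_lt.ne' h0
      · exact hn0 h0
      · exact h0 hd
    have h6 : padicValInt p n = 1 := by omega
    rw [h6]
    exact ⟨padicValRat p s, by push_cast; ring⟩

end Vale.Agent.P027
end
end

section

section

namespace Vale.Agent.P027

theorem sq_of_zmod {n : ℕ} {a : ℤ} (h : IsSquare (a : ZMod n)) : ∃ t : ℤ, (n : ℤ) ∣ t ^ 2 - a := by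
  obtain ⟨x, hx⟩ := h
  obtain ⟨t, rfl⟩ := ZMod.intCast_surjective x
  refine ⟨t, ?_⟩
  rw [← ZMod.intCast_eq_intCast_iff_dvd_sub, hx]
  push_cast
  ring

/-- squares modulo squarefree numbers -/
theorem sq_mod_prod (S : Finset ℕ) (hS : ∀ p ∈ S, p.Prime) (a : ℤ)
    (h : ∀ p ∈ S, ∃ t : ℤ, (p : ℤ) ∣ t ^ 2 - a) :
    ∃ t : ℤ, ((∏ p ∈ S, p : ℕ) : ℤ) ∣ t ^ 2 - a := by
  induction S using Finset.induction_on with
  | empty => exact ⟨0, by simp only [Finset.prod_empty, Nat.cast_one, ne_eq, OfNat.ofNat_ne_zero, not_false_eq_true, zero_pow, zero_sub, isUnit_one, IsUnit.dvd]⟩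
  | insert p S hp ih =>
    obtain ⟨t₁, h₁⟩ := ih (fun q hq => hS q (Finset.mem_insert_of_mem hq))
      (fun q hq => h q (Finset.mem_insert_of_mem hq))
    obtain ⟨t₂, h₂⟩ := h p (Finset.mem_insert_self p S)
    have hpp := hS p (Finset.mem_insert_self p S)
    have hco : Nat.Coprime p (∏ q ∈ S, q) := by
      refine Nat.Coprime.prod_right (fun q hq => ?_)
      rw [Nat.coprime_primes hpp (hS q (Finset.mem_insert_of_mem hq))]
      rintro rfl
      exact hp hq
    have hco' : IsCoprime (p : ℤ) ((∏ q ∈ S, q : ℕ) : ℤ) := Nat.isCoprime_iff_coprime.2 hco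
    obtain ⟨u, v, huv⟩ := hco'
    set m : ℤ := ((∏ q ∈ S, q : ℕ) : ℤ) with hm
    refine ⟨t₁ * (u * p) + t₂ * (v * m), ?_⟩
    rw [Finset.prod_insert hp, Nat.cast_mul, ← hm]
    refine IsCoprime.mul_dvd ⟨u, v, huv⟩ ?_ ?_
    · have e : (t₁ * (u * p) + t₂ * (v * m)) ^ 2 - a = (t₂ ^ 2 - a) +
        p * (t₁ * u * (t₁ * (u * p) + t₂ * (v * m)) +
          t₂ * ((v * m) * (t₁ * u) - u * t₂ * (1 + v * m))) := by
        have hvm : v * m = 1 - u * p := by linarith only [huv]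
        rw [hvm]; ring
      rw [e]
      exact dvd_add h₂ (dvd_mul_right _ _)
    · have e : (t₁ * (u * p) + t₂ * (v * m)) ^ 2 - a = (t₁ ^ 2 - a) +
        m * (t₂ * v * (t₁ * (u * p) + t₂ * (v * m)) +
          t₁ * ((u * p) * (t₂ * v) - v * t₁ * (1 + u * p))) := by
        have hup : u * p = 1 - v * m := by linarith only [huv]
        rw [hup]; ring
      rw [e]
      exact dvd_add h₁ (dvd_mul_right _ _)

theorem sq_mod_sqf {n : ℕ} (hn : Squarefree n) (a : ℤ)
    (h : ∀ p, p.Prime → p ∣ n → ∃ t : ℤ, (p : ℤ) ∣ t ^ 2 - a) :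
    ∃ t : ℤ, (n : ℤ) ∣ t ^ 2 - a := by
  have := sq_mod_prod n.primeFactors (fun p hp => Nat.prime_of_mem_primeFactors hp) a
    (fun p hp => h p (Nat.prime_of_mem_primeFactors hp) (Nat.dvd_of_mem_primeFactors hp))
  rwa [Nat.prod_primeFactors_of_squarefree hn] at this

theorem sq_two_mod {p : ℕ} (hp : p.Prime) (h : p % 8 = 1 ∨ p % 8 = 7) :
    ∃ t : ℤ, (p : ℤ) ∣ t ^ 2 - 2 := by
  have := Fact.mk hp
  have hp2 : p ≠ 2 := by rintro rfl; omega
  apply sq_of_zmod
  have := (ZMod.exists_sq_eq_two_iff hp2).2 h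
  simpa only [Int.cast_ofNat] using this

theorem sq_of_jacobi {q : ℕ} (hq : q.Prime) {a : ℤ} (h : jacobiSym a q = 1) :
    ∃ t : ℤ, (q : ℤ) ∣ t ^ 2 - a := by
  have := Fact.mk hq
  exact sq_of_zmod (ZMod.isSquare_of_jacobiSym_eq_one h)

theorem chi4_three {q : ℕ} (h : q % 4 = 3) : ZMod.χ₄ (q : ZMod 4) = -1 :=
  ZMod.χ₄_nat_three_mod_four h

theorem chi8_inert {q : ℕ} (h : q % 8 = 3 ∨ q % 8 = 5) : ZMod.χ₈ (q : ZMod 8) = -1 := by
  rw [ZMod.χ₈_nat_eq_if_mod_eight]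
  have h1 : ¬ q % 2 = 0 := by omega
  have h2 : ¬ (q % 8 = 1 ∨ q % 8 = 7) := by omega
  simp [h1, h2]

/-- first reciprocity computation -/
theorem recip_b {q : ℕ} (hq8 : q % 8 = 7) {b : ℤ} (hb : b % 8 = 3)
    (hqb : (q : ℤ) % b.natAbs = 2 % b.natAbs) : jacobiSym b q = 1 := by
  have hodd : Odd b.natAbs := by rw [Int.natAbs_odd, Int.odd_iff]; omega
  have hqodd : Odd q := by rw [Nat.odd_iff]; omega
  have hB : b.natAbs % 8 = 3 ∨ b.natAbs % 8 = 5 := by omega
  have h1 : jacobiSym q b.natAbs = -1 := by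
    rw [jacobiSym.mod_left' hqb, jacobiSym.at_two hodd]
    exact chi8_inert hB
  rcases le_or_gt 0 b with h0 | h0
  · obtain ⟨B, rfl⟩ := Int.eq_ofNat_of_zero_le h0
    simp only [Int.natAbs_natCast] at h1 hodd
    have := jacobiSym.quadratic_reciprocity_three_mod_four (a := B) (b := q) (by omega) (by omega)
    rw [this, h1]; norm_num
  · obtain ⟨B, hB'⟩ : ∃ B : ℕ, b = -B := ⟨b.natAbs, by omega⟩
    subst hB'
    simp only [Int.natAbs_neg, Int.natAbs_natCast] at h1 hodd hB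
    have := jacobiSym.quadratic_reciprocity_one_mod_four (a := B) (b := q) (by omega) hqodd
    rw [jacobiSym.neg _ hqodd, this, h1, chi4_three (by omega)]; norm_num

/-- second reciprocity computation -/
theorem recip_n {q : ℕ} (hq8 : q % 8 = 7) {n : ℤ} (hn : n % 4 = 1) {t : ℤ}
    (hco : Nat.Coprime q n.natAbs)
    (ht : (n.natAbs : ℤ) ∣ t ^ 2 - q) : jacobiSym n q = 1 := by
  have hodd : Odd n.natAbs := by rw [Int.natAbs_odd, Int.odd_iff]; omega
  have hqodd : Odd q := by rw [Nat.odd_iff]; omega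
  have h1 : jacobiSym q n.natAbs = 1 := by
    have e : (q : ℤ) % n.natAbs = (t ^ 2) % n.natAbs :=
      (Int.emod_emod_of_dvd _ (dvd_refl _)).symm.trans
        (by rw [Int.emod_emod_of_dvd _ (dvd_refl _)]; exact (Int.modEq_iff_dvd.2 ht))
    rw [jacobiSym.mod_left' e]
    apply jacobiSym.sq_one'
    have hg : IsCoprime (t ^ 2) (n.natAbs : ℤ) := by
      have h2 : IsCoprime (q : ℤ) (n.natAbs : ℤ) := Nat.isCoprime_iff_coprime.2 hco
      obtain ⟨c, hc⟩ := ht
      have : t ^ 2 = q + n.natAbs * c := by linarith only [hc]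
      rw [this]
      exact h2.add_mul_left_left c
    have h3 : IsCoprime t (n.natAbs : ℤ) := (IsCoprime.pow_left_iff (by norm_num)).1 hg
    rwa [Int.isCoprime_iff_gcd_eq_one] at h3
  rcases le_or_gt 0 n with h0 | h0
  · obtain ⟨N, rfl⟩ := Int.eq_ofNat_of_zero_le h0
    simp only [Int.natAbs_natCast] at h1 hodd
    have := jacobiSym.quadratic_reciprocity_one_mod_four (a := N) (b := q) (by omega) hqodd
    rw [this, h1]
  · obtain ⟨N, hN⟩ : ∃ N : ℕ, n = -N := ⟨n.natAbs, by omega⟩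
    subst hN
    simp only [Int.natAbs_neg, Int.natAbs_natCast] at h1 hodd
    have := jacobiSym.quadratic_reciprocity_three_mod_four (a := N) (b := q) (by omega) (by omega)
    rw [jacobiSym.neg _ hqodd, this, h1, chi4_three (by omega)]; norm_num

end Vale.Agent.P027
end
end

section

section

namespace Vale.Agent.P027

theorem no_sq {n X Z : ℤ} (hn : ∀ k, n ≠ k ^ 2) (h : X ^ 2 = n * Z ^ 2) : X = 0 ∧ Z = 0 := by
  rcases eq_or_ne Z 0 with rfl | hZ
  · refine ⟨?_, rfl⟩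
    simpa using h
  · exfalso
    have hd : Z ^ 2 ∣ X ^ 2 := ⟨n, by rw [h]; ring⟩
    rw [Int.pow_dvd_pow_iff (by norm_num)] at hd
    obtain ⟨k, rfl⟩ := hd
    apply hn k
    have hZ2 : Z ^ 2 ≠ 0 := pow_ne_zero _ hZ
    apply mul_right_cancel₀ hZ2
    rw [← h]; ring

/-- conic with positive first coefficient, both coefficients nonsquares -/
theorem gconic1 {α β s t : ℤ} (hα : 0 < α) (hβ : β ≠ 0) (hco : IsCoprime α β)
    (hs : β ∣ s ^ 2 - α) (ht : α ∣ t ^ 2 - β) (hns : ∀ k, β ≠ k ^ 2) :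
    ∃ x z : ℚ, (α : ℚ) = x ^ 2 - β * z ^ 2 := by
  obtain ⟨X, Y, Z, hne, h⟩ := legendre_conic hα hβ hco hs ht
  have hY : Y ≠ 0 := by
    rintro rfl
    have := no_sq hns (X := X) (Z := Z) (by rw [h]; ring)
    simp [this.1, this.2] at hne
  have hY' : (Y : ℚ) ≠ 0 := by exact_mod_cast hY
  refine ⟨X / Y, Z / Y, ?_⟩
  have h' : (X : ℚ) ^ 2 = α * Y ^ 2 + β * Z ^ 2 := by exact_mod_cast h
  field_simp
  linarith only [h']

theorem gconic2 {α β s t : ℤ} (hα : 0 < α) (hβ : β ≠ 0) (hco : IsCoprime α β)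
    (hs : β ∣ s ^ 2 - α) (ht : α ∣ t ^ 2 - β) (hns : ∀ k, α ≠ k ^ 2) :
    ∃ x z : ℚ, (β : ℚ) = x ^ 2 - α * z ^ 2 := by
  obtain ⟨X, Y, Z, hne, h⟩ := legendre_conic hα hβ hco hs ht
  have hZ : Z ≠ 0 := by
    rintro rfl
    have := no_sq hns (X := X) (Z := Y) (by rw [h]; ring)
    simp [this.1, this.2] at hne
  have hZ' : (Z : ℚ) ≠ 0 := by exact_mod_cast hZ
  refine ⟨X / Z, Y / Z, ?_⟩
  have h' : (X : ℚ) ^ 2 = α * Y ^ 2 + β * Z ^ 2 := by exact_mod_cast h
  field_simp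
  linarith only [h']

theorem prime_not_sq {q : ℕ} (hq : q.Prime) (k : ℤ) : (q : ℤ) ≠ k ^ 2 := by
  intro h
  have h1 : q = k.natAbs ^ 2 := by
    have := congrArg Int.natAbs h
    rwa [Int.natAbs_natCast, Int.natAbs_pow] at this
  exact Nat.Prime.not_prime_pow (le_refl 2) (h1 ▸ hq)

theorem two_not_sq (k : ℤ) : (2 : ℤ) ≠ k ^ 2 := by
  simpa using prime_not_sq Nat.prime_two k

/-- the prime `q = 7 mod 8` is a norm from the quadratic field of two -/
theorem norm_two {q : ℕ} (hq : q.Prime) (h8 : q % 8 = 7) : ∃ e f : ℚ, (q : ℚ) = e ^ 2 - 2 * f ^ 2 := by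
  obtain ⟨t, ht⟩ := sq_two_mod hq (Or.inr h8)
  have h := gconic1 (α := q) (β := 2) (s := 1) (t := t) (by exact_mod_cast hq.pos) (by norm_num)
    (by
      rw [show (2 : ℤ) = ((2 : ℕ) : ℤ) by norm_num, Nat.isCoprime_iff_coprime,
        Nat.coprime_primes hq Nat.prime_two]
      rintro rfl; omega) (by omega) ht two_not_sq
  simpa only [Int.cast_natCast, Int.cast_ofNat] using h

/-- choice of the auxiliary prime -/
theorem exists_prime_crt {B N : ℕ} (hB : Odd B) (hN : Odd N) (hBN : Nat.Coprime B N) (M : ℕ) :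
    ∃ q : ℕ, M < q ∧ q.Prime ∧ q % 8 = 7 ∧ q ≡ 2 [MOD B] ∧ q ≡ 1 [MOD N] := by
  have h8 : Nat.Coprime 8 B := by
    rw [show 8 = 2 ^ 3 by norm_num]
    exact Nat.Coprime.pow_left 3 (Nat.coprime_two_left.2 hB)
  have h8' : Nat.Coprime (8 * B) N := by
    refine Nat.Coprime.mul_left ?_ hBN
    rw [show 8 = 2 ^ 3 by norm_num]
    exact Nat.Coprime.pow_left 3 (Nat.coprime_two_left.2 hN)
  obtain ⟨c, hc1, hc2⟩ := Nat.chineseRemainder h8 7 2
  obtain ⟨d, hd1, hd2⟩ := Nat.chineseRemainder h8' c 1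
  have hd8 : d ≡ 7 [MOD 8] := (hd1.of_mul_right B).trans hc1
  have hdB : d ≡ 2 [MOD B] := (hd1.of_mul_left 8).trans hc2
  have hco : Nat.Coprime d (8 * B * N) := by
    refine Nat.Coprime.mul_right (Nat.Coprime.mul_right ?_ ?_) ?_
    · rw [Nat.Coprime, hd8.gcd_eq]; norm_num
    · rw [Nat.Coprime, hdB.gcd_eq]; exact Nat.coprime_two_left.2 hB
    · rw [Nat.Coprime, hd2.gcd_eq]; exact Nat.gcd_one_left N
  have hne : 8 * B * N ≠ 0 := by
    have := hB.pos
    have := hN.pos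
    (clear hBN M h8 h8' c hc1 hc2 d hd1 hd2 hd8 hdB hco; positivity)
  obtain ⟨q, hq1, hq2, hq3⟩ := Nat.forall_exists_prime_gt_and_modEq M hne hco
  refine ⟨q, hq1, hq2, ?_, ?_, ?_⟩
  · have : q ≡ 7 [MOD 8] := ((hq3.of_mul_right N).of_mul_right B).trans hd8
    exact this
  · exact ((hq3.of_mul_right N).of_mul_left 8).trans hdB
  · exact (hq3.of_mul_left (8 * B)).trans hd2

/-- integral numerator and denominator of `b` -/
theorem three8_repr {b : ℚ} (hb : Three8 b) : ∃ m e : ℤ, Odd e ∧ b = (3 * e + 8 * m : ℤ) / e := by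
  have h1 := den_odd_of_val hb
  refine ⟨((b - 3) / 8).num, ((b - 3) / 8).den, h1, ?_⟩
  have h2 := Rat.num_div_den ((b - 3) / 8)
  have h3 : (((b - 3) / 8).den : ℚ) ≠ 0 := by exact_mod_cast ((b - 3) / 8).den_ne_zero
  rw [eq_div_iff (by exact_mod_cast h3)]
  push_cast
  rw [div_eq_iff h3] at h2
  linarith

/-- squarefree data attached to an element of the list -/
theorem con_data {b r : ℚ} (hb : Three8 b) (hr : 0 ≤ padicValRat 2 r)
    (hL : ∀ q, Inert q → Odd (padicValRat q b) → r = 0 ∨ 0 ≤ padicValRat q (b * r ^ 2)) :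
    ∃ (n : ℤ) (s : ℚ), Squarefree n ∧ s ≠ 0 ∧ 1 + 4 * b * r ^ 2 = n * s ^ 2 ∧ n % 4 = 1 ∧
      ∀ q, Inert q → Odd (padicValRat q b) → ¬ (q : ℤ) ∣ n := by
  obtain ⟨m, e, he, hbe⟩ := three8_repr hb
  have hd := den_odd_of_val hr
  have he0 : (e : ℚ) ≠ 0 := by
    have : e ≠ 0 := by rintro rfl; simp at he
    exact_mod_cast this
  have hd0 : (r.den : ℚ) ≠ 0 := by exact_mod_cast r.den_ne_zero
  obtain ⟨D, hD⟩ : ∃ D : ℤ, D = e * (r.den : ℤ) ^ 2 := ⟨_, rfl⟩
  obtain ⟨N, hN⟩ : ∃ N : ℤ, N = D + 4 * ((3 * e + 8 * m) * r.num ^ 2) := ⟨_, rfl⟩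
  have hDodd : Odd D := by rw [hD]; exact he.mul hd.pow
  have hNodd : Odd N := by
    rw [hN]
    exact hDodd.add_even ⟨2 * ((3 * e + 8 * m) * r.num ^ 2), by ring⟩
  have hND : 1 + 4 * b * r ^ 2 = (N : ℚ) / D := by
    have hr' : r = (r.num : ℚ) / r.den := (Rat.num_div_den r).symm
    rw [hN, hD, hbe]
    conv_lhs => rw [hr']
    push_cast
    (clear * - hd0 he0; field_simp)
  have hne : 1 + 4 * b * r ^ 2 ≠ 0 := by
    rw [hND]
    refine div_ne_zero ?_ ?_
    · have : N ≠ 0 := by rintro rfl; simp at hNodd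
      exact_mod_cast this
    · have : D ≠ 0 := by rintro rfl; simp at hDodd
      exact_mod_cast this
  obtain ⟨n, s, hn, hs, hns⟩ := sqf_rat hne
  refine ⟨n, s, hn, hs, hns, ?_, ?_⟩
  · have h1 := sqf_mod hn hDodd hNodd (hND.symm.trans hns)
    have h2 : n * D ≡ D [ZMOD 4] := by
      have h3 : n * D ≡ N [ZMOD 4] := h1.of_dvd (by norm_num)
      refine h3.trans ?_
      rw [hN]
      exact Int.modEq_iff_dvd.2 ⟨-((3 * e + 8 * m) * r.num ^ 2), by ring⟩
    have h4 : D ^ 2 ≡ 1 [ZMOD 4] := (sq_mod8 hDodd).of_dvd (by norm_num)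
    have h5 : n * D ^ 2 ≡ D ^ 2 [ZMOD 4] := by
      have := h2.mul_right D
      rwa [mul_assoc, ← sq] at this
    have h6 : n * 1 ≡ 1 [ZMOD 4] := ((h4.mul_left n).symm.trans h5).trans h4
    rw [mul_one] at h6
    exact h6
  · intro q hq hodd
    have := Fact.mk hq.1
    rw [← val_sqf hq.1 hn hs hns]
    have hb0 : b ≠ 0 := hb.val.1
    have hv0 : padicValRat q (1 + 4 * b * r ^ 2) = 0 := by
      rcases eq_or_ne r 0 with hr0 | hr0
      · rw [hr0]; simp
      have h1 := (hL q hq hodd).resolve_left hr0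
      have hq4 : padicValRat q (4 : ℚ) = 0 := by
        have h2 : padicValRat q ((2 : ℕ) : ℚ) = 0 := vprime hq.1 Nat.prime_two hq.ne_two
        rw [show (4 : ℚ) = ((2 : ℕ) : ℚ) ^ 2 by norm_num, padicValRat.pow, h2]; norm_num
      have hbr : b * r ^ 2 ≠ 0 := mul_ne_zero hb0 (pow_ne_zero _ hr0)
      have h3 : 1 ≤ padicValRat q (b * r ^ 2) := by
        rw [padicValRat.mul hb0 (pow_ne_zero _ hr0), padicValRat.pow] at h1 ⊢
        obtain ⟨k, hk⟩ := hodd
        push_cast at h1 ⊢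
        omega
      have h4 : padicValRat q (4 * b * r ^ 2) = padicValRat q (b * r ^ 2) := by
        rw [mul_assoc, padicValRat.mul (by norm_num) hbr, hq4, zero_add]
      have h5 : (4 * b * r ^ 2 : ℚ) ≠ 0 := by
        rw [mul_assoc]
        exact mul_ne_zero (by norm_num) hbr
      rw [padicValRat.add_eq_of_lt hne one_ne_zero h5 (by rw [padicValRat.one, h4]; omega),
        padicValRat.one]
    rw [hv0]
    norm_num

theorem capture_complete {b : ℚ} (hb : Three8 b) (L : List ℚ)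
    (hL : ∀ r ∈ L, 0 ≤ padicValRat 2 r ∧
      ∀ q, Inert q → Odd (padicValRat q b) → r = 0 ∨ 0 ≤ padicValRat q (b * r ^ 2)) :
    ∃ a, Cap a b ∧ ∀ r ∈ L, Con a b r := by
  have hb0 := hb.val.1
  -- squarefree part of b
  obtain ⟨b₀, s₀, hb₀, hs₀, hbs⟩ := sqf_rat hb0
  have hb8 : b₀ % 8 = 3 := by
    obtain ⟨m, e, he, hbe⟩ := three8_repr hb
    have hNodd : Odd (3 * e + 8 * m) := by
      obtain ⟨k, rfl⟩ := he
      exact ⟨3 * k + 4 * m + 1, by ring⟩
    have h1 := sqf_mod hb₀ he hNodd (hbe.symm.trans hbs)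
    have h2 : b₀ * e ≡ 3 * e [ZMOD 8] := by
      refine h1.trans (Int.modEq_iff_dvd.2 ⟨-m, by ring⟩)
    have h4 : e ^ 2 ≡ 1 [ZMOD 8] := sq_mod8 he
    have h5 : b₀ * e ^ 2 ≡ 3 * e ^ 2 [ZMOD 8] := by
      have := h2.mul_right e
      rwa [mul_assoc, mul_assoc, ← sq] at this
    have h6 : b₀ * 1 ≡ 3 * 1 [ZMOD 8] := ((h4.mul_left b₀).symm.trans h5).trans (h4.mul_left 3)
    rw [mul_one, mul_one] at h6
    exact h6
  obtain ⟨B, hBdef⟩ : ∃ B, B = b₀.natAbs := ⟨_, rfl⟩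
  have hBodd : Odd B := by rw [hBdef, Int.natAbs_odd, Int.odd_iff]; omega
  -- data for the list
  have hdata : ∀ r, ∃ (n : ℤ) (s : ℚ), r ∈ L → (Squarefree n ∧ s ≠ 0 ∧
      1 + 4 * b * r ^ 2 = n * s ^ 2 ∧ n % 4 = 1 ∧
      ∀ q, Inert q → Odd (padicValRat q b) → ¬ (q : ℤ) ∣ n) := by
    intro r
    by_cases hr : r ∈ L
    · obtain ⟨n, s, h⟩ := con_data hb (hL r hr).1 (hL r hr).2
      exact ⟨n, s, fun _ => h⟩
    · exact ⟨1, 1, fun h => absurd h hr⟩
  choose n s hns using hdata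
  obtain ⟨P, hP⟩ : ∃ P : ℕ, P = (L.map (fun r => (n r).natAbs)).prod := ⟨_, rfl⟩
  have hP0 : P ≠ 0 := by
    rw [hP]
    apply List.prod_ne_zero
    intro h0
    obtain ⟨r, hr, hr0⟩ := List.mem_map.1 h0
    have := (hns r hr).2.2.2.1
    omega
  have hdvdP : ∀ r ∈ L, (n r).natAbs ∣ P := by
    intro r hr
    rw [hP]
    exact List.dvd_prod (List.mem_map.2 ⟨r, hr, rfl⟩)
  obtain ⟨N, hN⟩ : ∃ N : ℕ, N = ∏ p ∈ (P.primeFactors \ (insert 2 B.primeFactors)), p := ⟨_, rfl⟩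
  have hNodd : Odd N := by
    rw [hN]
    refine Finset.prod_induction _ Odd (fun a b => Odd.mul) odd_one ?_
    intro p hp
    rw [Finset.mem_sdiff, Finset.mem_insert] at hp
    push Not at hp
    exact (Nat.prime_of_mem_primeFactors hp.1).odd_of_ne_two hp.2.1
  have hBN : Nat.Coprime B N := by
    rw [hN]
    refine Nat.Coprime.prod_right (fun p hp => ?_)
    rw [Finset.mem_sdiff, Finset.mem_insert] at hp
    push Not at hp
    have hpp := Nat.prime_of_mem_primeFactors hp.1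
    rw [Nat.coprime_comm, Nat.Prime.coprime_iff_not_dvd hpp]
    intro hd
    exact hp.2.2 (Nat.mem_primeFactors.2 ⟨hpp, hd, by rintro rfl; simp at hBodd⟩)
  obtain ⟨q, hqM, hq, hq8, hqB, hqN⟩ := exists_prime_crt hBodd hNodd hBN (B + P)
  have hq0 : (0 : ℤ) < q := by exact_mod_cast hq.pos
  have hqne2 : q ≠ 2 := by rintro rfl; omega
  have hBpos : 0 < B := hBodd.pos
  have hqcoB : Nat.Coprime q B := by
    rw [Nat.Prime.coprime_iff_not_dvd hq]
    intro hd
    have := Nat.le_of_dvd hBpos hd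
    omega
  refine ⟨q, ⟨by exact_mod_cast hq.ne_zero, norm_two hq hq8, ?_⟩, ?_⟩
  · -- 2 q = u^2 - b v^2
    have hJ : jacobiSym b₀ q = 1 := by
      refine recip_b hq8 hb8 ?_
      rw [← hBdef]
      have := Int.natCast_modEq_iff.2 hqB
      exact this
    obtain ⟨t, ht⟩ := sq_of_jacobi hq hJ
    -- make t odd
    obtain ⟨t', ht', ht'o⟩ : ∃ t' : ℤ, (q : ℤ) ∣ t' ^ 2 - b₀ ∧ Odd t' := by
      rcases Int.even_or_odd t with he | ho
      · refine ⟨t + q, ?_, he.add_odd ?_⟩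
        · have e : (t + q) ^ 2 - b₀ = (t ^ 2 - b₀) + q * (2 * t + q) := by ring
          rw [e]
          exact dvd_add ht (dvd_mul_right _ _)
        · have := hq.odd_of_ne_two hqne2
          exact_mod_cast this
      · exact ⟨t, ht, ho⟩
    have hco2 : IsCoprime (2 : ℤ) b₀ := by
      have : Odd b₀ := by rw [Int.odd_iff]; omega
      obtain ⟨k, hk⟩ := this
      exact ⟨-k, 1, by rw [hk]; ring⟩
    have hcoq : IsCoprime (q : ℤ) b₀ := by
      rw [Int.isCoprime_iff_gcd_eq_one, Int.gcd, Int.natAbs_natCast, ← hBdef]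
      exact hqcoB
    have hco2q : IsCoprime (2 : ℤ) (q : ℤ) := by
      rw [show (2 : ℤ) = ((2 : ℕ) : ℤ) by norm_num, Nat.isCoprime_iff_coprime,
        Nat.coprime_primes Nat.prime_two hq]
      exact hqne2.symm
    have h := gconic1 (α := 2 * q) (β := b₀) (s := 2) (t := t') (by (clear * - hq0; positivity))
      (by rintro rfl; omega) (hco2.mul_left hcoq)
      (by
        have h1 : (B : ℤ) ∣ 2 - q := by
          have := (Nat.modEq_iff_dvd.1 hqB)
          exact_mod_cast this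
        have h2 : b₀ ∣ 2 - q := by
          rw [hBdef] at h1
          exact Int.natAbs_dvd.1 h1
        have e : (2 : ℤ) ^ 2 - 2 * q = 2 * (2 - q) := by ring
        rw [e]
        exact h2.mul_left 2)
      (by
        refine hco2q.mul_dvd ?_ ht'
        obtain ⟨k, hk⟩ := ht'o
        have hb₀' : b₀ = 2 * (b₀ / 2) + 1 := by omega
        exact ⟨2 * k ^ 2 + 2 * k - b₀ / 2, by rw [hk]; linarith only [hb₀']⟩)
      (by
        intro k hk
        have h1 : Odd k := by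
          by_contra hc
          rw [Int.not_odd_iff_even] at hc
          obtain ⟨j, rfl⟩ := hc
          have : b₀ = 2 * (2 * j ^ 2) := by rw [hk]; ring
          omega
        have h2 := sq_mod8 h1
        rw [← hk] at h2
        have h3 : b₀ % 8 = 1 := h2
        omega)
    obtain ⟨x, z, hxz⟩ := h
    refine ⟨x, z / s₀, ?_⟩
    push_cast at hxz
    rw [hxz, hbs]
    (clear * - hs₀; field_simp)
  · intro r hr
    obtain ⟨hsqf, hs0, heq, hn4, hninert⟩ := hns r hr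
    have hn0 : n r ≠ 0 := hsqf.ne_zero
    have hnP := hdvdP r hr
    have hnle : (n r).natAbs ≤ P := Nat.le_of_dvd (Nat.pos_of_ne_zero hP0) hnP
    have hqcon : Nat.Coprime q (n r).natAbs := by
      rw [Nat.Prime.coprime_iff_not_dvd hq]
      intro hd
      have := Nat.le_of_dvd (Int.natAbs_pos.2 hn0) hd
      omega
    have hsq : ∃ t : ℤ, ((n r).natAbs : ℤ) ∣ t ^ 2 - q := by
      refine sq_mod_sqf (Int.squarefree_natAbs.2 hsqf) q ?_
      intro p hp hpn
      by_cases hpB : p ∣ B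
      · -- p divides b₀, hence p is not inert
        have hpb : (p : ℤ) ∣ b₀ := by
          rw [hBdef] at hpB
          exact Int.natCast_dvd.2 hpB
        have hodd : Odd (padicValRat p b) := (val_sqf hp hb₀ hs₀ hbs).2 hpb
        have hnin : ¬ Inert p := fun hin => hninert p hin hodd (Int.natCast_dvd.2 hpn)
        have hp8 : p % 8 = 1 ∨ p % 8 = 7 := by
          have h1 : ¬ (p % 8 = 3 ∨ p % 8 = 5) := fun h => hnin ⟨hp, h⟩
          have h2 : p % 2 = 1 := by
            rcases hp.eq_two_or_odd with h | h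
            · subst h
              have := Nat.odd_iff.1 hBodd
              omega
            · exact h
          (clear * - h1 h2; omega)
        obtain ⟨t, ht⟩ := sq_two_mod hp hp8
        refine ⟨t, ?_⟩
        have h1 : (p : ℤ) ∣ 2 - q := by
          have := (Nat.modEq_iff_dvd.1 (hqB.of_dvd hpB))
          exact_mod_cast this
        have e : t ^ 2 - (q : ℤ) = (t ^ 2 - 2) + (2 - q) := by ring
        rw [e]
        exact dvd_add ht h1
      · refine ⟨1, ?_⟩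
        have hp2 : p ≠ 2 := by
          rintro rfl
          have : (2 : ℕ) ∣ (n r).natAbs := hpn
          omega
        have hpS : p ∣ N := by
          rw [hN]
          refine Finset.dvd_prod_of_mem _ ?_
          rw [Finset.mem_sdiff, Finset.mem_insert]
          refine ⟨Nat.mem_primeFactors.2 ⟨hp, hpn.trans hnP, hP0⟩, ?_⟩
          push Not
          exact ⟨hp2, fun h => hpB (Nat.dvd_of_mem_primeFactors h)⟩
        have h1 : (p : ℤ) ∣ 1 - q := by
          have := (Nat.modEq_iff_dvd.1 (hqN.of_dvd hpS))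
          exact_mod_cast this
        simpa only [one_pow] using h1
    obtain ⟨t, ht⟩ := hsq
    have hJ : jacobiSym (n r) q = 1 := recip_n hq8 hn4 hqcon ht
    obtain ⟨t', ht'⟩ := sq_of_jacobi hq hJ
    obtain ⟨x, z, hxz⟩ := gconic2 (α := q) (β := n r) (s := t) (t := t') hq0 hn0
      (by
        rw [Int.isCoprime_iff_gcd_eq_one, Int.gcd, Int.natAbs_natCast]
        exact hqcon)
      (Int.natAbs_dvd.1 ht) ht' (prime_not_sq hq)
    refine ⟨x * s r, z * s r, ?_⟩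
    rw [heq, hxz]
    push_cast
    ring

end Vale.Agent.P027
end
end

section

section

/-! Subgroups of `E(ℚ)`, `E : y^2 = x^3 - 2x`, given by congruence conditions; tripling formula. -/

namespace Vale.Agent.P027

open Vale.Agent.P345

lemma not_hasX_zero {x : ℚ} (h : HasX 0 x) : False := h.ne_zero rfl

lemma not_isSquare_two : ¬ IsSquare (2 : ℚ) := by
  intro h3
  obtain ⟨n, hn⟩ : IsSquare (2 : ℕ) :=
    Rat.isSquare_natCast_iff.1 (by exact_mod_cast h3 : IsSquare ((2 : ℕ) : ℚ))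
  have : n < 2 := by nlinarith
  interval_cases n <;> omega

/-- coordinates of sum and difference -/
lemma hasX_add_sub {V W : EC.Point} {a b : ℚ} (hV : HasX V a) (hW : HasX W b) (hne : a ≠ b) :
    ∃ s d : ℚ, HasX (V + W) s ∧ HasX (V - W) d ∧
      (s + d) * (a - b) ^ 2 = 2 * (a * b - 2) * (a + b) ∧
      s * d * (a - b) ^ 2 = (a * b + 2) ^ 2 := by
  obtain ⟨y, hy, rfl⟩ := hV
  obtain ⟨z, hz, rfl⟩ := hW
  have hab : a - b ≠ 0 := sub_ne_zero.2 hne
  refine ⟨((y - z) / (a - b)) ^ 2 - a - b, ((y - (-z)) / (a - b)) ^ 2 - a - b,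
    hasX_add hy hz hne, ?_, ?_, ?_⟩
  · rw [sub_eq_add_neg, neg_pt]
    exact hasX_add hy _ hne
  · field_simp
    linear_combination 2 * hy + 2 * hz
  · have h1 : ((y - z) / (a - b)) ^ 2 - a - b = ((y - z) ^ 2 - (a + b) * (a - b) ^ 2) / (a - b) ^ 2 := by
      field_simp; ring
    have h2 : ((y - (-z)) / (a - b)) ^ 2 - a - b =
        ((y + z) ^ 2 - (a + b) * (a - b) ^ 2) / (a - b) ^ 2 := by
      field_simp; ring
    rw [h1, h2, div_mul_div_comm, div_mul_eq_mul_div, div_eq_iff (by (clear * - hne; positivity))]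
    linear_combination (a - b) ^ 2 * ((y ^ 2 - z ^ 2 + (a ^ 3 - 2 * a) - (b ^ 3 - 2 * b)) -
      2 * (a + b) * (a - b) ^ 2) * hy + (a - b) ^ 2 * (-(y ^ 2 - z ^ 2 + (a ^ 3 - 2 * a) -
      (b ^ 3 - 2 * b)) - 2 * (a + b) * (a - b) ^ 2) * hz

lemma hasX_two_smul {V : EC.Point} {x : ℚ} (hV : HasX V x) (hx : x ≠ 0) :
    HasX (V + V) ((x ^ 2 + 2) ^ 2 / (4 * (x ^ 3 - 2 * x))) := by
  obtain ⟨y, hy, rfl⟩ := hV
  have hy0 : y ≠ 0 := by
    rintro rfl
    have h1 : x * (x ^ 2 - 2) = 0 := by linear_combination -hy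
    rcases mul_eq_zero.1 h1 with h2 | h2
    · exact hx h2
    · exact not_isSquare_two ⟨x, by linear_combination -h2⟩
  have := hasX_double hy hy0
  have e : ((x ^ 2 + 2) / (2 * y)) ^ 2 = (x ^ 2 + 2) ^ 2 / (4 * (x ^ 3 - 2 * x)) := by
    rw [div_pow, mul_pow, hy]; norm_num
  rw [← e]; exact this

lemma not_isSquare_48 {z : ℚ} (h : z ^ 2 = 48) : False := by
  have h3 : IsSquare (48 : ℚ) := ⟨z, by linear_combination -h⟩
  obtain ⟨n, hn⟩ : IsSquare (48 : ℕ) :=
    Rat.isSquare_natCast_iff.1 (by exact_mod_cast h3 : IsSquare ((48 : ℕ) : ℚ))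
  have : n < 7 := by nlinarith only [hn]
  interval_cases n <;> omega

/-- third division polynomial -/
def psi (x : ℚ) : ℚ := 3 * x ^ 4 - 12 * x ^ 2 - 4

def phi (x : ℚ) : ℚ := x ^ 4 + 12 * x ^ 2 - 12

lemma psi_ne_zero (x : ℚ) : psi x ≠ 0 := by
  intro h
  unfold psi at h
  exact not_isSquare_48 (z := 3 * (x ^ 2 - 2)) (by linear_combination 3 * h)

lemma phi_ne_zero (x : ℚ) : phi x ≠ 0 := by
  intro h
  unfold phi at h
  exact not_isSquare_48 (z := x ^ 2 + 6) (by linear_combination h)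

lemma x_sq_sub_ne {x : ℚ} (hx : x ≠ 0) : x ^ 3 - 2 * x ≠ 0 := by
  intro h
  have h1 : x * (x ^ 2 - 2) = 0 := by linear_combination h
  rcases mul_eq_zero.1 h1 with h2 | h2
  · exact hx h2
  · exact not_isSquare_two ⟨x, by linear_combination -h2⟩

/-- tripling formula -/
theorem hasX_triple {V : EC.Point} {x : ℚ} (hV : HasX V x) (hx : x ≠ 0) :
    HasX (V + V + V) (x * phi x ^ 2 / psi x ^ 2) := by
  have h2 := hasX_two_smul hV hx
  have hd := x_sq_sub_ne hx
  have hps := psi_ne_zero x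
  have hne : (x ^ 2 + 2) ^ 2 / (4 * (x ^ 3 - 2 * x)) ≠ x := by
    intro h
    apply hps
    rw [div_eq_iff (by simpa only [ne_eq, mul_eq_zero, OfNat.ofNat_ne_zero, false_or] using hd)] at h
    unfold psi
    linear_combination -h
  obtain ⟨s, d, hs, hdd, -, hprod⟩ := hasX_add_sub h2 hV hne
  have hd' : HasX V d := by simpa using hdd
  have : d = x := hd'.unique hV
  subst this
  have e : s = d * phi d ^ 2 / psi d ^ 2 := by
    rw [eq_div_iff (by (clear * - hps; positivity))]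
    have hD : 4 * (d ^ 3 - 2 * d) ≠ 0 := by simpa using hd
    have h3 : (d ^ 2 + 2) ^ 2 / (4 * (d ^ 3 - 2 * d)) - d = - psi d / (4 * (d ^ 3 - 2 * d)) := by
      rw [div_sub' hD]
      congr 1
      unfold psi; ring
    have h4 : (d ^ 2 + 2) ^ 2 / (4 * (d ^ 3 - 2 * d)) * d + 2 = d * phi d / (4 * (d ^ 3 - 2 * d)) := by
      rw [div_mul_eq_mul_div, div_add' _ _ _ hD]
      congr 1
      unfold phi; ring
    rw [h3, h4, div_pow, div_pow, mul_div_assoc', div_left_inj' (pow_ne_zero 2 hD)] at hprod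
    have h5 : d * (s * psi d ^ 2) = d * (d * phi d ^ 2) := by linear_combination hprod
    exact mul_left_cancel₀ hx h5
  rw [← e]; exact hs

section subgroup

variable (p : ℕ) [hp : Fact p.Prime]

lemma norm_add_left {a b : ℚ} (h : padicNorm p b < padicNorm p a) :
    padicNorm p (a + b) = padicNorm p a := by
  rw [padicNorm.add_eq_max_of_ne h.ne', max_eq_left h.le]

/-- if both coordinates are large, so is the coordinate of the sum -/
lemma large_sum {a b s d B : ℚ} (hB : 1 < B) (ha : B ≤ padicNorm p a) (hb : B ≤ padicNorm p b)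
    (hne : a ≠ b) (h1 : (s + d) * (a - b) ^ 2 = 2 * (a * b - 2) * (a + b))
    (h2 : s * d * (a - b) ^ 2 = (a * b + 2) ^ 2) : B ≤ padicNorm p s := by
  by_contra hcon
  push Not at hcon
  have hab : 1 < padicNorm p (a * b) := by
    rw [padicNorm.mul]; exact one_lt_mul_of_lt_of_le (hB.trans_le ha) (hB.le.trans hb)
  have n2 : padicNorm p 2 ≤ 1 := by exact_mod_cast padicNorm.of_int (p := p) 2
  have nm2 : padicNorm p (-2) ≤ 1 := by rw [padicNorm.neg]; exact n2
  have e1 : padicNorm p (a * b + 2) = padicNorm p a * padicNorm p b := by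
    rw [norm_add_left p (by linarith only [hab, n2]), padicNorm.mul]
  have e2 : padicNorm p (a * b - 2) = padicNorm p a * padicNorm p b := by
    rw [sub_eq_add_neg, norm_add_left p (by linarith only [hab, nm2]), padicNorm.mul]
  have e3 : padicNorm p s * padicNorm p d * padicNorm p (a - b) ^ 2 =
      (padicNorm p a * padicNorm p b) ^ 2 := by
    have := congrArg (padicNorm p) h2
    rw [sq, sq, padicNorm.mul, padicNorm.mul, padicNorm.mul, padicNorm.mul, e1] at this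
    rw [sq, sq]; exact this
  have e4 : padicNorm p (s + d) * padicNorm p (a - b) ^ 2 ≤
      padicNorm p a * padicNorm p b * padicNorm p (a + b) := by
    have := congrArg (padicNorm p) h1
    rw [sq, padicNorm.mul, padicNorm.mul, padicNorm.mul, padicNorm.mul, e2] at this
    rw [sq, this]
    have h3 : 0 ≤ padicNorm p a * padicNorm p b * padicNorm p (a + b) := by
      have := padicNorm.nonneg (p := p) a
      have := padicNorm.nonneg (p := p) b
      have := padicNorm.nonneg (p := p) (a + b)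
      (clear B hB ha hb hne h1 h2 hcon hab n2 nm2 e1 e2 e3; positivity)
    linarith only [mul_le_mul_of_nonneg_right n2 h3]
  set α := padicNorm p a with hα
  set β := padicNorm p b with hβ
  set M := max α β with hM
  set μ := min α β with hμ
  have hMμ : α * β = M * μ := (max_mul_min α β).symm
  have hμB : B ≤ μ := le_min ha hb
  have hμM : μ ≤ M := min_le_max
  have hD : padicNorm p (a - b) ≤ M := by
    rw [hM]; exact padicNorm.sub
  have hE : padicNorm p (a + b) ≤ M := padicNorm.nonarchimedean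
  have hD0 : 0 < padicNorm p (a - b) :=
    lt_of_le_of_ne (padicNorm.nonneg _) (padicNorm.nonzero (sub_ne_zero.2 hne)).symm
  set D := padicNorm p (a - b) with hDdef
  have hs0 : 0 ≤ padicNorm p s := padicNorm.nonneg _
  have hd0 : 0 ≤ padicNorm p d := padicNorm.nonneg _
  rw [hMμ] at e3 e4
  have hM0 : 0 < M := by linarith only [hB, hμB, hμM]
  have hμ0 : 0 < μ := by linarith only [hB, hμB]
  have hprod : 0 < padicNorm p s * padicNorm p d * D ^ 2 := by rw [e3]; (clear * - hM0 hμ0; positivity)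
  have hdpos : 0 < padicNorm p d := by
    rcases hd0.lt_or_eq with h | h
    · exact h
    · rw [← h] at hprod; simp at hprod
  have hD2 : 0 < D ^ 2 := by (clear * - hD0; positivity)
  have k1 : M ^ 2 * μ < padicNorm p d * D ^ 2 := by
    have h5 : padicNorm p s * (padicNorm p d * D ^ 2) < μ * (padicNorm p d * D ^ 2) := by
      apply mul_lt_mul_of_pos_right (by linarith only [hcon, hμB]) (by (clear * - hdpos hD0; positivity))
    have h6 : μ * (M ^ 2 * μ) < μ * (padicNorm p d * D ^ 2) := by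
      calc μ * (M ^ 2 * μ) = padicNorm p s * padicNorm p d * D ^ 2 := by rw [e3]; ring
        _ = padicNorm p s * (padicNorm p d * D ^ 2) := by ring
        _ < _ := h5
    exact lt_of_mul_lt_mul_left h6 hμ0.le
  have hDM : D ^ 2 ≤ M ^ 2 := by
    apply pow_le_pow_left₀ hD0.le hD
  have k2 : μ < padicNorm p d := by
    have h7 : μ * D ^ 2 < padicNorm p d * D ^ 2 := by
      calc μ * D ^ 2 ≤ μ * M ^ 2 := by apply mul_le_mul_of_nonneg_left hDM hμ0.le
        _ = M ^ 2 * μ := by ring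
        _ < _ := k1
    exact lt_of_mul_lt_mul_right h7 hD2.le
  have k3 : padicNorm p (s + d) = padicNorm p d := by
    rw [add_comm]; exact norm_add_left p (by linarith only [hcon, hμB, k2])
  rw [k3] at e4
  have k4 : M * μ * padicNorm p (a + b) ≤ M * μ * M := by
    apply mul_le_mul_of_nonneg_left hE (by (clear * - hM0 hμ0; positivity))
  linarith only [e4, k1, k4]

lemma large_cubic {a B : ℚ} (hB : 1 < B) (ha : B ≤ padicNorm p a) :
    padicNorm p (a ^ 3 - 2 * a) = padicNorm p a ^ 3 := by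
  have n2 : padicNorm p (-2) ≤ 1 := by
    rw [padicNorm.neg]; exact_mod_cast padicNorm.of_int (p := p) 2
  have h1 : a ^ 3 - 2 * a = a * (a * a + -2) := by ring
  have h2 : 1 < padicNorm p (a * a) := by rw [padicNorm.mul]; nlinarith only [hB, ha]
  rw [h1, padicNorm.mul, norm_add_left p (by linarith), padicNorm.mul]
  ring

lemma large_double {a B : ℚ} (hB : 1 < B) (ha : B ≤ padicNorm p a) :
    B ≤ padicNorm p ((a ^ 2 + 2) ^ 2 / (4 * (a ^ 3 - 2 * a))) := by
  have n2 : padicNorm p 2 ≤ 1 := by exact_mod_cast padicNorm.of_int (p := p) 2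
  have n4 : padicNorm p 4 ≤ 1 := by exact_mod_cast padicNorm.of_int (p := p) 4
  have n4' : 0 < padicNorm p 4 :=
    lt_of_le_of_ne (padicNorm.nonneg _) (padicNorm.nonzero (by norm_num)).symm
  have h2 : 1 < padicNorm p (a * a) := by rw [padicNorm.mul]; nlinarith only [hB, ha]
  have h3 : padicNorm p ((a ^ 2 + 2) ^ 2) = padicNorm p a ^ 4 := by
    rw [sq, sq, padicNorm.mul, norm_add_left p (by linarith), padicNorm.mul]
    ring
  rw [padicNorm.div, padicNorm.mul, h3, large_cubic p hB ha]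
  have ha0 : 0 < padicNorm p a := by linarith only [hB, ha]
  rw [le_div_iff₀ (by (clear * - n4' ha0; positivity))]
  have h4 : padicNorm p 4 * padicNorm p a ^ 3 ≤ padicNorm p a ^ 3 := by nlinarith only [n4, pow_pos ha0 3]
  calc B * (padicNorm p 4 * padicNorm p a ^ 3) ≤ B * padicNorm p a ^ 3 := by
        apply mul_le_mul_of_nonneg_left h4; linarith
    _ ≤ padicNorm p a * padicNorm p a ^ 3 := by
        apply mul_le_mul_of_nonneg_right ha; (clear * - ha0; positivity)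
    _ = padicNorm p a ^ 4 := by ring

/-- the subgroup of points whose first coordinate has norm at least `B` -/
def GG (B : ℚ) (hB : 1 < B) : AddSubgroup EC.Point where
  carrier := {V | ∀ x, HasX V x → B ≤ padicNorm p x}
  zero_mem' := fun x h => (not_hasX_zero h).elim
  neg_mem' := fun {V} hV x hx => hV x (by simpa using hx.neg)
  add_mem' := by
    intro V W hV hW x hx
    by_cases hV0 : V = 0
    · subst hV0; exact hW x (by simpa using hx)
    by_cases hW0 : W = 0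
    · subst hW0; exact hV x (by simpa using hx)
    obtain ⟨a, ha⟩ := exists_hasX hV0
    obtain ⟨b, hb⟩ := exists_hasX hW0
    have hVa := hV a ha
    have hWb := hW b hb
    by_cases hab : a = b
    · subst hab
      rcases ha.eq_or_neg hb with h | h
      · subst h
        have ha0 : a ≠ 0 := by
          rintro rfl
          rw [padicNorm.zero] at hVa
          linarith
        rw [hx.unique (hasX_two_smul ha ha0)]
        exact large_double p hB hVa
      · rw [h, neg_add_cancel] at hx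
        exact (not_hasX_zero hx).elim
    · obtain ⟨s, d, hs, hd, h1, h2⟩ := hasX_add_sub ha hb hab
      rw [hx.unique hs]
      exact large_sum p hB hVa hWb hab h1 h2

lemma mem_GG {B : ℚ} (hB : 1 < B) {V : EC.Point} :
    V ∈ GG p B hB ↔ ∀ x, HasX V x → B ≤ padicNorm p x := Iff.rfl

lemma mem_GG_of_hasX {B : ℚ} (hB : 1 < B) {V : EC.Point} {x : ℚ} (h : HasX V x) :
    V ∈ GG p B hB ↔ B ≤ padicNorm p x := by
  rw [mem_GG]
  refine ⟨fun h1 => h1 x h, fun h1 x' h' => ?_⟩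
  rw [h'.unique h]; exact h1

end subgroup

/-- the double of a point of order greater than two is an even multiple of `P0` -/
theorem good_even {x : ℚ} (hx : Good x) :
    ∃ k : ℤ, k ≠ 0 ∧ HasX ((2 * k) • P0) (ww x) ∧ ∃ r w : ℕ, r % 2 = 1 ∧ w % 2 = 0 ∧ 0 < w ∧
      0 < r ∧ Nat.Coprime r w ∧ ww x = (r : ℚ) ^ 2 / (w : ℚ) ^ 2 := by
  obtain ⟨y, hy, h⟩ := hx
  have hdb := hasX_double h hy
  have e : ((x ^ 2 + 2) / (2 * y)) ^ 2 = ww x := by
    rw [ww, div_pow, mul_pow, h]; norm_num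
  have hne : (x ^ 2 + 2) / (2 * y) ≠ 0 := by
    have : x ^ 2 + 2 ≠ 0 := by (clear * -; positivity)
    (clear * - hy; positivity)
  rw [e] at hdb
  obtain ⟨Y, h', hp⟩ := hdb
  set t := (x ^ 2 + 2) / (2 * y) with ht
  have hr : 0 < t.num.natAbs := Int.natAbs_pos.2 (Rat.num_ne_zero.2 hne)
  have hw : 0 < t.den := t.den_pos
  have hX : ww x = (t.num.natAbs : ℚ) ^ 2 / (t.den : ℚ) ^ 2 := by
    rw [natAbs_sq_cast, ← e, ← div_pow, Rat.num_div_den]
  have hco : Nat.Coprime t.num.natAbs t.den := t.reduced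
  obtain ⟨s, hs⟩ := sq_of_point hr hw h' hX
  obtain ⟨a, c, d, hcd, hr', hw', hcase⟩ := a_descent hco hs
  obtain ⟨k, hk⟩ := complete_aux _ _ _ hco hw hs _ _ h' hX
  have hH : HasX ((2 * k) • P0) (ww x) := ⟨Y, h', hk.symm⟩
  refine ⟨k, ?_, hH, t.num.natAbs, t.den, ?_, ?_, hw, hr, hco, hX⟩
  · rintro rfl
    rw [mul_zero, zero_zsmul] at hH
    exact not_hasX_zero hH
  · have h2 : t.den % 2 = 0 := by rw [hw', mul_assoc, mul_assoc]; exact Nat.mul_mod_right 2 _
    by_contra hcon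
    have h3 : 2 ∣ Nat.gcd t.num.natAbs t.den := Nat.dvd_gcd (by omega) (by omega)
    rw [Nat.Coprime] at hco
    omega
  · rw [hw', mul_assoc, mul_assoc]; exact Nat.mul_mod_right 2 _

lemma kap_eq (x : ℚ) : kap x = psi (ww x) / phi (ww x) := rfl

lemma xi_eq (x : ℚ) : xi x = ((ww x) ^ 2 + 2) ^ 2 / (4 * ((ww x) ^ 3 - 2 * ww x)) := rfl

lemma Good.ww_ne_zero {x : ℚ} (hx : Good x) : ww x ≠ 0 := by
  obtain ⟨k, hk, hX, r, w, h1, h2, h3, h4, h5, h6⟩ := good_even hx
  rw [h6]; (clear * - h4 h3; positivity)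

lemma smul_two_add {V : EC.Point} (k : ℤ) : (2 * k) • V + (2 * k) • V = (4 * k) • V := by
  rw [← add_zsmul]; congr 1; ring

lemma smul_six {V : EC.Point} (k : ℤ) : (2 * k) • V + (2 * k) • V + (2 * k) • V = (6 * k) • V := by
  rw [← add_zsmul, ← add_zsmul]; congr 1; ring

/-- `kap x` squared is the quotient of the coordinates of `V` and `3 V` -/
theorem kap_sq {x : ℚ} (hx : Good x) {k : ℤ} (h : HasX ((2 * k) • P0) (ww x)) :
    ∃ x6, HasX ((6 * k) • P0) x6 ∧ kap x ^ 2 * x6 = ww x := by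
  have hw := hx.ww_ne_zero
  refine ⟨ww x * phi (ww x) ^ 2 / psi (ww x) ^ 2, ?_, ?_⟩
  · rw [← smul_six]; exact hasX_triple h hw
  · rw [kap_eq]
    have h1 := psi_ne_zero (ww x)
    have h2 := phi_ne_zero (ww x)
    field_simp

theorem xi_hasX {x : ℚ} (hx : Good x) {k : ℤ} (h : HasX ((2 * k) • P0) (ww x)) :
    HasX ((4 * k) • P0) (xi x) := by
  rw [← smul_two_add, xi_eq]
  exact hasX_two_smul h hx.ww_ne_zero

end Vale.Agent.P027
end
end

section

section

/-! Three-adic positions of the points of `y^2 = x^3 - 2x`. -/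

namespace Vale.Agent.P027

open Vale.Agent.P345

lemma norm_eq_zpow (p : ℕ) {x : ℚ} (hx : x ≠ 0) : padicNorm p x = (p : ℚ) ^ (-padicValRat p x) :=
  padicNorm.eq_zpow_of_nonzero hx

lemma ne_zero_of_norm {p : ℕ} {x B : ℚ} (hB : 0 < B) (h : B ≤ padicNorm p x) : x ≠ 0 := by
  rintro rfl
  rw [padicNorm.zero] at h
  linarith

/-- the valuation of a large coordinate is even -/
lemma even_val (p : ℕ) [hp : Fact p.Prime] {V : EC.Point} {x B : ℚ} (hV : HasX V x) (hB : 1 < B)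
    (h : B ≤ padicNorm p x) : Even (padicValRat p x) := by
  obtain ⟨y, hy, -⟩ := hV
  have hx0 : x ≠ 0 := ne_zero_of_norm (by linarith only [hB]) h
  have hy0 : y ≠ 0 := by
    rintro rfl
    have := x_sq_sub_ne hx0
    apply this; rw [← hy]; norm_num
  have h1 := large_cubic p hB h
  rw [← hy, pow_two, padicNorm.mul, norm_eq_zpow p hy0, norm_eq_zpow p hx0] at h1
  have hp1 : (1 : ℚ) < p := by exact_mod_cast hp.out.one_lt
  have hp0 : (p : ℚ) ≠ 0 := by (clear * - hp1; positivity)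
  rw [← zpow_add₀ hp0, ← zpow_natCast, ← zpow_mul] at h1
  have h2 := zpow_right_injective₀ (by linarith only [hp1]) hp1.ne' h1
  push_cast at h2
  rw [Int.even_iff]
  omega

lemma padicNorm_three_three : padicNorm 3 3 = (3 : ℚ)⁻¹ := by
  have := padicNorm.padicNorm_p (p := 3) (by norm_num)
  exact_mod_cast this

instance fact3 : Fact (Nat.Prime 3) := ⟨Nat.prime_three⟩

lemma norm_psi_three {a : ℚ} (ha : 3 ≤ padicNorm 3 a) : padicNorm 3 (psi a) = padicNorm 3 a ^ 4 / 3 := by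
  have ha0 : 0 < padicNorm 3 a := by linarith only [ha]
  have h1 : psi a = 3 * (a ^ 2 * (a ^ 2 + -4)) + -4 := by unfold psi; ring
  have n4 : padicNorm 3 (-4) ≤ 1 := by exact_mod_cast padicNorm.of_int (p := 3) (-4)
  have h2 : padicNorm 3 (a ^ 2) = padicNorm 3 a ^ 2 := by rw [pow_two, padicNorm.mul, pow_two]
  have h3 : 9 ≤ padicNorm 3 (a ^ 2) := by rw [h2]; nlinarith only [ha]
  have h4 : padicNorm 3 (a ^ 2 + -4) = padicNorm 3 (a ^ 2) := norm_add_left 3 (by linarith)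
  have h5 : padicNorm 3 (3 * (a ^ 2 * (a ^ 2 + -4))) = padicNorm 3 a ^ 4 / 3 := by
    rw [padicNorm.mul, padicNorm.mul, h4, h2, padicNorm_three_three]; ring
  have h6 : 1 < padicNorm 3 a ^ 4 / 3 := by
    have : 81 ≤ padicNorm 3 a ^ 4 := by
      have := pow_le_pow_left₀ (by norm_num) ha 4
      norm_num at this ⊢
      exact this
    linarith only [this]
  rw [h1, norm_add_left 3 (by rw [h5]; linarith only [n4, h6]), h5]

lemma norm_phi {p : ℕ} [hp : Fact p.Prime] {a : ℚ} (ha : 1 < padicNorm p a) :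
    padicNorm p (phi a) = padicNorm p a ^ 4 := by
  have ha0 : 0 < padicNorm p a := by linarith
  have h1 : phi a = a ^ 2 * (a ^ 2 + 12) + -12 := by unfold phi; ring
  have n12 : padicNorm p 12 ≤ 1 := by exact_mod_cast padicNorm.of_int (p := p) 12
  have n12' : padicNorm p (-12) ≤ 1 := by exact_mod_cast padicNorm.of_int (p := p) (-12)
  have h2 : padicNorm p (a ^ 2) = padicNorm p a ^ 2 := by rw [pow_two, padicNorm.mul, pow_two]
  have h3 : 1 < padicNorm p (a ^ 2) := by rw [h2]; nlinarith only [ha]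
  have h4 : padicNorm p (a ^ 2 + 12) = padicNorm p (a ^ 2) := norm_add_left p (by linarith)
  have h5 : padicNorm p (a ^ 2 * (a ^ 2 + 12)) = padicNorm p a ^ 4 := by
    rw [padicNorm.mul, h4, h2]; ring
  have h6 : 1 < padicNorm p a ^ 4 := one_lt_pow₀ ha (by norm_num)
  rw [h1, norm_add_left p (by rw [h5]; linarith), h5]

lemma triple_norm {V : EC.Point} {a : ℚ} (hV : HasX V a) (ha : 3 ≤ padicNorm 3 a) :
    ∃ b, HasX (V + V + V) b ∧ padicNorm 3 b = 9 * padicNorm 3 a := by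
  refine ⟨_, hasX_triple hV (ne_zero_of_norm (by norm_num) ha), ?_⟩
  have ha0 : 0 < padicNorm 3 a := by linarith
  rw [padicNorm.div, padicNorm.mul, pow_two, pow_two, padicNorm.mul, padicNorm.mul,
    norm_psi_three ha, norm_phi (by linarith)]
  field_simp
  ring

lemma hasX_two_P0 : HasX ((2 : ℤ) • P0) (9 / 4) := by
  have h : HasX P0 (-1) := ⟨1, _, rfl⟩
  have := hasX_two_smul h (by norm_num)
  rw [show ((2 : ℤ) • P0) = P0 + P0 by rw [two_zsmul]]
  convert this using 1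
  norm_num

lemma hasX_four_P0 : HasX ((4 : ℤ) • P0) (12769 / 7056) := by
  have := hasX_two_smul hasX_two_P0 (by norm_num)
  rw [show ((4 : ℤ) • P0) = (2 : ℤ) • P0 + (2 : ℤ) • P0 by rw [← add_zsmul]; norm_num]
  convert this using 1
  norm_num

lemma norm_four_P0 : padicNorm 3 (12769 / 7056) = 9 := by
  have h1 : (12769 : ℚ) / 7056 = ((12769 : ℤ) : ℚ) / (((784 : ℤ) : ℚ) * (3 * 3)) := by norm_num
  rw [h1, padicNorm.div, padicNorm.mul, padicNorm.mul, padicNorm_three_three,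
    (padicNorm.int_eq_one_iff 12769).2 (by norm_num), (padicNorm.int_eq_one_iff 784).2 (by norm_num)]
  norm_num

lemma pow_pos_point (j : ℕ) : ∃ x, HasX ((4 * 3 ^ j : ℤ) • P0) x ∧ padicNorm 3 x = 9 ^ (j + 1) := by
  induction j with
  | zero => exact ⟨_, by simpa only [pow_zero, mul_one] using hasX_four_P0, by simpa only [ne_eq, div_eq_zero_iff, OfNat.ofNat_ne_zero, or_self, not_false_eq_true,     padicNorm.eq_zpow_of_nonzero, Nat.cast_ofNat, zpow_neg, zero_add, pow_one] using norm_four_P0⟩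
  | succ j ih =>
    obtain ⟨x, hx, hn⟩ := ih
    have h9 : (3 : ℚ) ≤ padicNorm 3 x := by
      rw [hn]
      calc (3 : ℚ) ≤ 9 ^ 1 := by norm_num
        _ ≤ 9 ^ (j + 1) := pow_le_pow_right₀ (by norm_num) (by omega)
    obtain ⟨b, hb, hbn⟩ := triple_norm hx h9
    refine ⟨b, ?_, ?_⟩
    · convert hb using 1
      rw [← add_zsmul, ← add_zsmul]; congr 1; ring
    · rw [hbn, hn]; ring

/-- the three-adic valuation of the coordinate of `4 k P0` -/
theorem val_four {k : ℤ} (hk : k ≠ 0) :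
    ∃ x, HasX ((4 * k) • P0) x ∧ padicValRat 3 x = -2 - 2 * (padicValInt 3 k : ℤ) := by
  obtain ⟨j, m, hm, hkm⟩ : ∃ (j : ℕ) (m : ℤ), ¬ (3 : ℤ) ∣ m ∧ k = 3 ^ j * m := by
    obtain ⟨m, hm⟩ := (FiniteMultiplicity.exists_eq_pow_mul_and_not_dvd
      (a := (3 : ℤ)) (b := k) (Int.finiteMultiplicity_iff.2 ⟨by norm_num, hk⟩))
    exact ⟨_, m, hm.2, hm.1⟩
  have hval : padicValInt 3 k = j := by
    rw [hkm, padicValInt.mul (by positivity) (by rintro rfl; simp at hm)]
    rw [padicValInt.eq_zero_of_not_dvd (by exact_mod_cast hm : ¬ ((3 : ℕ) : ℤ) ∣ m)]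
    rw [padicValInt, Int.natAbs_pow]
    simp
  obtain ⟨a, ha, han⟩ := pow_pos_point j
  set V : EC.Point := (4 * 3 ^ j : ℤ) • P0 with hV
  have hB1 : (1 : ℚ) < 9 ^ (j + 1) := one_lt_pow₀ (by norm_num) (by omega)
  have hB2 : (1 : ℚ) < 9 ^ (j + 2) := one_lt_pow₀ (by norm_num) (by omega)
  have hV1 : V ∈ GG 3 (9 ^ (j + 1)) hB1 := by
    rw [mem_GG_of_hasX 3 hB1 ha, han]
  have hV2 : V ∉ GG 3 (9 ^ (j + 2)) hB2 := by
    rw [mem_GG_of_hasX 3 hB2 ha, han, not_le]
    exact pow_lt_pow_right₀ (by norm_num) (by omega)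
  have h3V : V + V + V ∈ GG 3 (9 ^ (j + 2)) hB2 := by
    have h9 : (3 : ℚ) ≤ padicNorm 3 a := by
      rw [han]
      calc (3 : ℚ) ≤ 9 ^ 1 := by norm_num
        _ ≤ 9 ^ (j + 1) := pow_le_pow_right₀ (by norm_num) (by omega)
    obtain ⟨b, hb, hbn⟩ := triple_norm ha h9
    rw [mem_GG_of_hasX 3 hB2 hb, hbn, han]
    exact le_of_eq (by ring)
  have hW : (4 * k) • P0 = m • V := by
    rw [hV, ← mul_zsmul, hkm]; congr 1; ring
  have hW1 : m • V ∈ GG 3 (9 ^ (j + 1)) hB1 := AddSubgroup.zsmul_mem _ hV1 m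
  have hW2 : m • V ∉ GG 3 (9 ^ (j + 2)) hB2 := by
    intro hcon
    have h1 : ∀ i : ℤ, (3 * i) • V ∈ GG 3 (9 ^ (j + 2)) hB2 := by
      intro i
      have e : (3 * i) • V = i • (V + V + V) := by
        rw [mul_comm, mul_zsmul]
        congr 1
        rw [show (3 : ℤ) = 1 + 1 + 1 by norm_num, add_zsmul, add_zsmul, one_zsmul]
      rw [e]; exact AddSubgroup.zsmul_mem _ h3V i
    have h2 : m % 3 = 1 ∨ m % 3 = 2 := by omega
    rcases h2 with h2 | h2
    · have e : V = m • V - (3 * (m / 3)) • V := by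
        rw [sub_eq_add_neg, ← sub_zsmul]
        have : m - 3 * (m / 3) = 1 := by omega
        rw [this, one_zsmul]
      exact hV2 (by rw [e]; exact AddSubgroup.sub_mem _ hcon (h1 _))
    · have e : V = (3 * (m / 3 + 1)) • V - m • V := by
        rw [sub_eq_add_neg, ← sub_zsmul]
        have : 3 * (m / 3 + 1) - m = 1 := by omega
        rw [this, one_zsmul]
      exact hV2 (by rw [e]; exact AddSubgroup.sub_mem _ (h1 _) hcon)
  rw [mem_GG] at hW2
  push Not at hW2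
  obtain ⟨x, hx, hlt⟩ := hW2
  have hge := hW1 x hx
  have hev := even_val 3 hx hB1 hge
  have hx0 : x ≠ 0 := ne_zero_of_norm (by positivity) hge
  rw [hW]
  refine ⟨x, hx, ?_⟩
  rw [hval]
  rw [norm_eq_zpow 3 hx0] at hge hlt
  have e1 : ((9 : ℚ) ^ (j + 1)) = ((3 : ℕ) : ℚ) ^ ((2 * j + 2 : ℕ) : ℤ) := by
    rw [zpow_natCast, show (9 : ℚ) = (3 : ℕ) ^ 2 by norm_num, ← pow_mul]
    congr 1
  have e2 : ((9 : ℚ) ^ (j + 2)) = ((3 : ℕ) : ℚ) ^ ((2 * j + 4 : ℕ) : ℤ) := by
    rw [zpow_natCast, show (9 : ℚ) = (3 : ℕ) ^ 2 by norm_num, ← pow_mul]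
    congr 1
  rw [e1, zpow_le_zpow_iff_right₀ (by norm_num)] at hge
  rw [e2, zpow_lt_zpow_iff_right₀ (by norm_num)] at hlt
  rw [Int.even_iff] at hev
  push_cast at hge hlt
  omega

/-- `P0` has infinite order -/
lemma zsmul_P0_ne_zero {k : ℤ} (hk : k ≠ 0) : k • P0 ≠ 0 := by
  intro h
  obtain ⟨x, hx, -⟩ := val_four hk
  rw [mul_zsmul, h, zsmul_zero] at hx
  exact not_hasX_zero hx

/-- every nonzero even multiple of `P0` is the double of a good point -/
theorem exists_good {k : ℤ} (hk : k ≠ 0) : ∃ x, Good x ∧ HasX ((2 * k) • P0) (ww x) := by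
  obtain ⟨x, y, h, hq⟩ := exists_hasX (zsmul_P0_ne_zero hk)
  have hy0 : y ≠ 0 := by
    rintro rfl
    have h1 : k • P0 = -(k • P0) := by
      rw [hq, neg_pt]; exact pt_congr rfl (by simp)
    have h2 : (2 * k) • P0 = 0 := by
      rw [two_mul, add_zsmul]
      nth_rw 1 [h1]
      simp
    exact zsmul_P0_ne_zero (by omega) h2
  refine ⟨x, ⟨y, hy0, h⟩, ?_⟩
  have hX : HasX (k • P0) x := ⟨y, h, hq⟩
  have hx0 : x ≠ 0 := by
    rintro rfl
    apply hy0
    have : y ^ 2 = 0 := by rw [h]; norm_num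
    exact pow_eq_zero_iff (by norm_num) |>.1 this
  have := hasX_two_smul hX hx0
  rw [two_mul, add_zsmul]
  exact this

theorem xi_val {x : ℚ} (hx : Good x) {k : ℤ} (hk : k ≠ 0) (h : HasX ((2 * k) • P0) (ww x)) :
    padicValRat 3 (xi x) = -2 - 2 * (padicValInt 3 k : ℤ) := by
  obtain ⟨z, hz, hv⟩ := val_four hk
  rw [(xi_hasX hx h).unique hz, hv]

theorem ec_pos {x : ℚ} (hx : Good x) : ∃ n : ℕ, padicValRat 3 (xi x) = -2 - 2 * n := by
  obtain ⟨k, hk, h, -⟩ := good_even hx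
  exact ⟨_, xi_val hx hk h⟩

theorem ec_exists (n : ℕ) : ∃ x, Good x ∧ padicValRat 3 (xi x) = -2 - 2 * n := by
  obtain ⟨x, hx, h⟩ := exists_good (k := 3 ^ n) (by positivity)
  refine ⟨x, hx, ?_⟩
  rw [xi_val hx (by positivity) h]
  congr 2
  rw [padicValInt, Int.natAbs_pow]
  simp

end Vale.Agent.P027
end
end

section

section

/-! P027: captured primes on the curve `y^2 = x^3 - 2x`. -/

namespace Vale.Agent.P027
open Vale.Agent.P345

/-- numerator and denominator of the capture function -/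
def Nn (r s : ℤ) : ℤ := 3 * r ^ 8 - 12 * r ^ 4 * s ^ 4 - 4 * s ^ 8
def Dn (r s : ℤ) : ℤ := r ^ 8 + 12 * r ^ 4 * s ^ 4 - 12 * s ^ 8

/-- the shape of the first coordinate of a double -/
def Form (x : ℚ) (r s : ℕ) : Prop :=
  r.Coprime s ∧ 0 < s ∧ 0 < r ∧ r % 2 = 1 ∧ s % 2 = 0 ∧ ww x = (r : ℚ) ^ 2 / (s : ℚ) ^ 2

theorem ww_form {x : ℚ} (hx : Good x) : ∃ r s : ℕ, Form x r s := by
  obtain ⟨y, hy, h⟩ := hx
  have hw : ww x = ((x ^ 2 + 2) / (2 * y)) ^ 2 := by
    unfold ww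
    rw [← h]
    field_simp
    ring
  obtain ⟨t, ht⟩ : ∃ t, t = (x ^ 2 + 2) / (2 * y) := ⟨_, rfl⟩
  have ht0 : t ≠ 0 := by
    rw [ht]
    have : (0 : ℚ) < x ^ 2 + 2 := by positivity
    positivity
  rw [← ht] at hw
  have htq : t = (t.num : ℚ) / (t.den : ℚ) := (Rat.num_div_den t).symm
  have hw2 : ww x = ((t.num.natAbs : ℕ) : ℚ) ^ 2 / ((t.den : ℕ) : ℚ) ^ 2 := by
    rw [hw]
    conv_lhs => rw [htq]
    rw [div_pow]
    congr 1
    have h1 : ((t.num.natAbs : ℕ) : ℤ) ^ 2 = t.num ^ 2 := by rw [Int.natCast_natAbs, sq_abs]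
    have h2 : (((t.num.natAbs : ℕ) : ℤ) : ℚ) ^ 2 = (t.num : ℚ) ^ 2 := by exact_mod_cast h1
    rw [← h2]
    norm_cast
  have hr0 : 0 < t.num.natAbs := Int.natAbs_pos.2 (Rat.num_ne_zero.2 ht0)
  have hs0 : 0 < t.den := t.pos
  have hco : t.num.natAbs.Coprime t.den := t.reduced
  obtain ⟨Y, hY, -⟩ := hasX_double h hy
  rw [← ht, ← hw] at hY
  obtain ⟨z, hz⟩ := sq_of_point hr0 hs0 hY hw2
  obtain ⟨a, c, d, hcd, hr, hs, -⟩ := a_descent hco hz
  have hs2 : t.den % 2 = 0 := by rw [hs]; have : 2 * a * c * d = 2 * (a * c * d) := by ring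
                                 omega
  have hr2 : t.num.natAbs % 2 = 1 := by
    by_contra hcon
    have h1 : 2 ∣ t.num.natAbs := by omega
    have h2 : 2 ∣ t.den := by omega
    have h3 := Nat.dvd_gcd h1 h2
    rw [Nat.Coprime] at hco
    rw [hco] at h3
    omega
  exact ⟨_, _, hco, hs0, hr0, hr2, hs2, hw2⟩

theorem kap_form {x : ℚ} {r s : ℕ} (h : Form x r s) :
    kap x = ((Nn r s : ℤ) : ℚ) / ((Dn r s : ℤ) : ℚ) := by
  obtain ⟨-, hs, -, -, -, hw⟩ := h
  have hs' : ((s : ℚ)) ^ 8 ≠ 0 := by positivity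
  have hs2 : ((s : ℚ)) ≠ 0 := by positivity
  unfold kap
  rw [hw]
  have e1 : 3 * ((r : ℚ) ^ 2 / (s : ℚ) ^ 2) ^ 4 - 12 * ((r : ℚ) ^ 2 / (s : ℚ) ^ 2) ^ 2 - 4 =
      ((Nn r s : ℤ) : ℚ) / (s : ℚ) ^ 8 := by
    unfold Nn
    push_cast
    field_simp
  have e2 : ((r : ℚ) ^ 2 / (s : ℚ) ^ 2) ^ 4 + 12 * ((r : ℚ) ^ 2 / (s : ℚ) ^ 2) ^ 2 - 12 =
      ((Dn r s : ℤ) : ℚ) / (s : ℚ) ^ 8 := by
    unfold Dn
    push_cast
    field_simp
  rw [e1, e2, div_div_div_cancel_right₀ hs']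

theorem Nn_mod {r s : ℕ} (hr : r % 2 = 1) (hs : s % 2 = 0) : ∃ m : ℤ, Nn r s = 8 * m + 3 := by
  obtain ⟨a, rfl⟩ : ∃ a, r = 2 * a + 1 := ⟨r / 2, by omega⟩
  obtain ⟨b, rfl⟩ : ∃ b, s = 2 * b := ⟨s / 2, by omega⟩
  obtain ⟨c, hc⟩ : ∃ c : ℤ, ((2 * a + 1 : ℕ) : ℤ) ^ 2 = 8 * c + 1 := by
    rcases Nat.even_or_odd' a with ⟨e, rfl | rfl⟩
    · exact ⟨e * (2 * e + 1), by push_cast; ring⟩
    · exact ⟨(2 * e + 1) * (e + 1), by push_cast; ring⟩
  have h8 : ((2 * a + 1 : ℕ) : ℤ) ^ 8 = (8 * c + 1) ^ 4 := by rw [← hc]; ring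
  have h4 : ((2 * a + 1 : ℕ) : ℤ) ^ 4 = (8 * c + 1) ^ 2 := by rw [← hc]; ring
  refine ⟨3 * (512 * c ^ 4 + 256 * c ^ 3 + 48 * c ^ 2 + 4 * c) - 24 * (8 * c + 1) ^ 2 * b ^ 4 -
    128 * b ^ 8, ?_⟩
  unfold Nn
  rw [h8, h4]
  push_cast
  ring

theorem Nn_ne_zero {r s : ℕ} (hr : r % 2 = 1) (hs : s % 2 = 0) : Nn r s ≠ 0 := by
  obtain ⟨m, hm⟩ := Nn_mod hr hs
  omega

theorem Dn_odd {r s : ℕ} (hr : r % 2 = 1) (hs : s % 2 = 0) : ∃ m : ℤ, Dn r s = 2 * m + 1 := by
  obtain ⟨a, rfl⟩ : ∃ a, r = 2 * a + 1 := ⟨r / 2, by omega⟩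
  obtain ⟨b, rfl⟩ : ∃ b, s = 2 * b := ⟨s / 2, by omega⟩
  have h : Odd (((2 * a + 1 : ℕ) : ℤ) ^ 8) := by
    apply Odd.pow
    exact ⟨a, by push_cast; ring⟩
  obtain ⟨c, hc⟩ := h
  refine ⟨c + 96 * ((2 * a + 1 : ℕ) : ℤ) ^ 4 * b ^ 4 - 6 * 256 * b ^ 8, ?_⟩
  unfold Dn
  rw [hc]
  push_cast
  ring

theorem Dn_ne_zero {r s : ℕ} (hr : r % 2 = 1) (hs : s % 2 = 0) : Dn r s ≠ 0 := by
  obtain ⟨m, hm⟩ := Dn_odd hr hs
  omega

/-! ### ec_two and ec_five -/

theorem kap_ne_zero {x : ℚ} (hx : Good x) : kap x ≠ 0 := by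
  obtain ⟨r, s, h⟩ := ww_form hx
  rw [kap_form h]
  exact div_ne_zero (by exact_mod_cast Nn_ne_zero h.2.2.2.1 h.2.2.2.2.1)
    (by exact_mod_cast Dn_ne_zero h.2.2.2.1 h.2.2.2.2.1)

theorem val_int_eq_zero {p : ℕ} {n : ℤ} (h : ¬ (p : ℤ) ∣ n) : padicValRat p (n : ℚ) = 0 := by
  rw [padicValRat.of_int, padicValInt.eq_zero_of_not_dvd h]
  rfl

theorem ec_two {x : ℚ} (hx : Good x) : kap x ≠ 0 ∧ padicValRat 2 (kap x) = 0 := by
  refine ⟨kap_ne_zero hx, ?_⟩
  obtain ⟨r, s, h⟩ := ww_form hx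
  have hr := h.2.2.2.1
  have hs := h.2.2.2.2.1
  have : Fact (Nat.Prime 2) := ⟨Nat.prime_two⟩
  rw [kap_form h, padicValRat.div (by exact_mod_cast Nn_ne_zero hr hs)
    (by exact_mod_cast Dn_ne_zero hr hs)]
  obtain ⟨m, hm⟩ := Nn_mod hr hs
  obtain ⟨m', hm'⟩ := Dn_odd hr hs
  rw [val_int_eq_zero (by rw [hm]; push_cast; omega), val_int_eq_zero (by rw [hm']; push_cast; omega)]
  rfl

theorem Nn_mod_five {r s : ℕ} (h : r.Coprime s) : ¬ ((5 : ℕ) : ℤ) ∣ Nn r s := by
  intro h5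
  have h1 : ((Nn r s : ℤ) : ZMod 5) = 0 := (ZMod.intCast_zmod_eq_zero_iff_dvd _ 5).2 h5
  unfold Nn at h1
  push_cast at h1
  have key : ∀ a b : ZMod 5, 3 * a ^ 8 - 12 * a ^ 4 * b ^ 4 - 4 * b ^ 8 = 0 → a = 0 ∧ b = 0 := by
    decide
  obtain ⟨ha, hb⟩ := key _ _ h1
  have h2 : 5 ∣ r := (ZMod.natCast_eq_zero_iff _ _).1 ha
  have h3 : 5 ∣ s := (ZMod.natCast_eq_zero_iff _ _).1 hb
  have h4 := Nat.dvd_gcd h2 h3
  rw [Nat.Coprime] at h
  rw [h] at h4
  omega

theorem ec_five {x : ℚ} (hx : Good x) : padicValRat 5 (kap x) ≤ 0 := by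
  obtain ⟨r, s, h⟩ := ww_form hx
  have hr := h.2.2.2.1
  have hs := h.2.2.2.2.1
  have : Fact (Nat.Prime 5) := ⟨by norm_num⟩
  rw [kap_form h, padicValRat.div (by exact_mod_cast Nn_ne_zero hr hs)
    (by exact_mod_cast Dn_ne_zero hr hs), val_int_eq_zero (Nn_mod_five h.1), padicValRat.of_int]
  omega

/-! ### the key lemma -/

theorem not_dvd_of_dvd_Nn {q : ℕ} (hq : q.Prime) (hq2 : q ≠ 2) (hq3 : q ≠ 3) {r s : ℕ}
    (hco : r.Coprime s) (h : (q : ℤ) ∣ Nn r s) :
    ¬ q ∣ s ∧ ¬ q ∣ r ∧ ¬ (q : ℤ) ∣ Dn r s := by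
  have hqi : Prime (q : ℤ) := Nat.prime_iff_prime_int.1 hq
  have hq2' : ¬ (q : ℤ) ∣ 2 := by
    intro h
    have : q ∣ 2 := by exact_mod_cast h
    exact hq2 ((Nat.prime_dvd_prime_iff_eq hq Nat.prime_two).1 this)
  have hq3' : ¬ (q : ℤ) ∣ 3 := by
    intro h
    have : q ∣ 3 := by exact_mod_cast h
    exact hq3 ((Nat.prime_dvd_prime_iff_eq hq Nat.prime_three).1 this)
  have hnot : ¬ (q ∣ r ∧ q ∣ s) := by
    rintro ⟨h1, h2⟩
    have h3 := Nat.dvd_gcd h1 h2
    rw [Nat.Coprime] at hco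
    rw [hco] at h3
    exact hq.one_lt.ne' (Nat.dvd_one.1 h3)
  have hs : ¬ q ∣ s := by
    intro hs
    have hs' : (q : ℤ) ∣ s := by exact_mod_cast hs
    have h1 : (q : ℤ) ∣ 3 * (r : ℤ) ^ 8 := by
      have e : 3 * (r : ℤ) ^ 8 = Nn r s + s * (12 * r ^ 4 * s ^ 3 + 4 * s ^ 7) := by
        unfold Nn; ring
      rw [e]
      exact dvd_add h (Dvd.dvd.mul_right hs' _)
    rcases hqi.dvd_or_dvd h1 with h2 | h2
    · exact hq3' h2
    · exact hnot ⟨by exact_mod_cast hqi.dvd_of_dvd_pow h2, hs⟩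
  have hr : ¬ q ∣ r := by
    intro hr
    have hr' : (q : ℤ) ∣ r := by exact_mod_cast hr
    have h1 : (q : ℤ) ∣ 2 * (2 * (s : ℤ) ^ 8) := by
      have e : 2 * (2 * (s : ℤ) ^ 8) = r * (3 * r ^ 7 - 12 * r ^ 3 * s ^ 4) - Nn r s := by
        unfold Nn; ring
      rw [e]
      exact dvd_sub (Dvd.dvd.mul_right hr' _) h
    rcases hqi.dvd_or_dvd h1 with h2 | h2
    · exact hq2' h2
    · rcases hqi.dvd_or_dvd h2 with h2 | h2
      · exact hq2' h2
      · exact hs (by exact_mod_cast hqi.dvd_of_dvd_pow h2)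
  have hs' : ¬ (q : ℤ) ∣ s := by
    intro h
    exact hs (by exact_mod_cast h)
  refine ⟨hs, hr, ?_⟩
  intro hD
  have h1 : (q : ℤ) ∣ 2 ^ 4 * ((s : ℤ) ^ 4 * (3 * r ^ 4 - 2 * s ^ 4)) := by
    have e : 2 ^ 4 * ((s : ℤ) ^ 4 * (3 * r ^ 4 - 2 * s ^ 4)) = 3 * Dn r s - Nn r s := by
      unfold Nn Dn; ring
    rw [e]
    exact dvd_sub (Dvd.dvd.mul_left hD _) h
  have h2 : (q : ℤ) ∣ 3 * r ^ 4 - 2 * s ^ 4 := by
    rcases hqi.dvd_or_dvd h1 with h2 | h2
    · exact absurd (hqi.dvd_of_dvd_pow h2) hq2'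
    · rcases hqi.dvd_or_dvd h2 with h2 | h2
      · exact absurd (hqi.dvd_of_dvd_pow h2) hs'
      · exact h2
  have h3 : (q : ℤ) ∣ 2 ^ 5 * (s : ℤ) ^ 8 := by
    have e : 2 ^ 5 * (s : ℤ) ^ 8 = (3 * r ^ 4 - 2 * s ^ 4) *
        ((3 * r ^ 4 - 2 * s ^ 4) + 40 * s ^ 4) - 9 * Dn r s := by
      unfold Dn; ring
    rw [e]
    exact dvd_sub (Dvd.dvd.mul_right h2 _) (Dvd.dvd.mul_left hD _)
  rcases hqi.dvd_or_dvd h3 with h4 | h4
  · exact hq2' (hqi.dvd_of_dvd_pow h4)
  · exact hs' (hqi.dvd_of_dvd_pow h4)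

theorem val_kap_pos_iff {q : ℕ} (hq : q.Prime) (hq2 : q ≠ 2) (hq3 : q ≠ 3) {x : ℚ} {r s : ℕ}
    (h : Form x r s) : 0 < padicValRat q (kap x) ↔ (q : ℤ) ∣ Nn r s := by
  have : Fact q.Prime := ⟨hq⟩
  have hr := h.2.2.2.1
  have hs := h.2.2.2.2.1
  have hN := Nn_ne_zero hr hs
  have hD := Dn_ne_zero hr hs
  rw [kap_form h, padicValRat.div (by exact_mod_cast hN) (by exact_mod_cast hD)]
  constructor
  · intro hpos
    by_contra hcon
    rw [val_int_eq_zero hcon, padicValRat.of_int] at hpos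
    omega
  · intro hdvd
    rw [val_int_eq_zero (not_dvd_of_dvd_Nn hq hq2 hq3 h.1 hdvd).2.2, padicValRat.of_int, sub_zero]
    have := (padicValInt_dvd_iff (p := q) 1 (Nn r s)).1 (by simpa only [pow_one] using hdvd)
    rcases this with h1 | h1
    · exact absurd h1 hN
    · exact_mod_cast h1

/-- points reducing to the origin -/
theorem exists_group (q : ℕ) (hq : q.Prime) : ∃ G : AddSubgroup EC.Point, ∀ V x, HasX V x →
    (V ∈ G ↔ padicValRat q x < 0) := by
  have : Fact q.Prime := ⟨hq⟩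
  have hq1 : (1 : ℚ) < q := by exact_mod_cast hq.one_lt
  refine ⟨GG q (q : ℚ) hq1, fun V x hV => ?_⟩
  rw [mem_GG_of_hasX q hq1 hV]
  by_cases hx : x = 0
  · subst hx
    rw [padicNorm.zero, padicValRat.zero]
    constructor
    · intro h
      linarith only [hq1, h]
    · intro h
      omega
  · rw [norm_eq_zpow q hx]
    have h1 : ((q : ℚ) ≤ (q : ℚ) ^ (-padicValRat q x)) ↔ (1 : ℤ) ≤ -padicValRat q x := by
      conv_lhs => lhs; rw [← zpow_one (q : ℚ)]
      exact zpow_le_zpow_iff_right₀ hq1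
    rw [h1]
    omega

/-- the key lemma -/
theorem key {q : ℕ} (hq : q.Prime) (hq2 : q ≠ 2) (hq3 : q ≠ 3) {G : AddSubgroup EC.Point}
    (hG : ∀ V x, HasX V x → (V ∈ G ↔ padicValRat q x < 0)) {x : ℚ} (hx : Good x) {k : ℤ}
    (hk : HasX ((2 * k) • P0) (ww x)) :
    0 < padicValRat q (kap x) ↔ (2 * k) • P0 ∉ G ∧ (6 * k) • P0 ∈ G := by
  have : Fact q.Prime := ⟨hq⟩
  obtain ⟨r, s, h⟩ := ww_form hx
  obtain ⟨x6, h6, e6⟩ := kap_sq hx hk
  obtain ⟨hco, hs0, hr0, hr, hs, hw⟩ := id h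
  have hkap := kap_ne_zero hx
  have hwne : ww x ≠ 0 := by rw [hw]; (clear * - hr0 hs0; positivity)
  have hx60 : x6 ≠ 0 := by
    rintro rfl
    rw [mul_zero] at e6
    exact hwne e6.symm
  have hval : 2 * padicValRat q (kap x) + padicValRat q x6 = padicValRat q (ww x) := by
    rw [← e6, padicValRat.mul (pow_ne_zero 2 hkap) hx60, padicValRat.pow]
    rfl
  have hvw : padicValRat q (ww x) = 2 * (padicValNat q r : ℤ) - 2 * padicValNat q s := by
    rw [hw, padicValRat.div (by positivity) (by positivity), padicValRat.pow,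
      padicValRat.pow, padicValRat.of_nat, padicValRat.of_nat]
    rfl
  rw [hG _ _ hk, hG _ _ h6, not_lt]
  constructor
  · intro hpos
    have hdvd := (val_kap_pos_iff hq hq2 hq3 h).1 hpos
    obtain ⟨h1, h2, -⟩ := not_dvd_of_dvd_Nn hq hq2 hq3 hco hdvd
    rw [padicValNat.eq_zero_of_not_dvd h1, padicValNat.eq_zero_of_not_dvd h2] at hvw
    simp only [Nat.cast_zero, mul_zero, sub_zero] at hvw
    constructor
    · exact hvw.ge
    · omega
  · rintro ⟨h1, h2⟩
    omega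

/-- multiples in a subgroup -/
theorem exists_order (G : AddSubgroup EC.Point) :
    ∃ M : ℤ, ∀ j : ℤ, (2 * j) • P0 ∈ G ↔ M ∣ j := by
  obtain ⟨M, hM⟩ := Int.subgroup_cyclic (G.comap (zmultiplesHom _ ((2 : ℤ) • P0)))
  refine ⟨M, fun j => ?_⟩
  have h1 : (2 * j) • P0 ∈ G ↔ j ∈ G.comap (zmultiplesHom _ ((2 : ℤ) • P0)) := by
    rw [AddSubgroup.mem_comap, zmultiplesHom_apply, ← mul_zsmul, mul_comm]
  rw [h1, hM, ← AddSubgroup.zmultiples_eq_closure, Int.mem_zmultiples_iff]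

theorem kap_pos_iff {q : ℕ} (hq : q.Prime) (hq2 : q ≠ 2) (hq3 : q ≠ 3) :
    ∃ M : ℤ, ∀ {x : ℚ}, Good x → ∀ {k : ℤ}, HasX ((2 * k) • P0) (ww x) →
      (0 < padicValRat q (kap x) ↔ ¬ M ∣ k ∧ M ∣ 3 * k) := by
  obtain ⟨G, hG⟩ := exists_group q hq
  obtain ⟨M, hM⟩ := exists_order G
  refine ⟨M, fun {x} hx {k} hk => ?_⟩
  rw [key hq hq2 hq3 hG hx hk, hM, ← hM (3 * k)]
  have : (6 * k) = 2 * (3 * k) := by ring
  rw [this]

/-- arithmetic of the order -/
theorem val_three {M k : ℤ} (hk : k ≠ 0) (h1 : ¬ M ∣ k) (h2 : M ∣ 3 * k) :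
    padicValInt 3 M = padicValInt 3 k + 1 := by
  have : Fact (Nat.Prime 3) := ⟨Nat.prime_three⟩
  obtain ⟨c, hc⟩ := h2
  have hM0 : M ≠ 0 := by
    rintro rfl
    rw [zero_mul] at hc
    omega
  have hc0 : c ≠ 0 := by
    rintro rfl
    rw [mul_zero] at hc
    omega
  have hc3 : ¬ (3 : ℤ) ∣ c := by
    rintro ⟨e, rfl⟩
    apply h1
    refine ⟨e, ?_⟩
    have : 3 * k = 3 * (M * e) := by rw [hc]; ring
    exact mul_left_cancel₀ (by norm_num) this
  have e1 : padicValInt 3 (3 * k) = 1 + padicValInt 3 k := by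
    rw [padicValInt.mul (by norm_num) hk]
    congr 1
    exact padicValInt_self
  have e2 : padicValInt 3 (M * c) = padicValInt 3 M := by
    have h3 : padicValInt 3 c = 0 := padicValInt.eq_zero_of_not_dvd (by exact_mod_cast hc3)
    rw [padicValInt.mul hM0 hc0, h3, add_zero]
  rw [hc, e2] at e1
  omega

theorem inert_ne_two {q : ℕ} (hq : Inert q) : q ≠ 2 := by
  rintro rfl
  have := hq.2
  omega

theorem ec_unique {q : ℕ} (hq : Inert q) (hq3 : q ≠ 3) {x x' : ℚ} (hx : Good x)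
    (hx' : Good x') (h : 0 < padicValRat q (kap x)) (h' : 0 < padicValRat q (kap x')) :
    padicValRat 3 (xi x) = padicValRat 3 (xi x') := by
  obtain ⟨M, hM⟩ := kap_pos_iff hq.1 (inert_ne_two hq) hq3
  obtain ⟨k, hk0, hk, -⟩ := good_even hx
  obtain ⟨k', hk0', hk', -⟩ := good_even hx'
  rw [hM hx hk] at h
  rw [hM hx' hk'] at h'
  have h1 := val_three hk0 h.1 h.2
  have h2 := val_three hk0' h'.1 h'.2
  rw [xi_val hx hk0 hk, xi_val hx' hk0' hk']
  omega

/-- inert prime factors -/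
theorem mod_eight_of_factors : ∀ n : ℕ, 0 < n → (∀ p, p.Prime → p ∣ n → p % 8 = 1 ∨ p % 8 = 7) →
    n % 8 = 1 ∨ n % 8 = 7 := by
  intro n
  induction n using Nat.strong_induction_on with
  | _ n IH =>
    intro hn hp
    by_cases h1 : n = 1
    · left; omega
    · have hpr := Nat.minFac_prime h1
      obtain ⟨m, hm⟩ := Nat.minFac_dvd n
      have hm0 : 0 < m := Nat.pos_of_ne_zero (by rintro rfl; omega)
      have hlt : m < n := by
        have := hpr.two_le
        nlinarith only [hm, this, hm0]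
      have h2 := IH m hlt hm0 (fun p hp' hpm => hp p hp' (by rw [hm]; exact Dvd.dvd.mul_left hpm _))
      have h3 := hp _ hpr (Nat.minFac_dvd n)
      rw [hm, Nat.mul_mod]
      rcases h2 with h2 | h2 <;> rcases h3 with h3 | h3 <;> rw [h2, h3] <;> decide

theorem exists_inert_factor {n : ℕ} (h : n % 8 = 3 ∨ n % 8 = 5) : ∃ p, Inert p ∧ p ∣ n := by
  by_contra hcon
  push Not at hcon
  have hn : 0 < n := by omega
  have := mod_eight_of_factors n hn (fun p hp hpn => by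
    have h1 : p % 2 = 1 := by
      by_contra h2
      have h3 : 2 ∣ p := by omega
      have h4 : 2 ∣ n := h3.trans hpn
      omega
    have h2 : ¬ (p % 8 = 3 ∨ p % 8 = 5) := fun h3 => hcon p ⟨hp, h3⟩ hpn
    omega)
  omega

/-- `2 * 3 ^ n` times the generator does not reduce to the origin modulo three -/
theorem three_group {G : AddSubgroup EC.Point}
    (hG : ∀ V x, HasX V x → (V ∈ G ↔ padicValRat 3 x < 0)) (n : ℕ) :
    (2 * (3 : ℤ) ^ n) • P0 ∉ G := by
  have : Fact (Nat.Prime 3) := ⟨Nat.prime_three⟩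
  have h2 : HasX ((2 : ℤ) • P0) (9 / 4) := by
    rw [two_zsmul]
    have := hasX_double (x := -1) (y := 1) (by norm_num) one_ne_zero
    have e : (((-1 : ℚ) ^ 2 + 2) / (2 * 1)) ^ 2 = 9 / 4 := by norm_num
    rw [e] at this
    exact this
  have h4 : HasX ((4 : ℤ) • P0) (12769 / 7056) := by
    have h2' := h2
    obtain ⟨y, hy, e⟩ := h2
    have hy0 : y ≠ 0 := by
      rintro rfl
      norm_num at hy
    have e4 : (4 : ℤ) • P0 = pt _ _ hy + pt _ _ hy := by
      rw [← e, ← add_zsmul]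
      norm_num
    rw [e4]
    have := hasX_double hy hy0
    have e5 : (((9 / 4 : ℚ) ^ 2 + 2) / (2 * y)) ^ 2 = 12769 / 7056 := by
      rw [div_pow, mul_pow, hy]
      norm_num
    rw [e5] at this
    exact this
  have n2 : (2 : ℤ) • P0 ∉ G := by
    rw [hG _ _ h2, not_lt]
    have : (9 / 4 : ℚ) = ((9 : ℤ) : ℚ) / ((4 : ℤ) : ℚ) := by norm_num
    rw [this, padicValRat.div (by norm_num) (by norm_num), val_int_eq_zero (n := 4) (by norm_num),
      padicValRat.of_int]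
    omega
  have m4 : (4 : ℤ) • P0 ∈ G := by
    rw [hG _ _ h4]
    have : (12769 / 7056 : ℚ) = ((12769 : ℤ) : ℚ) / ((7056 : ℤ) : ℚ) := by norm_num
    rw [this, padicValRat.div (by norm_num) (by norm_num), val_int_eq_zero (n := 12769) (by norm_num),
      padicValRat.of_int]
    have : 1 ≤ padicValInt 3 7056 := by
      have h := (padicValInt_dvd_iff (p := 3) 1 (7056 : ℤ)).1 (by norm_num)
      rcases h with h | h
      · norm_num at h
      · exact h
    omega
  intro hmem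
  apply n2
  -- `3 ^ n` is odd
  obtain ⟨c, hc⟩ : ∃ c : ℤ, (3 : ℤ) ^ n = 2 * c + 1 := by
    have : Odd ((3 : ℤ) ^ n) := Odd.pow (by decide)
    exact this
  have e : (2 : ℤ) • P0 = (2 * (3 : ℤ) ^ n) • P0 - c • ((4 : ℤ) • P0) := by
    rw [hc, ← mul_zsmul, ← sub_smul]
    congr 1
    ring
  rw [e]
  exact G.sub_mem hmem (G.zsmul_mem m4 c)

theorem ec_prime (n : ℕ) : ∃ p, Inert p ∧ p ≠ 3 ∧
    ∀ x, Good x → (0 < padicValRat p (kap x) ↔ padicValRat 3 (xi x) = -2 - 2 * n) := by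
  have : Fact (Nat.Prime 3) := ⟨Nat.prime_three⟩
  obtain ⟨x, hx, hk⟩ := exists_good (k := (3 : ℤ) ^ n) (by positivity)
  obtain ⟨r, s, h⟩ := ww_form hx
  obtain ⟨hco, hs0, hr0, hr, hs, hw⟩ := id h
  obtain ⟨m, hm⟩ := Nn_mod hr hs
  have hab : (Nn r s).natAbs % 8 = 3 ∨ (Nn r s).natAbs % 8 = 5 := by omega
  obtain ⟨p, hp, hpd⟩ := exists_inert_factor hab
  have hpN : (p : ℤ) ∣ Nn r s := Int.natCast_dvd.2 hpd
  have hp3 : p ≠ 3 := by
    rintro rfl
    have h1 : (3 : ℤ) ∣ (2 : ℤ) ^ 2 * (s : ℤ) ^ 8 := by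
      have e : (2 : ℤ) ^ 2 * (s : ℤ) ^ 8 = 3 * (r ^ 8 - 4 * r ^ 4 * s ^ 4) - Nn r s := by
        unfold Nn; ring
      rw [e]
      exact dvd_sub (Dvd.intro _ rfl) hpN
    have h3 : Prime (3 : ℤ) := Int.prime_three
    have h4 : (3 : ℤ) ∣ s := by
      rcases h3.dvd_or_dvd h1 with h2 | h2
      · norm_num at h2
      · exact h3.dvd_of_dvd_pow h2
    have h5 : 3 ∣ s := by exact_mod_cast h4
    have h6 : ¬ 3 ∣ r := by
      intro h7
      have h8 := Nat.dvd_gcd h7 h5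
      rw [Nat.Coprime] at hco
      rw [hco] at h8
      omega
    obtain ⟨G, hG⟩ := exists_group 3 Nat.prime_three
    apply three_group hG n
    rw [hG _ _ hk, hw, padicValRat.div (by positivity) (by positivity),
      padicValRat.pow, padicValRat.pow, padicValRat.of_nat,
      padicValRat.of_nat, padicValNat.eq_zero_of_not_dvd h6]
    have h9 : 1 ≤ padicValNat 3 s := one_le_padicValNat_of_dvd hs0.ne' h5
    simp only [Nat.cast_zero, Nat.cast_ofNat]
    (clear * - h9; omega)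
  refine ⟨p, hp, hp3, ?_⟩
  obtain ⟨M, hM⟩ := kap_pos_iff hp.1 (inert_ne_two hp) hp3
  have hpos := (val_kap_pos_iff hp.1 (inert_ne_two hp) hp3 h).2 hpN
  rw [hM hx hk] at hpos
  have hM3 : ∀ k : ℤ, k ≠ 0 → ((¬ M ∣ k ∧ M ∣ 3 * k) ↔ padicValInt 3 k = n) := by
    intro k hk0
    have hv := val_three (pow_ne_zero n (by norm_num : (3 : ℤ) ≠ 0)) hpos.1 hpos.2
    have hv3 : padicValInt 3 ((3 : ℤ) ^ n) = n := by
      have := padicValInt.of_ne_one_ne_zero (p := 3) (z := (3 : ℤ) ^ n) (by norm_num)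
        (by positivity)
      simp only [padicValInt, Int.natAbs_pow, Int.reduceAbs, Nat.one_lt_ofNat, padicValNat_base_pow]
    have hMabs : M ∣ (3 : ℤ) ^ (n + 1) := by
      have := hpos.2
      rwa [← pow_succ'] at this
    constructor
    · rintro ⟨h1, h2⟩
      have := val_three hk0 h1 h2
      omega
    · intro hk3
      have h3 : (3 : ℤ) ^ n ∣ k := by
        rw [← hk3]
        exact padicValInt_dvd k
      refine ⟨?_, ?_⟩
      · intro hMk
        obtain ⟨c, hc⟩ := hMk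
        have hM0 : M ≠ 0 := by
          rintro rfl
          rw [zero_mul] at hc
          exact hk0 hc
        have hc0 : c ≠ 0 := by
          rintro rfl
          rw [mul_zero] at hc
          exact hk0 hc
        have : padicValInt 3 k = padicValInt 3 M + padicValInt 3 c := by
          rw [hc, padicValInt.mul hM0 hc0]
        omega
      · refine hMabs.trans ?_
        rw [pow_succ']
        exact mul_dvd_mul_left 3 h3
  intro x' hx'
  obtain ⟨k', hk0', hk', -⟩ := good_even hx'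
  rw [hM hx' hk', hM3 k' hk0', xi_val hx' hk0' hk']
  constructor
  · intro h
    rw [h]
  · intro h
    have : (padicValInt 3 k' : ℤ) = n := by linarith only [h]
    exact_mod_cast this

end Vale.Agent.P027
end
end

section

section

/-! Counter machines and their simulation by affine rules. -/

namespace Vale.Agent.P027

open Finset

end Vale.Agent.P027
end
end

section

section

/-! Loop programs, their compilation to counter machines, and primitive recursive functions. -/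

namespace Vale.Agent.P027

open Function

namespace LP

/-! ### Compilation -/

/-! ### Renaming of registers -/

/-! ### Computing functions of several arguments -/

end LP

end Vale.Agent.P027
end
end

section

section

/-! Primitive recursive functions are computed by loop programs. -/

namespace Vale.Agent.P027

open Function

namespace LP

end LP

end Vale.Agent.P027
end
end

section

section

/-! A universal system of affine rules. -/

namespace Vale.Agent.P027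

open Function Nat.Partrec

namespace LP

end LP

end Vale.Agent.P027
end
end

section

section

namespace Vale.Agent.P027

/-- `X` and `Y` have a common inert prime different from three -/
def Mach (X Y : ℚ) : Prop :=
  ∃ b a : ℚ, Three8 b ∧ 0 ≤ padicValRat 3 b ∧ 0 ≤ padicValRat 3 (1 / b) ∧ Cap a b ∧
    Con a b 1 ∧ Con a b (X / b) ∧ Con a b (Y / b)

def Out (t k : ℚ) : Prop := ∃ a : ℚ, Cap a t ∧ Con a t (1 / k)

theorem con_div_sound {a b X : ℚ} {q : ℕ} (hq : Inert q) (hb : Odd (padicValRat q b))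
    (hpos : 1 ≤ padicValRat q b) (hc : Cap a b) (h : Con a b (X / b)) :
    X = 0 ∨ 1 ≤ padicValRat q X := by
  have := Fact.mk hq.1
  have hb0 : b ≠ 0 := by
    rintro rfl; simp only [padicValRat.zero, Int.reduceLE] at hpos
  rcases eq_or_ne X 0 with h0 | h0
  · exact Or.inl h0
  right
  rcases capture_sound hq hb hc h with h1 | h1
  · exact absurd h1 (div_ne_zero h0 hb0)
  · rw [padicValRat.mul hb0 (pow_ne_zero _ (div_ne_zero h0 hb0)),
      padicValRat.pow, padicValRat.div h0 hb0] at h1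
    push_cast at h1
    omega

theorem mach_sound {X Y : ℚ} (h : Mach X Y) :
    ∃ q, Inert q ∧ q ≠ 3 ∧ (X = 0 ∨ 1 ≤ padicValRat q X) ∧ (Y = 0 ∨ 1 ≤ padicValRat q Y) := by
  obtain ⟨b, a, hb, hb3, hb3', hcap, h1, hX, hY⟩ := h
  obtain ⟨q, hq, hodd⟩ := exists_inert_odd hb
  have := Fact.mk hq.1
  have hb0 := hb.val.1
  have h3 : padicValRat 3 b = 0 := by
    rw [padicValRat.div (by norm_num) hb0, padicValRat.one] at hb3'
    omega
  have hq3 : q ≠ 3 := by
    rintro rfl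
    rw [h3] at hodd
    simp at hodd
  have hpos : 1 ≤ padicValRat q b := by
    rcases capture_sound hq hodd hcap h1 with h | h
    · norm_num at h
    · simp only [one_pow, mul_one] at h
      obtain ⟨k, hk⟩ := hodd
      omega
  exact ⟨q, hq, hq3, con_div_sound hq hodd hpos hcap hX, con_div_sound hq hodd hpos hcap hY⟩

theorem mach_complete {X Y : ℚ} {q : ℕ} (hq : Inert q) (hq3 : q ≠ 3)
    (hX2 : 0 ≤ padicValRat 2 X) (hY2 : 0 ≤ padicValRat 2 Y)
    (hX : X = 0 ∨ 1 ≤ padicValRat q X) (hY : Y = 0 ∨ 1 ≤ padicValRat q Y) : Mach X Y := by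
  have := Fact.mk hq.1
  obtain ⟨b, hb, hbq⟩ : ∃ b : ℚ, Three8 b ∧ (b = q ∨ b = -q) := by
    rcases hq.2 with h | h
    · refine ⟨q, ?_, Or.inl rfl⟩
      obtain ⟨k, hk⟩ : ∃ k, q = 8 * k + 3 := ⟨q / 8, by omega⟩
      unfold Three8
      rw [hk]
      have : (((8 * k + 3 : ℕ) : ℚ) - 3) / 8 = (k : ℚ) := by push_cast; ring
      rw [this]
      exact zero_le_padicValRat_of_nat k
    · refine ⟨-q, ?_, Or.inr rfl⟩
      obtain ⟨k, hk⟩ : ∃ k, q = 8 * k + 5 := ⟨q / 8, by omega⟩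
      unfold Three8
      rw [hk]
      have : (-((8 * k + 5 : ℕ) : ℚ) - 3) / 8 = -((k + 1 : ℕ) : ℚ) := by push_cast; ring
      rw [this, padicValRat.neg]
      exact zero_le_padicValRat_of_nat _
  have hb0 := hb.val.1
  have hb2 := hb.val.2
  have hvb : ∀ p : ℕ, padicValRat p b = padicValRat p (q : ℚ) := by
    intro p
    rcases hbq with h | h
    · rw [h]
    · rw [h, padicValRat.neg]
  have hbself : padicValRat q b = 1 := by rw [hvb, vself hq.1]
  have hb3 : padicValRat 3 b = 0 := by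
    rw [hvb]; exact vprime Nat.prime_three hq.1 hq3.symm
  have key : ∀ X : ℚ, 0 ≤ padicValRat 2 X → (X = 0 ∨ 1 ≤ padicValRat q X) →
      0 ≤ padicValRat 2 (X / b) ∧ ∀ p, Inert p → Odd (padicValRat p b) →
        X / b = 0 ∨ 0 ≤ padicValRat p (b * (X / b) ^ 2) := by
    intro X hX2 hX
    rcases eq_or_ne X 0 with h0 | h0
    · subst h0; simp only [zero_div, padicValRat.zero, Std.le_refl, ne_eq, OfNat.ofNat_ne_zero, not_false_eq_true, zero_pow, mul_zero, or_self, implies_true, and_self]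
    have hX' : 1 ≤ padicValRat q X := hX.resolve_left h0
    refine ⟨?_, ?_⟩
    · rw [padicValRat.div h0 hb0, hb2]; omega
    · intro p hp hodd
      have := Fact.mk hp.1
      have hpq : p = q := by
        by_contra hne
        rw [hvb, vprime hp.1 hq.1 hne] at hodd
        simp at hodd
      subst hpq
      right
      rw [padicValRat.mul hb0 (pow_ne_zero _ (div_ne_zero h0 hb0)),
        padicValRat.pow, padicValRat.div h0 hb0, hbself]
      push_cast
      omega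
  have key1 : 0 ≤ padicValRat 2 (1 : ℚ) ∧ ∀ p, Inert p → Odd (padicValRat p b) →
        (1 : ℚ) = 0 ∨ 0 ≤ padicValRat p (b * 1 ^ 2) := by
    refine ⟨by simp, ?_⟩
    intro p hp hodd
    right
    rw [one_pow, mul_one, hvb]
    exact zero_le_padicValRat_of_nat _
  obtain ⟨a, ha, hall⟩ := capture_complete hb [1, X / b, Y / b] (by
    intro r hr
    simp only [List.mem_cons, List.not_mem_nil, or_false] at hr
    rcases hr with rfl | rfl | rfl
    · exact key1
    · exact key X hX2 hX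
    · exact key Y hY2 hY)
  refine ⟨b, a, hb, hb3.ge, ?_, ha, hall _ (by simp), hall _ (by simp), hall _ (by simp)⟩
  rw [padicValRat.div (by norm_num) hb0, padicValRat.one, hb3]
  norm_num

theorem out_sound {t k : ℚ} {q : ℕ} (hk : k ≠ 0) (ht : t ≠ 0) (hq : Inert q)
    (htq : padicValRat q t = 1) (h : Out t k) : padicValRat q k ≤ 0 := by
  have := Fact.mk hq.1
  obtain ⟨a, ha, hc⟩ := h
  have hodd : Odd (padicValRat q t) := by rw [htq]; exact odd_one
  rcases capture_sound hq hodd ha hc with h | h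
  · exact absurd h (by simpa using hk)
  · rw [padicValRat.mul ht (pow_ne_zero _ (by simpa using hk)),
      padicValRat.pow, padicValRat.div one_ne_zero hk, padicValRat.one, htq] at h
    push_cast at h
    omega

theorem out_or_mach {t k : ℚ} (ht : Three8 t) (ht3 : padicValRat 3 t = 0)
    (hval : ∀ q, Inert q → q ≠ 3 → 0 ≤ padicValRat q t ∧ padicValRat q t ≤ 1)
    (hk : k ≠ 0) (hk2 : padicValRat 2 k = 0) (h : ¬ Out t k) : Mach t k := by
  by_contra hm
  apply h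
  obtain ⟨a, ha, hall⟩ := capture_complete ht [1 / k] (by
    intro r hr
    simp only [List.mem_cons, List.not_mem_nil, or_false] at hr
    subst hr
    refine ⟨?_, ?_⟩
    · rw [padicValRat.div one_ne_zero hk, padicValRat.one, hk2]; norm_num
    · intro q hq hodd
      have := Fact.mk hq.1
      right
      have hq3 : q ≠ 3 := by
        rintro rfl
        rw [ht3] at hodd
        simp at hodd
      have hv1 : padicValRat q t = 1 := by
        have := hval q hq hq3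
        obtain ⟨c, hc⟩ := hodd
        omega
      have hv2 : ¬ 1 ≤ padicValRat q k := by
        intro h1
        apply hm
        exact mach_complete hq hq3 (by rw [ht.val.2]) (by rw [hk2]) (Or.inr (by rw [hv1]))
          (Or.inr h1)
      rw [padicValRat.mul ht.val.1 (pow_ne_zero _ (by simpa using hk)),
        padicValRat.pow, padicValRat.div one_ne_zero hk, padicValRat.one, hv1]
      push_cast
      omega)
  exact ⟨a, ha, hall _ (by simp)⟩

end Vale.Agent.P027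
end
end

section

section

namespace Vale.Agent.P027

def U3 (s : ℚ) : Prop := s ≠ 0 ∧ 0 ≤ padicValRat 3 s ∧ 0 ≤ padicValRat 3 (1 / s)

theorem U3_iff {s : ℚ} (hs : s ≠ 0) : U3 s ↔ padicValRat 3 s = 0 := by
  unfold U3
  rw [padicValRat.div one_ne_zero hs, padicValRat.one]
  constructor
  · rintro ⟨-, h1, h2⟩; omega
  · intro h; exact ⟨hs, by omega, by omega⟩

theorem xi_ne {x : ℚ} {n : ℕ} (h : padicValRat 3 (xi x) = -2 - 2 * n) : xi x ≠ 0 := by
  intro h0
  rw [h0] at h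
  simp at h
  omega

theorem prod_mod (S : Finset ℕ) (hS : ∀ q ∈ S, Inert q) :
    ((S.card % 2 = 0) → (∏ q ∈ S, q) % 8 = 1 ∨ (∏ q ∈ S, q) % 8 = 7) ∧
    ((S.card % 2 = 1) → (∏ q ∈ S, q) % 8 = 3 ∨ (∏ q ∈ S, q) % 8 = 5) := by
  induction S using Finset.induction_on with
  | empty => simp only [Finset.card_empty, Nat.zero_mod, Finset.prod_empty, Nat.one_mod, OfNat.one_ne_ofNat, or_false, imp_self, zero_ne_one, or_self, and_self]
  | insert a S ha ih =>
    have ih' := ih (fun q hq => hS q (Finset.mem_insert_of_mem hq))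
    have ha' := (hS a (Finset.mem_insert_self a S)).2
    rw [Finset.prod_insert ha, Finset.card_insert_of_notMem ha, Nat.mul_mod]
    constructor
    · intro h
      rcases ih'.2 (by omega) with h2 | h2 <;> rcases ha' with h3 | h3 <;> rw [h2, h3] <;> simp
    · intro h
      rcases ih'.1 (by omega) with h2 | h2 <;> rcases ha' with h3 | h3 <;> rw [h2, h3] <;> simp

theorem prod_val (S : Finset ℕ) (hS : ∀ q ∈ S, q.Prime) {p : ℕ} (hp : p.Prime) :
    padicValRat p ((∏ q ∈ S, q : ℕ) : ℚ) = if p ∈ S then 1 else 0 := by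
  have := Fact.mk hp
  induction S using Finset.induction_on with
  | empty => simp
  | insert a S ha ih =>
    have ih' := ih (fun q hq => hS q (Finset.mem_insert_of_mem hq))
    have ha' := hS a (Finset.mem_insert_self a S)
    have h1 : ((∏ q ∈ S, q : ℕ) : ℚ) ≠ 0 := by
      rw [Nat.cast_ne_zero, Finset.prod_ne_zero_iff]
      intro q hq
      exact (hS q (Finset.mem_insert_of_mem hq)).ne_zero
    rw [Finset.prod_insert ha, Nat.cast_mul,
      padicValRat.mul (by exact_mod_cast ha'.ne_zero) h1, ih']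
    by_cases hpa : p = a
    · subst hpa
      rw [vself hp]
      simp [ha]
    · rw [vprime hp ha' hpa]
      simp [hpa]

end Vale.Agent.P027
end
end

section

section

/-! A small calculus of Diophantine predicates over the rationals. Environments are
sequences of rational numbers, variables are numbered, the newest bound variable is `v 0`. -/

namespace Vale.Agent.P027

open MvPolynomial

def Dio (S : (ℕ → ℚ) → Prop) : Prop :=
  ∃ p : MvPolynomial (ℕ ⊕ ℕ) ℤ, ∀ v : ℕ → ℚ,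
    S v ↔ ∃ y : ℕ → ℚ, aeval (Sum.elim v y) p = 0

def tl (v : ℕ → ℚ) : ℕ → ℚ := fun i => v (i + 1)

def cns (x : ℚ) (v : ℕ → ℚ) : ℕ → ℚ := fun i => Nat.rec x (fun j _ => v j) i

theorem cns_zero (x : ℚ) (v : ℕ → ℚ) : cns x v 0 = x := rfl
theorem cns_succ (x : ℚ) (v : ℕ → ℚ) (i : ℕ) : cns x v (i + 1) = v i := rfl
theorem cns_tl (v : ℕ → ℚ) : cns (v 0) (tl v) = v := by
  funext i; cases i <;> rfl

theorem Dio.congr {S T : (ℕ → ℚ) → Prop} (h : Dio S) (e : ∀ v, T v ↔ S v) : Dio T := by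
  obtain ⟨p, hp⟩ := h
  exact ⟨p, fun v => (e v).trans (hp v)⟩

theorem Dio.poly (p : MvPolynomial ℕ ℤ) : Dio (fun v => aeval v p = 0) := by
  refine ⟨rename Sum.inl p, fun v => ?_⟩
  simp only [aeval_rename]
  constructor
  · intro h; exact ⟨fun _ => 0, by simpa only [Function.comp_def, Sum.elim_inl] using h⟩
  · rintro ⟨y, hy⟩; simpa only [Function.comp_def, Sum.elim_inl] using hy

theorem Dio.and {S T : (ℕ → ℚ) → Prop} (hS : Dio S) (hT : Dio T) :
    Dio (fun v => S v ∧ T v) := by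
  obtain ⟨p, hp⟩ := hS
  obtain ⟨q, hq⟩ := hT
  refine ⟨(rename (Sum.map id (fun i => 2 * i)) p) ^ 2 +
    (rename (Sum.map id (fun i => 2 * i + 1)) q) ^ 2, fun v => ?_⟩
  have key : ∀ (y : ℕ → ℚ) (g : ℕ → ℕ),
      Sum.elim v y ∘ Sum.map id g = Sum.elim v (fun i => y (g i)) := by
    intro y g; funext i; rcases i with i | i <;> rfl
  simp only [map_add, map_pow, aeval_rename, key, hp, hq]
  constructor
  · rintro ⟨⟨y, hy⟩, ⟨z, hz⟩⟩
    refine ⟨fun i => if i % 2 = 0 then y (i / 2) else z (i / 2), ?_⟩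
    have e1 : (fun i => (fun i : ℕ => if i % 2 = 0 then y (i / 2) else z (i / 2)) (2 * i)) = y := by
      funext i
      have h1 : (2 * i) % 2 = 0 := by omega
      have h2 : (2 * i) / 2 = i := by omega
      simp only [h1, h2, if_true]
    have e2 : (fun i => (fun i : ℕ => if i % 2 = 0 then y (i / 2) else z (i / 2)) (2 * i + 1)) = z := by
      funext i
      have h1 : (2 * i + 1) % 2 = 1 := by omega
      have h2 : (2 * i + 1) / 2 = i := by omega
      simp only [h1, h2, one_ne_zero, if_false]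
    rw [e1, e2, hy, hz]; norm_num
  · rintro ⟨y, hy⟩
    have h1 := sq_nonneg (aeval (Sum.elim v fun i => y (2 * i)) p : ℚ)
    have h2 := sq_nonneg (aeval (Sum.elim v fun i => y (2 * i + 1)) q : ℚ)
    refine ⟨⟨_, pow_eq_zero_iff (n := 2) (by norm_num) |>.1 (by linarith)⟩,
      ⟨_, pow_eq_zero_iff (n := 2) (by norm_num) |>.1 (by linarith)⟩⟩

theorem Dio.or {S T : (ℕ → ℚ) → Prop} (hS : Dio S) (hT : Dio T) :
    Dio (fun v => S v ∨ T v) := by
  obtain ⟨p, hp⟩ := hS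
  obtain ⟨q, hq⟩ := hT
  refine ⟨p * q, fun v => ?_⟩
  simp only [map_mul, mul_eq_zero, hp, hq, exists_or]

theorem Dio.ren {S : (ℕ → ℚ) → Prop} (hS : Dio S) (r : ℕ → ℕ) :
    Dio (fun v => S (fun i => v (r i))) := by
  obtain ⟨p, hp⟩ := hS
  refine ⟨rename (Sum.map r id) p, fun v => ?_⟩
  have key : ∀ (y : ℕ → ℚ),
      Sum.elim v y ∘ Sum.map r id = Sum.elim (fun i => v (r i)) y := by
    intro y; funext i; rcases i with i | i <;> rfl
  simp only [aeval_rename, key, hp]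

theorem Dio.ex {S : ℚ → (ℕ → ℚ) → Prop} (hS : Dio (fun v => S (v 0) (tl v))) :
    Dio (fun v => ∃ x, S x v) := by
  obtain ⟨p, hp⟩ := hS
  refine ⟨rename (Sum.elim (fun i => Nat.rec (Sum.inr 0) (fun j _ => Sum.inl j) i)
    (fun j => Sum.inr (j + 1))) p, fun v => ?_⟩
  have key : ∀ (y : ℕ → ℚ),
      Sum.elim v y ∘ (Sum.elim (fun i => Nat.rec (Sum.inr 0) (fun j _ => Sum.inl j) i)
        (fun j => Sum.inr (j + 1))) = Sum.elim (cns (y 0) v) (tl y) := by
    intro y; funext i; rcases i with i | i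
    · cases i <;> rfl
    · rfl
  simp only [aeval_rename, key]
  constructor
  · rintro ⟨x, hx⟩
    obtain ⟨y, hy⟩ := (hp (cns x v)).1 hx
    exact ⟨cns x y, hy⟩
  · rintro ⟨y, hy⟩
    exact ⟨y 0, (hp (cns (y 0) v)).2 ⟨_, hy⟩⟩

/-- Diophantine functions -/
def DioFn (f : (ℕ → ℚ) → ℚ) : Prop := Dio (fun v => v 0 = f (tl v))

theorem Dio.sub {S : ℚ → (ℕ → ℚ) → Prop} {f : (ℕ → ℚ) → ℚ} (hf : DioFn f)
    (hS : Dio (fun v => S (v 0) (tl v))) : Dio (fun v => S (f v) v) := by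
  have h : Dio (fun v => ∃ x, x = f v ∧ S x v) := Dio.ex (hf.and hS)
  exact h.congr (fun v => by simp)

theorem DioFn.tl {f : (ℕ → ℚ) → ℚ} (hf : DioFn f) : DioFn (fun v => f (tl v)) := by
  have := Dio.ren hf (fun i => Nat.rec 0 (fun j _ => j + 2) i)
  exact this

theorem DioFn.of_poly (p : MvPolynomial ℕ ℤ) : DioFn (fun v => aeval v p) := by
  have h := Dio.poly (X 0 - rename (fun i => i + 1) p)
  refine h.congr (fun v => ?_)
  simp only [map_sub, aeval_X, aeval_rename, sub_eq_zero]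
  rfl

theorem DioFn.var (i : ℕ) : DioFn (fun v => v i) := by
  have := DioFn.of_poly (X i)
  simpa using this

theorem DioFn.int (n : ℤ) : DioFn (fun _ => (n : ℚ)) := by
  have := DioFn.of_poly (C n)
  simpa using this

theorem DioFn.bin {op : ℚ → ℚ → ℚ} (hop : Dio (fun v => v 2 = op (v 1) (v 0)))
    {f g : (ℕ → ℚ) → ℚ} (hf : DioFn f) (hg : DioFn g) : DioFn (fun v => op (f v) (g v)) := by
  unfold DioFn
  refine Dio.sub (S := fun x v => v 0 = op x (g (P027.tl v))) hf.tl ?_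
  exact Dio.sub (S := fun x v => (P027.tl v) 0 = op (v 0) x) hg.tl.tl hop

theorem DioFn.un {op : ℚ → ℚ} (hop : Dio (fun v => v 1 = op (v 0)))
    {f : (ℕ → ℚ) → ℚ} (hf : DioFn f) : DioFn (fun v => op (f v)) := by
  unfold DioFn
  exact Dio.sub (S := fun x v => v 0 = op x) hf.tl hop

theorem DioFn.add {f g : (ℕ → ℚ) → ℚ} (hf : DioFn f) (hg : DioFn g) :
    DioFn (fun v => f v + g v) := by
  refine DioFn.bin (op := fun a b => a + b) ?_ hf hg
  refine (Dio.poly (X 2 - (X 1 + X 0))).congr (fun v => ?_)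
  simp [sub_eq_zero]

theorem DioFn.mul {f g : (ℕ → ℚ) → ℚ} (hf : DioFn f) (hg : DioFn g) :
    DioFn (fun v => f v * g v) := by
  refine DioFn.bin (op := fun a b => a * b) ?_ hf hg
  refine (Dio.poly (X 2 - (X 1 * X 0))).congr (fun v => ?_)
  simp only [map_sub, aeval_X, map_mul, sub_eq_zero]

theorem DioFn.sub {f g : (ℕ → ℚ) → ℚ} (hf : DioFn f) (hg : DioFn g) :
    DioFn (fun v => f v - g v) := by
  refine DioFn.bin (op := fun a b => a - b) ?_ hf hg
  refine (Dio.poly (X 2 - (X 1 - X 0))).congr (fun v => ?_)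
  simp only [map_sub, aeval_X, sub_eq_zero]

theorem Dio.eq {f g : (ℕ → ℚ) → ℚ} (hf : DioFn f) (hg : DioFn g) :
    Dio (fun v => f v = g v) := by
  refine Dio.sub (S := fun x v => x = g v) hf ?_
  exact hg

theorem DioFn.inv {f : (ℕ → ℚ) → ℚ} (hf : DioFn f) :
    DioFn (fun v => (f v)⁻¹) := by
  refine DioFn.un (op := fun a => a⁻¹) ?_ hf
  have h1 : Dio (fun v => v 1 * v 0 = 1) :=
    Dio.eq ((DioFn.var 1).mul (DioFn.var 0)) (by simpa using DioFn.int 1)
  have h2 : Dio (fun v => v 1 = 0 ∧ v 0 = 0) :=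
    (Dio.eq (DioFn.var 1) (by simpa using DioFn.int 0)).and
      (Dio.eq (DioFn.var 0) (by simpa using DioFn.int 0))
  refine (h1.or h2).congr (fun v => ?_)
  by_cases h0 : v 0 = 0
  · simp [h0]
  · simp only [h0, and_false, or_false]
    exact ⟨fun h => by rw [h]; exact inv_mul_cancel₀ h0, fun h => eq_inv_of_mul_eq_one_left h⟩

theorem DioFn.div {f g : (ℕ → ℚ) → ℚ} (hf : DioFn f) (hg : DioFn g) :
    DioFn (fun v => f v / g v) := by
  simpa [div_eq_mul_inv] using hf.mul hg.inv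

theorem DioFn.num (n : ℕ) : DioFn (fun _ => (n : ℚ)) := by
  simpa using DioFn.int n

theorem DioFn.pow {f : (ℕ → ℚ) → ℚ} (hf : DioFn f) (n : ℕ) :
    DioFn (fun v => f v ^ n) := by
  induction n with
  | zero => simpa using DioFn.int 1
  | succ n ih => simpa [pow_succ] using ih.mul hf

theorem Dio.ne {f g : (ℕ → ℚ) → ℚ} (hf : DioFn f) (hg : DioFn g) :
    Dio (fun v => f v ≠ g v) := by
  have h : Dio (fun v => ∃ z, (f v - g v) * z = 1) := by
    refine Dio.ex (S := fun z v => (f v - g v) * z = 1) ?_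
    exact Dio.eq ((hf.tl.sub hg.tl).mul (DioFn.var 0)) (by simpa using DioFn.int 1)
  refine h.congr (fun v => ?_)
  rw [← sub_ne_zero]
  constructor
  · intro h; exact ⟨(f v - g v)⁻¹, mul_inv_cancel₀ h⟩
  · rintro ⟨z, hz⟩ h0; rw [h0] at hz; simp at hz

theorem Dio.true : Dio (fun _ => True) := by
  refine (Dio.poly 0).congr (fun v => by simp)

theorem Dio.false : Dio (fun _ => False) := by
  refine (Dio.poly 1).congr (fun v => by simp only [map_one, one_ne_zero])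

end Vale.Agent.P027
end
end

section

section

namespace Vale.Agent.P027

/-- substitution of Diophantine functions in a unary Diophantine predicate -/
theorem Dio.app1 {S : ℚ → Prop} (hS : Dio (fun v => S (v 0))) {f : (ℕ → ℚ) → ℚ}
    (hf : DioFn f) : Dio (fun v => S (f v)) :=
  Dio.sub (S := fun x _ => S x) hf hS

theorem Dio.app2 {S : ℚ → ℚ → Prop} (hS : Dio (fun v => S (v 0) (v 1))) {f g : (ℕ → ℚ) → ℚ}
    (hf : DioFn f) (hg : DioFn g) : Dio (fun v => S (f v) (g v)) := by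
  refine Dio.sub (S := fun x v => S x (g v)) hf ?_
  refine Dio.sub (S := fun y v => S (v 0) y) hg.tl ?_
  exact hS.ren (fun i => if i = 0 then 1 else 0)

theorem Dio.app3 {S : ℚ → ℚ → ℚ → Prop} (hS : Dio (fun v => S (v 0) (v 1) (v 2)))
    {f g h : (ℕ → ℚ) → ℚ} (hf : DioFn f) (hg : DioFn g) (hh : DioFn h) :
    Dio (fun v => S (f v) (g v) (h v)) := by
  refine Dio.sub (S := fun x v => S x (g v) (h v)) hf ?_
  refine Dio.sub (S := fun y v => S (v 0) y (h (P027.tl v))) hg.tl ?_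
  refine Dio.sub (S := fun z v => S (v 1) (v 0) z) hh.tl.tl ?_
  exact hS.ren (fun i => if i = 0 then 2 else if i = 1 then 1 else 0)

theorem one_fn : DioFn (fun _ => (1 : ℚ)) := by simpa using DioFn.num 1
theorem zero_fn : DioFn (fun _ => (0 : ℚ)) := by simpa using DioFn.num 0
theorem lit_fn (n : ℕ) [n.AtLeastTwo] : DioFn (fun _ => (OfNat.ofNat n : ℚ)) :=
  DioFn.num n

theorem dio_int2 {f : (ℕ → ℚ) → ℚ} (hf : DioFn f) : Dio (fun v => 0 ≤ padicValRat 2 (f v)) := by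
  refine Dio.app1 (S := fun x => 0 ≤ padicValRat 2 x) ?_ hf
  have h : Dio (fun v => ∃ y₁ y₂ y₃ : ℚ, 7 * (v 0) ^ 2 + 2 = y₁ ^ 2 + y₂ ^ 2 + y₃ ^ 2) := by
    refine Dio.ex (Dio.ex (Dio.ex ?_))
    exact Dio.eq (((lit_fn 7).mul ((DioFn.var 3).pow 2)).add (lit_fn 2))
      ((((DioFn.var 2).pow 2).add ((DioFn.var 1).pow 2)).add ((DioFn.var 0).pow 2))
  exact h.congr (fun v => int2_iff _)

theorem dio_int3 {f : (ℕ → ℚ) → ℚ} (hf : DioFn f) : Dio (fun v => 0 ≤ padicValRat 3 (f v)) := by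
  refine Dio.app1 (S := fun x => 0 ≤ padicValRat 3 x) ?_ hf
  have h : Dio (fun w => ∃ A u v e f x z : ℚ, A ≠ 0 ∧ A = u ^ 2 + 3 * v ^ 2 ∧
      A = e ^ 2 - 2 * f ^ 2 ∧ x ^ 2 + A * z ^ 2 = 1 + 3 * (w 0) ^ 2) := by
    refine Dio.ex (Dio.ex (Dio.ex (Dio.ex (Dio.ex (Dio.ex (Dio.ex ?_))))))
    refine (Dio.ne (DioFn.var 6) zero_fn).and ((Dio.eq (DioFn.var 6) ?_).and
      ((Dio.eq (DioFn.var 6) ?_).and (Dio.eq ?_ ?_)))
    · exact ((DioFn.var 5).pow 2).add ((lit_fn 3).mul ((DioFn.var 4).pow 2))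
    · exact ((DioFn.var 3).pow 2).sub ((lit_fn 2).mul ((DioFn.var 2).pow 2))
    · exact ((DioFn.var 1).pow 2).add ((DioFn.var 6).mul ((DioFn.var 0).pow 2))
    · exact one_fn.add ((lit_fn 3).mul ((DioFn.var 7).pow 2))
  exact h.congr (fun v => int3_iff _)

theorem dio_cap {f g : (ℕ → ℚ) → ℚ} (hf : DioFn f) (hg : DioFn g) :
    Dio (fun v => Cap (f v) (g v)) := by
  refine Dio.app2 ?_ hf hg
  unfold Cap
  refine (Dio.ne (DioFn.var 0) zero_fn).and ((Dio.ex (Dio.ex ?_)).and (Dio.ex (Dio.ex ?_)))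
  · exact Dio.eq (DioFn.var 2) (((DioFn.var 1).pow 2).sub ((lit_fn 2).mul ((DioFn.var 0).pow 2)))
  · exact Dio.eq ((lit_fn 2).mul (DioFn.var 2))
      (((DioFn.var 1).pow 2).sub ((DioFn.var 3).mul ((DioFn.var 0).pow 2)))

theorem dio_con {f g h : (ℕ → ℚ) → ℚ} (hf : DioFn f) (hg : DioFn g) (hh : DioFn h) :
    Dio (fun v => Con (f v) (g v) (h v)) := by
  refine Dio.app3 ?_ hf hg hh
  unfold Con
  refine Dio.ex (Dio.ex ?_)
  exact Dio.eq (((DioFn.var 1).pow 2).sub ((DioFn.var 2).mul ((DioFn.var 0).pow 2)))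
    (one_fn.add (((lit_fn 4).mul (DioFn.var 3)).mul ((DioFn.var 4).pow 2)))

theorem dio_good {f : (ℕ → ℚ) → ℚ} (hf : DioFn f) : Dio (fun v => Good (f v)) := by
  refine Dio.app1 ?_ hf
  unfold Good
  refine Dio.ex ?_
  exact (Dio.ne (DioFn.var 0) zero_fn).and (Dio.eq ((DioFn.var 0).pow 2)
    (((DioFn.var 1).pow 3).sub ((lit_fn 2).mul (DioFn.var 1))))

theorem dio_three8 {f : (ℕ → ℚ) → ℚ} (hf : DioFn f) : Dio (fun v => Three8 (f v)) := by
  unfold Three8
  exact dio_int2 ((hf.sub (lit_fn 3)).div (lit_fn 8))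

theorem dio_U3 {f : (ℕ → ℚ) → ℚ} (hf : DioFn f) : Dio (fun v => U3 (f v)) := by
  unfold U3
  exact (Dio.ne hf zero_fn).and ((dio_int3 hf).and (dio_int3 (one_fn.div hf)))

theorem fn_ww {f : (ℕ → ℚ) → ℚ} (hf : DioFn f) : DioFn (fun v => ww (f v)) := by
  unfold ww
  exact (((hf.pow 2).add (lit_fn 2)).pow 2).div
    ((lit_fn 4).mul ((hf.pow 3).sub ((lit_fn 2).mul hf)))

theorem fn_kap {f : (ℕ → ℚ) → ℚ} (hf : DioFn f) : DioFn (fun v => kap (f v)) := by
  unfold kap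
  have h := fn_ww hf
  exact (((((lit_fn 3).mul (h.pow 4)).sub ((lit_fn 12).mul (h.pow 2))).sub (lit_fn 4))).div
    (((h.pow 4).add ((lit_fn 12).mul (h.pow 2))).sub (lit_fn 12))

theorem fn_xi {f : (ℕ → ℚ) → ℚ} (hf : DioFn f) : DioFn (fun v => xi (f v)) := by
  unfold xi
  have h := fn_ww hf
  exact (((h.pow 2).add (lit_fn 2)).pow 2).div
    ((lit_fn 4).mul ((h.pow 3).sub ((lit_fn 2).mul h)))

theorem dio_mach {f g : (ℕ → ℚ) → ℚ} (hf : DioFn f) (hg : DioFn g) :
    Dio (fun v => Mach (f v) (g v)) := by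
  refine Dio.app2 ?_ hf hg
  unfold Mach
  refine Dio.ex (Dio.ex ?_)
  exact (dio_three8 (DioFn.var 1)).and ((dio_int3 (DioFn.var 1)).and
    ((dio_int3 (one_fn.div (DioFn.var 1))).and ((dio_cap (DioFn.var 0) (DioFn.var 1)).and
    ((dio_con (DioFn.var 0) (DioFn.var 1) one_fn).and
    ((dio_con (DioFn.var 0) (DioFn.var 1) ((DioFn.var 2).div (DioFn.var 1))).and
    (dio_con (DioFn.var 0) (DioFn.var 1) ((DioFn.var 3).div (DioFn.var 1))))))))

theorem dio_out {f g : (ℕ → ℚ) → ℚ} (hf : DioFn f) (hg : DioFn g) :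
    Dio (fun v => Out (f v) (g v)) := by
  refine Dio.app2 ?_ hf hg
  unfold Out
  refine Dio.ex ?_
  exact (dio_cap (DioFn.var 0) (DioFn.var 1)).and
    (dio_con (DioFn.var 0) (DioFn.var 1) (one_fn.div (DioFn.var 2)))

end Vale.Agent.P027
end
end

section

section

/-! Definitions for the theorem on heights of single rational numbers (problem P027). -/

namespace Vale.Agent.P027.HT

open Vale.Agent.P345

/-- multiplicative height of a rational number -/
def H (x : ℚ) : ℕ := max x.num.natAbs x.den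

/-- a relation that agrees with comparison of heights up to the constant `K` -/
def Coarse (K : ℕ) (R : ℚ → ℚ → Prop) : Prop :=
  ∀ x y, (H x ≤ H y → R x y) ∧ (R x y → H x ≤ K * H y)

/-- `x` is the first coordinate of the odd multiple `n P0`, written in lowest terms -/
structure OddForm (n : ℤ) (x : ℚ) (c d : ℕ) : Prop where
  odd : Odd n
  hasX : HasX (n • P0) x
  c_odd : c % 2 = 1
  d_odd : d % 2 = 1
  cop : Nat.Coprime c d
  eq : x = -((c : ℚ) ^ 2 / (d : ℚ) ^ 2)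
  le : c ^ 4 ≤ 2 * d ^ 4

end Vale.Agent.P027.HT
end
end

section

section

/-! Calculus of positive existential predicates over the rationals with an extra binary
relation `R`. -/

namespace Vale.Agent.P027.HT

open MvPolynomial

/-- environment: `v` for the free variables, `y` for the bound ones (in triples, the second and
third member of each triple are in the relation `R`) -/
def env (v : ℕ → ℚ) (y : ℕ → Fin 3 → ℚ) : ℕ ⊕ ℕ × Fin 3 → ℚ :=
  Sum.elim v (fun ij => y ij.1 ij.2)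

/-- positive existential predicates with an extra relation `R` -/
def HD (K : ℕ) (S : (ℚ → ℚ → Prop) → (ℕ → ℚ) → Prop) : Prop :=
  ∃ p : MvPolynomial (ℕ ⊕ ℕ × Fin 3) ℤ, ∀ R, Coarse K R → ∀ v : ℕ → ℚ,
    S R v ↔ ∃ y : ℕ → Fin 3 → ℚ, aeval (env v y) p = 0 ∧ ∀ i, R (y i 1) (y i 2)

variable {K : ℕ}

theorem Coarse.zero {R : ℚ → ℚ → Prop} (h : Coarse K R) : R 0 0 := (h 0 0).1 le_rfl

theorem HD.congr {S T : (ℚ → ℚ → Prop) → (ℕ → ℚ) → Prop} (h : HD K S)
    (e : ∀ R, Coarse K R → ∀ v, T R v ↔ S R v) : HD K T := by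
  obtain ⟨p, hp⟩ := h
  exact ⟨p, fun R hR v => (e R hR v).trans (hp R hR v)⟩

theorem HD.of_dio {S : (ℕ → ℚ) → Prop} (h : Dio S) : HD K (fun _ => S) := by
  obtain ⟨p, hp⟩ := h
  refine ⟨rename (Sum.map id (fun i => (i, 0))) p, fun R hR v => ?_⟩
  have key : ∀ (y : ℕ → Fin 3 → ℚ),
      env v y ∘ Sum.map id (fun i => (i, 0)) = Sum.elim v (fun i => y i 0) := by
    intro y; funext i; rcases i with i | i <;> rfl
  simp only [aeval_rename, key, hp]
  constructor
  · rintro ⟨y, hy⟩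
    exact ⟨fun i => ![y i, 0, 0], by simpa only [Fin.isValue, Matrix.cons_val_zero] using hy, fun i => hR.zero⟩
  · rintro ⟨y, hy, -⟩
    exact ⟨_, hy⟩

theorem HD.and {S T : (ℚ → ℚ → Prop) → (ℕ → ℚ) → Prop} (hS : HD K S) (hT : HD K T) :
    HD K (fun R v => S R v ∧ T R v) := by
  obtain ⟨p, hp⟩ := hS
  obtain ⟨q, hq⟩ := hT
  refine ⟨(rename (Sum.map id (fun ij => (2 * ij.1, ij.2))) p) ^ 2 +
    (rename (Sum.map id (fun ij => (2 * ij.1 + 1, ij.2))) q) ^ 2, fun R hR v => ?_⟩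
  have key : ∀ (y : ℕ → Fin 3 → ℚ) (g : ℕ → ℕ),
      env v y ∘ Sum.map id (fun ij : ℕ × Fin 3 => (g ij.1, ij.2)) = env v (fun i => y (g i)) := by
    intro y g; funext i; rcases i with i | i <;> rfl
  simp only [map_add, map_pow, aeval_rename, key _ (fun i => 2 * i), key _ (fun i => 2 * i + 1),
    hp R hR, hq R hR]
  constructor
  · rintro ⟨⟨y, hy, hy'⟩, ⟨z, hz, hz'⟩⟩
    refine ⟨fun i => if i % 2 = 0 then y (i / 2) else z (i / 2), ?_, ?_⟩
    · have e1 : (fun i => (fun i : ℕ => if i % 2 = 0 then y (i / 2) else z (i / 2)) (2 * i)) = y := by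
        funext i
        have h1 : (2 * i) % 2 = 0 := by omega
        have h2 : (2 * i) / 2 = i := by omega
        simp only [h1, h2, if_true]
      have e2 : (fun i => (fun i : ℕ => if i % 2 = 0 then y (i / 2) else z (i / 2)) (2 * i + 1)) =
          z := by
        funext i
        have h1 : (2 * i + 1) % 2 = 1 := by omega
        have h2 : (2 * i + 1) / 2 = i := by omega
        simp only [h1, h2, one_ne_zero, if_false]
      rw [e1, e2, hy, hz]; norm_num
    · intro i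
      beta_reduce
      split_ifs
      · exact hy' _
      · exact hz' _
  · rintro ⟨y, hy, hy'⟩
    have h1 := sq_nonneg (aeval (env v fun i => y (2 * i)) p : ℚ)
    have h2 := sq_nonneg (aeval (env v fun i => y (2 * i + 1)) q : ℚ)
    exact ⟨⟨_, pow_eq_zero_iff (n := 2) (by norm_num) |>.1 (by linarith only [h1, hy, h2]), fun i => hy' _⟩,
      ⟨_, pow_eq_zero_iff (n := 2) (by norm_num) |>.1 (by linarith), fun i => hy' _⟩⟩

theorem HD.or {S T : (ℚ → ℚ → Prop) → (ℕ → ℚ) → Prop} (hS : HD K S) (hT : HD K T) :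
    HD K (fun R v => S R v ∨ T R v) := by
  obtain ⟨p, hp⟩ := hS
  obtain ⟨q, hq⟩ := hT
  refine ⟨p * q, fun R hR v => ?_⟩
  simp only [hp R hR, hq R hR, map_mul, mul_eq_zero, or_and_right, exists_or]

theorem HD.ren {S : (ℚ → ℚ → Prop) → (ℕ → ℚ) → Prop} (hS : HD K S) (r : ℕ → ℕ) :
    HD K (fun R v => S R (fun i => v (r i))) := by
  obtain ⟨p, hp⟩ := hS
  refine ⟨rename (Sum.map r id) p, fun R hR v => ?_⟩
  have key : ∀ (y : ℕ → Fin 3 → ℚ),
      env v y ∘ Sum.map r id = env (fun i => v (r i)) y := by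
    intro y; funext i; rcases i with i | i <;> rfl
  simp only [aeval_rename, key, hp R hR]

theorem HD.ex {S : (ℚ → ℚ → Prop) → ℚ → (ℕ → ℚ) → Prop}
    (hS : HD K (fun R v => S R (v 0) (tl v))) : HD K (fun R v => ∃ x, S R x v) := by
  obtain ⟨p, hp⟩ := hS
  refine ⟨rename (Sum.elim (fun i => Nat.rec (Sum.inr (0, 0)) (fun j _ => Sum.inl j) i)
    (fun ij => Sum.inr (ij.1 + 1, ij.2))) p, fun R hR v => ?_⟩
  have key : ∀ (y : ℕ → Fin 3 → ℚ),
      env v y ∘ (Sum.elim (fun i => Nat.rec (Sum.inr (0, 0)) (fun j _ => Sum.inl j) i)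
        (fun ij => Sum.inr (ij.1 + 1, ij.2))) = env (cns (y 0 0) v) (fun i => y (i + 1)) := by
    intro y; funext i; rcases i with i | i
    · cases i <;> rfl
    · rfl
  simp only [aeval_rename, key]
  constructor
  · rintro ⟨x, hx⟩
    obtain ⟨y, hy, hy'⟩ := (hp R hR (cns x v)).1 hx
    obtain ⟨z, hz0, hz1, hz2, hz⟩ : ∃ z : ℕ → Fin 3 → ℚ, z 0 0 = x ∧ z 0 1 = 0 ∧ z 0 2 = 0 ∧
        (fun i => z (i + 1)) = y :=
      ⟨fun i => Nat.rec ![x, 0, 0] (fun j _ => y j) i, rfl, rfl, rfl, rfl⟩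
    refine ⟨z, ?_, fun i => ?_⟩
    · rw [hz0, hz]; exact hy
    rcases i with _ | i
    · rw [hz1, hz2]; exact hR.zero
    · have := hy' i
      rw [← hz] at this
      exact this
  · rintro ⟨y, hy, hy'⟩
    have h1 : ∃ z : ℕ → Fin 3 → ℚ, aeval (env (cns (y 0 0) v) z) p = 0 ∧ ∀ i, R (z i 1) (z i 2) :=
      ⟨fun i => y (i + 1), hy, fun i => hy' (i + 1)⟩
    exact ⟨y 0 0, (hp R hR (cns (y 0 0) v)).2 h1⟩

theorem HD.atom (i j : ℕ) : HD K (fun R v => R (v i) (v j)) := by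
  refine ⟨(X (Sum.inl i) - X (Sum.inr (0, 1))) ^ 2 + (X (Sum.inl j) - X (Sum.inr (0, 2))) ^ 2,
    fun R hR v => ?_⟩
  simp only [map_add, map_pow, map_sub, aeval_X]
  constructor
  · intro h
    refine ⟨fun k => if k = 0 then ![0, v i, v j] else ![0, 0, 0], ?_, fun k => ?_⟩
    · simp [env]
    · beta_reduce
      split_ifs
      · exact h
      · exact hR.zero
  · rintro ⟨y, hy, hy'⟩
    have h1 : v i - y 0 1 = 0 := by
      have h1 := sq_nonneg (v i - y 0 1)
      have h2 := sq_nonneg (v j - y 0 2)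
      exact pow_eq_zero_iff (n := 2) (by norm_num) |>.1 (by
        change (v i - y 0 1) ^ 2 + (v j - y 0 2) ^ 2 = 0 at hy
        linarith only [h1, h2, hy])
    have h2 : v j - y 0 2 = 0 := by
      have h1 := sq_nonneg (v i - y 0 1)
      have h2 := sq_nonneg (v j - y 0 2)
      exact pow_eq_zero_iff (n := 2) (by norm_num) |>.1 (by
        change (v i - y 0 1) ^ 2 + (v j - y 0 2) ^ 2 = 0 at hy
        linarith)
    rw [sub_eq_zero.1 h1, sub_eq_zero.1 h2]
    exact hy' 0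

theorem HD.sub {S : (ℚ → ℚ → Prop) → ℚ → (ℕ → ℚ) → Prop} {f : (ℕ → ℚ) → ℚ} (hf : DioFn f)
    (hS : HD K (fun R v => S R (v 0) (tl v))) : HD K (fun R v => S R (f v) v) := by
  have h : HD K (fun R v => ∃ x, x = f v ∧ S R x v) :=
    HD.ex (S := fun R x v => x = f v ∧ S R x v) ((HD.of_dio hf).and hS)
  exact h.congr (fun R _ v => by simp)

/-- comparison of two Diophantine functions -/
theorem HD.rel {f g : (ℕ → ℚ) → ℚ} (hf : DioFn f) (hg : DioFn g) :
    HD K (fun R v => R (f v) (g v)) := by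
  refine HD.sub (S := fun R x v => R x (g v)) hf ?_
  refine HD.sub (S := fun R x v => R (v 0) x) hg.tl ?_
  exact HD.atom 1 0

/-- finitely many variables -/
theorem HD.finite {n : ℕ} {S : (ℚ → ℚ → Prop) → (Fin n → ℚ) → Prop}
    (h : HD K (fun R v => S R (fun i => v i))) :
    ∃ (m : ℕ) (g : MvPolynomial (Fin n ⊕ Fin m) ℤ)
      (L : List ((Fin n ⊕ Fin m) × (Fin n ⊕ Fin m))), ∀ R, Coarse K R → ∀ x : Fin n → ℚ,
      (S R x ↔ ∃ y : Fin m → ℚ, aeval (Sum.elim x y) g = 0 ∧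
          ∀ ij ∈ L, R (Sum.elim x y ij.1) (Sum.elim x y ij.2)) := by
  obtain ⟨p, hp⟩ := h
  obtain ⟨m, hm⟩ : ∃ m : ℕ, ∀ j, Sum.inr j ∈ p.vars → j.1 < m := by
    refine ⟨(p.vars.toRight.sup (fun ij => ij.1)).succ, fun j hj => ?_⟩
    rw [Nat.lt_succ_iff]
    exact Finset.le_sup (f := fun ij : ℕ × Fin 3 => ij.1) (by simpa using hj)
  let φ : ℕ ⊕ ℕ × Fin 3 → MvPolynomial (Fin n ⊕ Fin (3 * m)) ℤ :=
    Sum.elim (fun i => if h : i < n then X (Sum.inl ⟨i, h⟩) else 0)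
      (fun ij => if h : ij.1 < m then X (Sum.inr ⟨3 * ij.1 + ij.2, by omega⟩) else 0)
  refine ⟨3 * m, aeval φ p, (List.finRange m).map (fun i : Fin m =>
    (Sum.inr ⟨3 * (i : ℕ) + 1, by omega⟩, Sum.inr ⟨3 * (i : ℕ) + 2, by omega⟩)), fun R hR x => ?_⟩
  have hp' := hp R hR (fun i => if h : i < n then x ⟨i, h⟩ else 0)
  have ex : (fun i : Fin n => (fun i : ℕ => if h : i < n then x ⟨i, h⟩ else 0) (i : ℕ)) = x := by
    funext i
    simp
  beta_reduce at hp' ex
  rw [ex] at hp'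
  rw [hp']
  have ev : ∀ y : Fin (3 * m) → ℚ, aeval (Sum.elim x y) (aeval φ p) =
      aeval (env (fun i => if h : i < n then x ⟨i, h⟩ else 0)
        (fun i j => if h : i < m then y ⟨3 * i + j, by omega⟩ else 0)) p := by
    intro y
    rw [← AlgHom.comp_apply, comp_aeval]
    congr 2
    funext i
    rcases i with i | i
    · simp only [φ, Sum.elim_inl, env]
      split_ifs <;> simp
    · simp only [φ, Sum.elim_inr, env]
      split_ifs with h
      · rw [aeval_X]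
        rfl
      · simp
  constructor
  · rintro ⟨y, hy, hy'⟩
    refine ⟨fun j => y (j / 3) ⟨j % 3, Nat.mod_lt _ (by norm_num)⟩, ?_, ?_⟩
    · rw [ev]
      refine Eq.trans ?_ hy
      refine eval₂Hom_congr' rfl ?_ rfl
      intro i hi _
      rcases i with i | ⟨i, j⟩
      · rfl
      · simp only [Sum.elim_inr, env]
        rw [dif_pos (hm (i, j) hi)]
        have h1 : (3 * i + (j : ℕ)) / 3 = i := by omega
        have h2 : (3 * i + (j : ℕ)) % 3 = j := by omega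
        simp only [h1, h2]
    · intro ij hij
      rw [List.mem_map] at hij
      obtain ⟨i, -, rfl⟩ := hij
      simp only [Sum.elim_inr]
      have h1 : (3 * (i : ℕ) + 1) / 3 = i := by omega
      have h2 : (3 * (i : ℕ) + 1) % 3 = 1 := by omega
      have h3 : (3 * (i : ℕ) + 2) / 3 = i := by omega
      have h4 : (3 * (i : ℕ) + 2) % 3 = 2 := by omega
      simp only [h1, h2, h3, h4]
      exact hy' i
  · rintro ⟨y, hy, hy'⟩
    rw [ev] at hy
    refine ⟨_, hy, fun i => ?_⟩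
    by_cases h : i < m
    · simp only [h, dif_pos]
      exact hy' (Sum.inr ⟨3 * i + 1, by omega⟩, Sum.inr ⟨3 * i + 2, by omega⟩)
        (List.mem_map.2 ⟨⟨i, h⟩, List.mem_finRange _, rfl⟩)
    · simp only [h, dif_neg, not_false_eq_true]
      exact hR.zero

end Vale.Agent.P027.HT
end
end

section

section

/-! Odd multiples of `P0`: shape of the first coordinate, coprimality, heights of products. -/

namespace Vale.Agent.P027.HT

open Vale.Agent.P345

lemma oddForm_of_hasX {n : ℤ} (hn : Odd n) {x : ℚ} (h : HasX (n • P0) x) :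
    ∃ c d, OddForm n x c d := by
  obtain ⟨k, hk⟩ : ∃ k : ℕ, n.natAbs = 2 * k + 1 := by
    have : Odd n.natAbs := Int.natAbs_odd.2 hn
    obtain ⟨k, hk⟩ := this
    exact ⟨k, hk⟩
  obtain ⟨r, w, c, d, r', w', -, hB, -⟩ := exists_reps k
  have hB' := hB
  obtain ⟨hcop, hc, hd, hx⟩ := hB
  obtain ⟨a, ha⟩ := exists_BType hc hd hcop hx
  have hpar := ha.parity
  have hx' : HasX (n • P0) (-((c : ℚ) ^ 2 / (d : ℚ) ^ 2)) := by
    rcases Int.natAbs_eq n with h1 | h1
    · rw [h1, hk, natCast_zsmul]; exact hx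
    · rw [h1, hk, neg_zsmul, natCast_zsmul]; exact hx.neg
  refine ⟨c, d, hn, h, hpar.1, hpar.2.1, hcop, h.unique hx', ?_⟩
  have := ha.2
  omega

lemma oddForm_exists {n : ℤ} (hn : Odd n) : ∃ x c d, OddForm n x c d := by
  obtain ⟨k, hk⟩ : ∃ k : ℕ, n.natAbs = 2 * k + 1 := by
    have : Odd n.natAbs := Int.natAbs_odd.2 hn
    obtain ⟨k, hk⟩ := this
    exact ⟨k, hk⟩
  obtain ⟨r, w, c, d, r', w', -, hB, -⟩ := exists_reps k
  obtain ⟨hcop, hc, hd, hx⟩ := hB
  have hx' : HasX (n • P0) (-((c : ℚ) ^ 2 / (d : ℚ) ^ 2)) := by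
    rcases Int.natAbs_eq n with h1 | h1
    · rw [h1, hk, natCast_zsmul]; exact hx
    · rw [h1, hk, neg_zsmul, natCast_zsmul]; exact hx.neg
  obtain ⟨c', d', h'⟩ := oddForm_of_hasX hn hx'
  exact ⟨_, c', d', h'⟩

lemma OddForm.c_pos {n : ℤ} {x : ℚ} {c d : ℕ} (h : OddForm n x c d) : 0 < c := by
  have := h.c_odd; omega

lemma OddForm.d_pos {n : ℤ} {x : ℚ} {c d : ℕ} (h : OddForm n x c d) : 0 < d := by
  have := h.d_odd; omega

/-- the point of order two -/
def TT : EC.Point := pt 0 0 (by norm_num)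

lemma two_TT : TT + TT = 0 := by
  have h : TT = -TT := by
    unfold TT
    rw [neg_pt]; exact pt_congr rfl (by norm_num)
  nth_rw 1 [h]
  simp

lemma odd_zsmul_TT {n : ℤ} (hn : Odd n) : n • TT = TT := by
  obtain ⟨k, rfl⟩ := hn
  rw [add_zsmul, one_zsmul, mul_comm, mul_zsmul, two_zsmul, two_TT, zsmul_zero, zero_add]

lemma hasX_add_TT {V : EC.Point} {x : ℚ} (hV : HasX V x) (hx : x ≠ 0) : HasX (V + TT) (-2 / x) := by
  obtain ⟨y, hy, rfl⟩ := hV
  have := hasX_add hy (show (0 : ℚ) ^ 2 = 0 ^ 3 - 2 * 0 by norm_num) hx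
  have e : ((y - 0) / (x - 0)) ^ 2 - x - 0 = -2 / x := by
    rw [sub_zero, sub_zero, sub_zero, div_pow, hy]
    field_simp
    ring
  rw [← e]; exact this

theorem OddForm.coprime {m n : ℤ} {x y : ℚ} {c d c' d' : ℕ} (h : OddForm m x c d)
    (h' : OddForm n y c' d') : Nat.Coprime c d' := by
  refine Nat.coprime_of_dvd fun p hp hpc hpd => ?_
  have := Fact.mk hp
  have hc0 : (c : ℚ) ≠ 0 := by exact_mod_cast h.c_pos.ne'
  have hd0 : (d : ℚ) ≠ 0 := by exact_mod_cast h.d_pos.ne'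
  have hc0' : (c' : ℚ) ≠ 0 := by exact_mod_cast h'.c_pos.ne'
  have hd0' : (d' : ℚ) ≠ 0 := by exact_mod_cast h'.d_pos.ne'
  have hp2 : p ≠ 2 := by
    rintro rfl
    have := h.c_odd
    omega
  have hpd1 : ¬ p ∣ d := fun h1 => by
    have h2 : p ∣ Nat.gcd c d := Nat.dvd_gcd hpc h1
    rw [h.cop] at h2
    exact hp.one_lt.ne' (Nat.dvd_one.1 h2)
  have hpc1 : ¬ p ∣ c' := fun h1 => by
    have h2 : p ∣ Nat.gcd c' d' := Nat.dvd_gcd h1 hpd
    rw [h'.cop] at h2
    exact hp.one_lt.ne' (Nat.dvd_one.1 h2)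
  have n2 : padicNorm p 2 = 1 := by
    have : ¬ p ∣ 2 := fun h1 => hp2 ((Nat.prime_dvd_prime_iff_eq hp Nat.prime_two).1 h1)
    exact_mod_cast (padicNorm.nat_eq_one_iff 2).2 this
  have nd : padicNorm p (d : ℚ) = 1 := (padicNorm.nat_eq_one_iff d).2 hpd1
  have nc' : padicNorm p (c' : ℚ) = 1 := (padicNorm.nat_eq_one_iff c').2 hpc1
  have nc : padicNorm p (c : ℚ) < 1 := (padicNorm.nat_lt_one_iff c).2 hpc
  have nd' : padicNorm p (d' : ℚ) < 1 := (padicNorm.nat_lt_one_iff d').2 hpd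
  have nc0 : 0 < padicNorm p (c : ℚ) :=
    lt_of_le_of_ne (padicNorm.nonneg _) (padicNorm.nonzero hc0).symm
  have nd0 : 0 < padicNorm p (d' : ℚ) :=
    lt_of_le_of_ne (padicNorm.nonneg _) (padicNorm.nonzero hd0').symm
  have hx0 : x ≠ 0 := by
    rw [h.eq]; simp [hc0, hd0]
  -- a common lower bound
  set B := min (1 / padicNorm p (c : ℚ)) (1 / padicNorm p (d' : ℚ)) with hB
  have hB1 : 1 < B := lt_min (by rw [lt_div_iff₀ nc0]; linarith only [nc]) (by rw [lt_div_iff₀ nd0]; linarith only [nd'])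
  have hV : HasX (m • P0 + TT) (-2 / x) := hasX_add_TT h.hasX hx0
  have hVG : m • P0 + TT ∈ GG p B hB1 := by
    rw [mem_GG_of_hasX p hB1 hV]
    have e : (-2 / x : ℚ) = 2 * (d : ℚ) ^ 2 / (c : ℚ) ^ 2 := by
      rw [h.eq]; field_simp
    rw [e, padicNorm.div, padicNorm.mul, pow_two, pow_two, padicNorm.mul, padicNorm.mul, nd, n2]
    refine (min_le_left _ _).trans ?_
    rw [div_le_div_iff₀ nc0 (by (clear * - nc0; positivity))]
    nlinarith only [nc, nc0]
  have hWG : n • P0 ∈ GG p B hB1 := by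
    rw [mem_GG_of_hasX p hB1 h'.hasX]
    rw [h'.eq, padicNorm.neg, padicNorm.div, pow_two, pow_two, padicNorm.mul, padicNorm.mul, nc']
    refine (min_le_right _ _).trans ?_
    rw [div_le_div_iff₀ nd0 (by (clear * - nd0; positivity))]
    nlinarith only [nd', nd0]
  have hT : TT = n • (m • P0 + TT) - m • (n • P0) := by
    rw [zsmul_add, odd_zsmul_TT h'.odd, ← mul_zsmul, ← mul_zsmul, mul_comm]
    abel
  have hTG : TT ∈ GG p B hB1 := by
    rw [hT]
    exact AddSubgroup.sub_mem _ (AddSubgroup.zsmul_mem _ hVG _) (AddSubgroup.zsmul_mem _ hWG _)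
  have := hTG 0 ⟨0, by norm_num, rfl⟩
  rw [padicNorm.zero] at this
  linarith only [hB1, this]

lemma H_div {a b : ℕ} (hb : 0 < b) (h : Nat.Coprime a b) : H ((a : ℚ) / b) = max a b := by
  unfold H
  have h1 : ((a : ℚ) / b).num = a := by
    have := Rat.num_div_eq_of_coprime (a := (a : ℤ)) (b := (b : ℤ)) (by omega)
      (by simpa using h)
    rwa [Int.cast_natCast, Int.cast_natCast] at this
  have h2 : (((a : ℚ) / b).den : ℤ) = b := by
    have := Rat.den_div_eq_of_coprime (a := (a : ℤ)) (b := (b : ℤ)) (by omega)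
      (by simpa using h)
    rwa [Int.cast_natCast, Int.cast_natCast] at this
  rw [h1]
  have h3 : ((a : ℚ) / b).den = b := by exact_mod_cast h2
  rw [h3]
  simp only [Int.natAbs_natCast]

lemma H_neg (x : ℚ) : H (-x) = H x := by
  unfold H; simp only [Rat.neg_num, Int.natAbs_neg, Rat.neg_den]

theorem OddForm.height_mul {m n : ℤ} {x y : ℚ} {c d c' d' : ℕ} (h : OddForm m x c d)
    (h' : OddForm n y c' d') {e : ℕ} (he : 1 ≤ e) : H (x * y / 2 ^ e) = 2 ^ e * (d * d') ^ 2 := by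
  have hd0 : (d : ℚ) ≠ 0 := by exact_mod_cast h.d_pos.ne'
  have hd0' : (d' : ℚ) ≠ 0 := by exact_mod_cast h'.d_pos.ne'
  have e1 : x * y / 2 ^ e = (((c * c') ^ 2 : ℕ) : ℚ) / ((2 ^ e * (d * d') ^ 2 : ℕ) : ℚ) := by
    rw [h.eq, h'.eq]; push_cast; (clear * - hd0' hd0; field_simp)
  have hpos : 0 < 2 ^ e * (d * d') ^ 2 := by
    have := h.d_pos; have := h'.d_pos; positivity
  have hcop : Nat.Coprime ((c * c') ^ 2) (2 ^ e * (d * d') ^ 2) := by
    apply Nat.Coprime.pow_left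
    apply Nat.Coprime.mul_right
    · apply Nat.Coprime.pow_right
      rw [Nat.coprime_comm, Nat.coprime_two_left, Nat.odd_iff, Nat.mul_mod, h.c_odd, h'.c_odd]
    · apply Nat.Coprime.pow_right
      exact Nat.Coprime.mul_left (Nat.Coprime.mul_right h.cop (h.coprime h'))
        (Nat.Coprime.mul_right (h'.coprime h) h'.cop)
  rw [e1, H_div hpos hcop]
  apply max_eq_right
  have h4 : ((c * c') ^ 2) ^ 2 ≤ (2 ^ e * (d * d') ^ 2) ^ 2 := by
    have h5 : 4 ≤ (2 ^ e) ^ 2 := by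
      have : 2 ^ 1 ≤ 2 ^ e := Nat.pow_le_pow_right (by norm_num) he
      nlinarith only [this]
    calc ((c * c') ^ 2) ^ 2 = c ^ 4 * c' ^ 4 := by ring
      _ ≤ (2 * d ^ 4) * (2 * d' ^ 4) := Nat.mul_le_mul h.le h'.le
      _ = 4 * ((d * d') ^ 2) ^ 2 := by ring
      _ ≤ (2 ^ e) ^ 2 * ((d * d') ^ 2) ^ 2 := Nat.mul_le_mul_right _ h5
      _ = _ := by ring
  exact (Nat.pow_le_pow_iff_left (by norm_num)).1 h4

lemma OddForm.height {n : ℤ} {x : ℚ} {c d : ℕ} (h : OddForm n x c d) :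
    d ^ 2 ≤ H x ∧ H x ≤ 2 * d ^ 2 := by
  have hd0 : (d : ℚ) ≠ 0 := by exact_mod_cast h.d_pos.ne'
  have e1 : H x = max (c ^ 2) (d ^ 2) := by
    rw [h.eq, H_neg]
    have := H_div (a := c ^ 2) (b := d ^ 2) (by have := h.d_pos; positivity)
      (Nat.Coprime.pow _ _ h.cop)
    push_cast at this
    exact this
  rw [e1]
  refine ⟨le_max_right _ _, max_le ?_ (by omega)⟩
  have h4 : (c ^ 2) ^ 2 ≤ (2 * d ^ 2) ^ 2 := by
    calc (c ^ 2) ^ 2 = c ^ 4 := by ring
      _ ≤ 2 * d ^ 4 := h.le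
      _ ≤ 4 * d ^ 4 := by omega
      _ = _ := by ring
  exact (Nat.pow_le_pow_iff_left (by norm_num)).1 h4

end Vale.Agent.P027.HT
end
end

section

section

/-! The odd multiples of `P0` are exactly the points with first coordinate `-s^2`, `s ≠ 0`. -/

namespace Vale.Agent.P027.HT

open Vale.Agent.P345

theorem odd_of_neg_sq {x y s : ℚ} (h : y ^ 2 = x ^ 3 - 2 * x) (hs : s ≠ 0) (hx : x = -s ^ 2) :
    ∃ n : ℤ, Odd n ∧ n • P0 = pt x y h := by
  by_cases hx1 : x = -1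
  · subst hx1
    have h1 : (1 : ℚ) ^ 2 = (-1) ^ 3 - 2 * (-1) := by norm_num
    rcases pt_eq_or h h1 with h2 | h2
    · exact ⟨1, odd_one, by rw [one_zsmul, h2]; rfl⟩
    · exact ⟨-1, by decide, by rw [neg_zsmul, one_zsmul, h2]; rfl⟩
  obtain ⟨Y, h', e⟩ := hasX_add_P0 h hx1
  obtain ⟨X, hX⟩ : ∃ X, X = ((y - 1) / (x + 1)) ^ 2 - x + 1 := ⟨_, rfl⟩
  rw [← hX] at h'
  replace e : pt _ _ h + P0 = pt X Y h' := e.trans (pt_congr hX.symm rfl)
  have hs1 : 1 - s ^ 2 ≠ 0 := by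
    intro h0
    apply hx1
    rw [hx]
    linarith only [h0]
  obtain ⟨t, ht⟩ : ∃ t, t = y / s := ⟨_, rfl⟩
  have hy : y = s * t := by rw [ht]; (clear * - hs; field_simp)
  have ht2 : t ^ 2 = 2 - s ^ 4 := by
    have h1 : s ^ 2 * t ^ 2 = s ^ 2 * (2 - s ^ 4) := by
      rw [hy, hx] at h
      linear_combination h
    exact mul_left_cancel₀ (pow_ne_zero 2 hs) h1
  have hXq : X = ((t - s) / (1 - s ^ 2)) ^ 2 := by
    have h3 : x + 1 = 1 - s ^ 2 := by rw [hx]; ring
    rw [hX, h3, hy, hx]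
    field_simp
    linear_combination (s ^ 2 - 1) * ht2
  have hq : (t - s) / (1 - s ^ 2) ≠ 0 := by
    intro h0
    rcases div_eq_zero_iff.1 h0 with h1 | h1
    · have h2 : t = s := by linarith only [h1]
      rw [h2] at ht2
      have h3 : (1 - s ^ 2) * (s ^ 2 + 2) = 0 := by linear_combination -ht2
      rcases mul_eq_zero.1 h3 with h4 | h4
      · exact hs1 h4
      · have : (0 : ℚ) < s ^ 2 + 2 := by (clear * - hs; positivity)
        exact this.ne' h4
    · exact hs1 h1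
  obtain ⟨q, hq'⟩ : ∃ q, q = (t - s) / (1 - s ^ 2) := ⟨_, rfl⟩
  rw [← hq'] at hXq hq
  have hr : 0 < q.num.natAbs := Int.natAbs_pos.2 (Rat.num_ne_zero.2 hq)
  have hw : 0 < q.den := q.den_pos
  have hX2 : X = (q.num.natAbs : ℚ) ^ 2 / (q.den : ℚ) ^ 2 := by
    rw [natAbs_sq_cast, hXq, ← div_pow, Rat.num_div_den]
  obtain ⟨s', hs'⟩ := sq_of_point hr hw h' hX2
  obtain ⟨k, hk⟩ := complete_aux _ _ _ q.reduced hw hs' _ _ h' hX2
  refine ⟨2 * k - 1, ⟨k - 1, by ring⟩, ?_⟩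
  rw [sub_zsmul, one_zsmul, ← hk, ← e]
  abel

/-- H4: the odd multiples are Diophantine -/
theorem odd_point_iff (x y : ℚ) :
    (∃ n : ℤ, Odd n ∧ ∃ h, n • P0 = pt x y h) ↔
      y ^ 2 = x ^ 3 - 2 * x ∧ ∃ s : ℚ, s ≠ 0 ∧ x = -s ^ 2 := by
  constructor
  · rintro ⟨n, hn, h, e⟩
    refine ⟨h, ?_⟩
    obtain ⟨c, d, hcd⟩ := oddForm_of_hasX hn ⟨y, h, e⟩
    have hc := hcd.c_pos
    have hd := hcd.d_pos
    refine ⟨(c : ℚ) / d, by positivity, ?_⟩
    rw [hcd.eq, div_pow]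
  · rintro ⟨h, s, hs, hx⟩
    obtain ⟨n, hn, e⟩ := odd_of_neg_sq h hs hx
    exact ⟨n, hn, h, e⟩

end Vale.Agent.P027.HT
end
end

section

section

/-! Multiplication of odd integers by comparison of heights. The growth of heights is an
hypothesis here; it is proved in the file `Growth`. -/

namespace Vale.Agent.P027.HT

open Vale.Agent.P345

lemma log_d {κ C : ℝ} (hC : ∀ (n : ℤ) (x : ℚ), Odd n → HasX (n • P0) x →
    |Real.log (H x) - κ * (n : ℝ) ^ 2| ≤ C) {n : ℤ} {x : ℚ} {c d : ℕ} (h : OddForm n x c d) :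
    |2 * Real.log d - κ * (n : ℝ) ^ 2| ≤ C + 1 := by
  have h1 := hC n x h.odd h.hasX
  obtain ⟨h2, h3⟩ := h.height
  have hd : (0 : ℝ) < d := by exact_mod_cast h.d_pos
  have hd2 : (0 : ℝ) < (d : ℝ) ^ 2 := by positivity
  have h2' : ((d : ℝ) ^ 2) ≤ (H x : ℝ) := by exact_mod_cast h2
  have h3' : (H x : ℝ) ≤ 2 * (d : ℝ) ^ 2 := by exact_mod_cast h3
  have k1 := Real.log_le_log hd2 h2'
  have k2 := Real.log_le_log (by linarith only [hd2, h2']) h3'
  rw [Real.log_pow] at k1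
  rw [Real.log_mul (by norm_num) hd2.ne', Real.log_pow] at k2
  have k3 : Real.log 2 ≤ 1 := by
    have := Real.log_two_lt_d9; linarith only [this]
  push_cast at k1 k2
  rw [abs_le] at h1 ⊢
  constructor <;> linarith only [h1, k1, k2, k3]

lemma log_height {m n : ℤ} {x y : ℚ} {c d c' d' : ℕ} (h : OddForm m x c d)
    (h' : OddForm n y c' d') {e : ℕ} (he : 1 ≤ e) : Real.log (H (x * y / 2 ^ e)) =
      e * Real.log 2 + 2 * Real.log d + 2 * Real.log d' := by
  have hd : (0 : ℝ) < d := by exact_mod_cast h.d_pos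
  have hd' : (0 : ℝ) < d' := by exact_mod_cast h'.d_pos
  rw [h.height_mul h' he]
  push_cast
  rw [Real.log_mul (by positivity) (by (clear * - hd hd'; positivity)), Real.log_pow, Real.log_pow,
    Real.log_mul hd.ne' hd'.ne']
  push_cast
  ring

lemma aux_fwd {l₁ l₂ l₃ l₄ q₁ q₂ q₃ q₄ D L E : ℝ} (h : q₁ + q₂ - q₃ - q₄ = 0)
    (a1 : l₁ - q₁ ≤ D) (a2 : l₂ - q₂ ≤ D) (a3 : -D ≤ l₃ - q₃) (a4 : -D ≤ l₄ - q₄)
    (hE : 4 * D ≤ E - L) : L + l₁ + l₂ ≤ E + l₃ + l₄ := by
  linarith only [h, a1, a2, a3, a4, hE]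

lemma aux_bwd {l₁ l₂ l₃ l₄ q₁ q₂ q₃ q₄ D L E lk N z : ℝ} (h : q₁ + q₂ - q₃ - q₄ = 8 * N * z)
    (hN : 0 < N) (a1 : -D ≤ l₁ - q₁) (a2 : -D ≤ l₂ - q₂) (a3 : l₃ - q₃ ≤ D) (a4 : l₄ - q₄ ≤ D)
    (hk : lk + (E - L) + 4 * D < N) (t : L + l₁ + l₂ ≤ lk + (E + l₃ + l₄)) : z < 1 := by
  have h1 : 8 * N * z < N := by linarith only [h, a1, a2, a3, a4, hk, t]
  by_contra hz
  push Not at hz
  have : N * 1 ≤ N * z := mul_le_mul_of_nonneg_left hz hN.le
  linarith

theorem mul_iff_of_growth (hgr : ∃ κ C : ℝ, 0 < κ ∧ ∀ (n : ℤ) (x : ℚ), Odd n → HasX (n • P0) x →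
    |Real.log (H x) - κ * (n : ℝ) ^ 2| ≤ C) (K : ℕ) (hK : 1 ≤ K) :
    ∃ M e : ℕ, Even M ∧ 0 < M ∧ ∀ R, Coarse K R →
    ∀ (k m n : ℤ) (x₁ x₂ x₃ x₄ : ℚ), Odd k → Odd m → Odd n →
      HasX ((k + M) • P0) x₁ → HasX ((m - M * n) • P0) x₂ →
      HasX ((k - M) • P0) x₃ → HasX ((m + M * n) • P0) x₄ →
      (k = m * n ↔ R (x₁ * x₂ / 2) (x₃ * x₄ / 2 ^ e) ∧ R (x₃ * x₄ / 2) (x₁ * x₂ / 2 ^ e)) := by
  obtain ⟨κ, C, hκ, hC⟩ := hgr
  have hl2 : 0 < Real.log 2 := Real.log_pos (by norm_num)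
  obtain ⟨e, he⟩ := exists_nat_gt (1 + 4 * (C + 1) / Real.log 2)
  have hC1 : 0 ≤ C + 1 := by
    obtain ⟨x, c, d, h⟩ := oddForm_exists (n := 1) odd_one
    have := hC 1 x h.odd h.hasX
    have := abs_nonneg (Real.log (H x) - κ * ((1 : ℤ) : ℝ) ^ 2)
    (clear K hK hκ hl2 e he; linarith)
  have he1 : 1 ≤ e := by
    have h1 : 0 ≤ 4 * (C + 1) / Real.log 2 := by (clear * - hC1; positivity)
    have h2 : (1 : ℝ) < e := by linarith only [he, h1]
    have h3 : 1 < e := by exact_mod_cast h2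
    omega
  have he2 : 4 * (C + 1) ≤ (e - 1) * Real.log 2 := by
    have h1 : 4 * (C + 1) / Real.log 2 < e - 1 := by linarith only [he]
    rw [div_lt_iff₀ hl2] at h1
    exact h1.le
  obtain ⟨M', hM'⟩ := exists_nat_gt ((Real.log K + (e - 1) * Real.log 2 + 4 * (C + 1) + 1) / κ)
  have hlK : 0 ≤ Real.log K := Real.log_nonneg (by exact_mod_cast hK)
  have hM0 : 0 < M' := by
    have h1 : 0 < (Real.log K + (e - 1) * Real.log 2 + 4 * (C + 1) + 1) / κ := by
      apply div_pos _ hκ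
      linarith only [hC1, he2, hlK]
    have h2 : (0 : ℝ) < M' := by linarith only [hM', h1]
    exact_mod_cast h2
  have hM1 : Real.log K + (e - 1) * Real.log 2 + 4 * (C + 1) < κ * M' := by
    rw [div_lt_iff₀ hκ] at hM'
    linarith only [hM']
  refine ⟨2 * M', e, ⟨M', by ring⟩, by omega, ?_⟩
  intro R hR k m n x₁ x₂ x₃ x₄ hk hm hn hx₁ hx₂ hx₃ hx₄
  have ev : Even ((2 * M' : ℕ) : ℤ) := ⟨M', by push_cast; ring⟩
  have o1 : Odd (k + ((2 * M' : ℕ) : ℤ)) := hk.add_even ev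
  have o2 : Odd (m - ((2 * M' : ℕ) : ℤ) * n) := hm.sub_even (ev.mul_right n)
  have o3 : Odd (k - ((2 * M' : ℕ) : ℤ)) := hk.sub_even ev
  have o4 : Odd (m + ((2 * M' : ℕ) : ℤ) * n) := hm.add_even (ev.mul_right n)
  obtain ⟨c₁, d₁, f₁⟩ := oddForm_of_hasX o1 hx₁
  obtain ⟨c₂, d₂, f₂⟩ := oddForm_of_hasX o2 hx₂
  obtain ⟨c₃, d₃, f₃⟩ := oddForm_of_hasX o3 hx₃
  obtain ⟨c₄, d₄, f₄⟩ := oddForm_of_hasX o4 hx₄
  have l1 := log_d hC f₁
  have l2 := log_d hC f₂
  have l3 := log_d hC f₃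
  have l4 := log_d hC f₄
  have g1 := log_height f₁ f₂ le_rfl
  have g2 := log_height f₃ f₄ he1
  have g3 := log_height f₃ f₄ le_rfl
  have g4 := log_height f₁ f₂ he1
  rw [pow_one, Nat.cast_one, one_mul] at g1 g3
  have p12 : (0 : ℝ) < H (x₁ * x₂ / 2) := by
    have := f₁.height_mul f₂ le_rfl
    rw [pow_one] at this
    rw [this]
    have := f₁.d_pos; have := f₂.d_pos
    (clear K hK κ C hκ hC hl2 e he hC1 he1 he2 hM' hlK hM0 hM1 R hR x₃ x₄ hk hm hn hx₁ hx₂ hx₃ hx₄ ev o1 o2 o3 o4 c₃ d₃ f₃ c₄ d₄ f₄ l1 l2 l3 l4 g1 g2 g3 g4; positivity)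
  have p34 : (0 : ℝ) < H (x₃ * x₄ / 2) := by
    have := f₃.height_mul f₄ le_rfl
    rw [pow_one] at this
    rw [this]
    have := f₃.d_pos; have := f₄.d_pos
    (clear K hK κ C hκ hC hl2 e he hC1 he1 he2 hM' hlK hM0 hM1 R hR x₁ x₂ hk hm hn hx₁ hx₂ hx₃ hx₄ ev o1 o2 o3 o4 c₁ d₁ f₁ c₂ d₂ f₂ l1 l2 l3 l4 g1 g2 g3 g4 p12; positivity)
  have q34 : (0 : ℝ) < H (x₃ * x₄ / 2 ^ e) := by
    rw [f₃.height_mul f₄ he1]
    have := f₃.d_pos; have := f₄.d_pos
    (clear K hK κ C hκ hC hl2 he hC1 he1 he2 hM' hlK hM0 hM1 R hR x₁ x₂ hk hm hn hx₁ hx₂ hx₃ hx₄ ev o1 o2 o3 o4 c₁ d₁ f₁ c₂ d₂ f₂ l1 l2 l3 l4 g1 g2 g3 g4 p12 p34; positivity)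
  have q12 : (0 : ℝ) < H (x₁ * x₂ / 2 ^ e) := by
    rw [f₁.height_mul f₂ he1]
    have := f₁.d_pos; have := f₂.d_pos
    (clear K hK κ C hκ hC hl2 he hC1 he1 he2 hM' hlK hM0 hM1 R hR x₃ x₄ hk hm hn hx₁ hx₂ hx₃ hx₄ ev o1 o2 o3 o4 c₃ d₃ f₃ c₄ d₄ f₄ l1 l2 l3 l4 g1 g2 g3 g4 p12 p34 q34; positivity)
  have key : κ * ((k + ((2 * M' : ℕ) : ℤ) : ℤ) : ℝ) ^ 2 + κ * ((m - ((2 * M' : ℕ) : ℤ) * n : ℤ) : ℝ) ^ 2
      - κ * ((k - ((2 * M' : ℕ) : ℤ) : ℤ) : ℝ) ^ 2 - κ * ((m + ((2 * M' : ℕ) : ℤ) * n : ℤ) : ℝ) ^ 2 =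
      8 * (κ * M') * ((k : ℝ) - m * n) := by
    push_cast; ring
  rw [abs_le] at l1 l2 l3 l4
  obtain ⟨l1a, l1b⟩ := l1
  obtain ⟨l2a, l2b⟩ := l2
  obtain ⟨l3a, l3b⟩ := l3
  obtain ⟨l4a, l4b⟩ := l4
  have hκM : 0 < κ * M' := by
    have : (0 : ℝ) < M' := by exact_mod_cast hM0
    exact mul_pos hκ this
  have hE : 4 * (C + 1) ≤ e * Real.log 2 - Real.log 2 := by linarith only [he2]
  have hN : Real.log K + (e * Real.log 2 - Real.log 2) + 4 * (C + 1) < κ * M' := by linarith only [hM1]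
  clear hM' hM1 he he2 hC
  constructor
  · intro hkmn
    have h0 : (k : ℝ) - m * n = 0 := by rw [hkmn]; push_cast; ring
    rw [h0, mul_zero] at key
    have key' : κ * ((k - ((2 * M' : ℕ) : ℤ) : ℤ) : ℝ) ^ 2 + κ * ((m + ((2 * M' : ℕ) : ℤ) * n : ℤ) : ℝ) ^ 2
      - κ * ((k + ((2 * M' : ℕ) : ℤ) : ℤ) : ℝ) ^ 2 - κ * ((m - ((2 * M' : ℕ) : ℤ) * n : ℤ) : ℝ) ^ 2 = 0 := by
      linarith only [key]
    constructor
    · apply (hR _ _).1
      have := aux_fwd key l1b l2b l3a l4a hE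
      rw [← g1, ← g2] at this
      have := (Real.log_le_log_iff p12 q34).1 this
      exact_mod_cast this
    · apply (hR _ _).1
      have := aux_fwd key' l3b l4b l1a l2a hE
      rw [← g3, ← g4] at this
      have := (Real.log_le_log_iff p34 q12).1 this
      exact_mod_cast this
  · rintro ⟨r1, r2⟩
    have hK0 : (0 : ℝ) < K := by exact_mod_cast hK
    have s1 : (H (x₁ * x₂ / 2) : ℝ) ≤ K * H (x₃ * x₄ / 2 ^ e) := by exact_mod_cast (hR _ _).2 r1
    have s2 : (H (x₃ * x₄ / 2) : ℝ) ≤ K * H (x₁ * x₂ / 2 ^ e) := by exact_mod_cast (hR _ _).2 r2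
    have t1 := Real.log_le_log p12 s1
    have t2 := Real.log_le_log p34 s2
    rw [Real.log_mul hK0.ne' q34.ne', g1, g2] at t1
    rw [Real.log_mul hK0.ne' q12.ne', g3, g4] at t2
    have key' : κ * ((k - ((2 * M' : ℕ) : ℤ) : ℤ) : ℝ) ^ 2 + κ * ((m + ((2 * M' : ℕ) : ℤ) * n : ℤ) : ℝ) ^ 2
      - κ * ((k + ((2 * M' : ℕ) : ℤ) : ℤ) : ℝ) ^ 2 - κ * ((m - ((2 * M' : ℕ) : ℤ) * n : ℤ) : ℝ) ^ 2 =
        8 * (κ * M') * (m * n - k) := by
      linarith only [key]
    have v1 := aux_bwd key hκM l1a l2a l3b l4b hN t1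
    have v2 := aux_bwd key' hκM l3a l4a l1b l2b hN t2
    have w1 : k - m * n < 1 := by exact_mod_cast v1
    have w2 : m * n - k < 1 := by exact_mod_cast v2
    omega

end Vale.Agent.P027.HT
end
end

section

section

/-! Quadratic growth of heights on the multiples of `P0` (approximate parallelogram law). -/

namespace Vale.Agent.P027.HT

open Vale.Agent.P345 Height MvPolynomial

instance ec_elliptic : EC.IsElliptic := by
  refine ⟨?_⟩
  have h : EC.Δ = 512 := by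
    simp [WeierstrassCurve.Δ, WeierstrassCurve.b₂, WeierstrassCurve.b₄, WeierstrassCurve.b₆,
      WeierstrassCurve.b₈, EC]
    norm_num
  rw [h]
  exact isUnit_iff_ne_zero.2 (by norm_num)

/-- coordinates of the unordered pair of first coordinates -/
noncomputable def sym (V W : EC.Point) : Fin 3 → ℚ :=
  ![V.xRep 0 * W.xRep 0, V.xRep 0 * W.xRep 1 + V.xRep 1 * W.xRep 0, V.xRep 1 * W.xRep 1]

/-- logarithmic height of a point -/
noncomputable def lh (V : EC.Point) : ℝ := logHeight V.xRep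

theorem xRep_hasX {V : EC.Point} {x : ℚ} (h : HasX V x) : V.xRep = ![x, 1] := by
  obtain ⟨y, hy, rfl⟩ := h
  rfl

theorem xRep_zero' : (0 : EC.Point).xRep = ![1, 0] := rfl

theorem eval_addSub (v : Fin 3 → ℚ) :
    (fun i => (WeierstrassCurve.addSubMap EC i).eval v) =
      ![v 0 ^ 2 + 4 * v 0 * v 2 + 4 * v 2 ^ 2, 2 * v 1 * v 0 - 4 * v 1 * v 2,
        v 1 ^ 2 - 4 * v 0 * v 2] := by
  funext i
  fin_cases i <;>
  simp [WeierstrassCurve.addSubMap, WeierstrassCurve.b₂, WeierstrassCurve.b₄,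
    WeierstrassCurve.b₆, WeierstrassCurve.b₈, EC] <;> ring

theorem point_cases (V : EC.Point) : V = 0 ∨ ∃ x, HasX V x := by
  rcases eq_or_ne V 0 with h | h
  · exact Or.inl h
  · obtain ⟨x, y, hxy, hV⟩ := exists_hasX h
    exact Or.inr ⟨x, y, hxy, hV⟩

theorem sym_map (V W : EC.Point) : ∃ c : ℚ, c ≠ 0 ∧
    (fun i => (WeierstrassCurve.addSubMap EC i).eval (sym V W)) = c • sym (V + W) (V - W) := by
  rw [eval_addSub]
  rcases point_cases V with rfl | ⟨a, ha⟩
  · refine ⟨1, one_ne_zero, ?_⟩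
    simp only [zero_add, zero_sub, one_smul, sym, WeierstrassCurve.Affine.Point.xRep_neg, xRep_zero']
    funext i
    fin_cases i <;> simp <;> ring
  rcases point_cases W with rfl | ⟨b, hb⟩
  · refine ⟨1, one_ne_zero, ?_⟩
    simp only [add_zero, sub_zero, one_smul, sym, xRep_zero']
    funext i
    fin_cases i <;> simp <;> ring
  by_cases hab : a = b
  · subst hab
    have hVW : V = W ∨ V = -W := ha.eq_or_neg hb
    have hrep : W.xRep = ![a, 1] := xRep_hasX hb
    have hrep' : V.xRep = ![a, 1] := xRep_hasX ha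
    by_cases ha0 : a = 0
    · subst ha0
      refine ⟨4, by norm_num, ?_⟩
      have h2 : W + W = 0 := by
        obtain ⟨y, hy, rfl⟩ := hb
        have hy0 : y = 0 := by
          have : y ^ 2 = 0 := by rw [hy]; ring
          exact pow_eq_zero_iff (n := 2) (by norm_num) |>.1 this
        have h3 : -pt 0 y hy = pt 0 y hy := by
          rw [neg_pt]
          exact pt_congr rfl (by rw [hy0]; simp)
        calc pt 0 y hy + pt 0 y hy = pt 0 y hy + -pt 0 y hy := by rw [h3]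
          _ = 0 := add_neg_cancel _
      have h1 : V + W = 0 ∧ V - W = 0 := by
        rcases hVW with h | h
        · rw [h]; exact ⟨h2, sub_self _⟩
        · rw [h]
          refine ⟨neg_add_cancel _, ?_⟩
          rw [← neg_add', h2, neg_zero]
      simp only [sym, h1.1, h1.2, hrep, hrep', xRep_zero']
      funext i
      fin_cases i <;> simp
    · have hd := x_sq_sub_ne ha0
      have hd' : 4 * (a ^ 3 - 2 * a) ≠ 0 := mul_ne_zero (by norm_num) hd
      refine ⟨4 * (a ^ 3 - 2 * a), hd', ?_⟩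
      have h2 : (W + W).xRep = ![(a ^ 2 + 2) ^ 2 / (4 * (a ^ 3 - 2 * a)), 1] :=
        xRep_hasX (hasX_two_smul hb ha0)
      have h1 : ((V + W).xRep = ![(a ^ 2 + 2) ^ 2 / (4 * (a ^ 3 - 2 * a)), 1] ∧
          (V - W).xRep = ![1, 0]) ∨ ((V - W).xRep = ![(a ^ 2 + 2) ^ 2 / (4 * (a ^ 3 - 2 * a)), 1] ∧
          (V + W).xRep = ![1, 0]) := by
        rcases hVW with h | h
        · left
          rw [h]
          exact ⟨h2, by rw [sub_self]; rfl⟩
        · right
          rw [h]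
          refine ⟨?_, by rw [neg_add_cancel]; rfl⟩
          rw [← neg_add', WeierstrassCurve.Affine.Point.xRep_neg, h2]
      rcases h1 with ⟨h1, h3⟩ | ⟨h1, h3⟩
      · simp only [sym, h1, h3, hrep, hrep']
        funext i
        fin_cases i
        · show (a * a) ^ 2 + 4 * (a * a) * (1 * 1) + 4 * (1 * 1) ^ 2 =
            4 * (a ^ 3 - 2 * a) * ((a ^ 2 + 2) ^ 2 / (4 * (a ^ 3 - 2 * a)) * 1)
          have e := mul_div_cancel₀ ((a ^ 2 + 2) ^ 2) hd'
          linear_combination -e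
        · simp only [Nat.succ_eq_add_one, Nat.reduceAdd, Fin.isValue, Matrix.cons_val_zero, Matrix.cons_val_one, Matrix.cons_val_fin_one, mul_one, one_mul, Matrix.cons_val, one_pow, Fin.mk_one, mul_zero, zero_add, Pi.smul_apply, smul_eq_mul]
          ring
        · simp
          ring
      · simp only [sym, h1, h3, hrep, hrep']
        funext i
        fin_cases i
        · show (a * a) ^ 2 + 4 * (a * a) * (1 * 1) + 4 * (1 * 1) ^ 2 =
            4 * (a ^ 3 - 2 * a) * (1 * ((a ^ 2 + 2) ^ 2 / (4 * (a ^ 3 - 2 * a))))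
          have e := mul_div_cancel₀ ((a ^ 2 + 2) ^ 2) hd'
          linear_combination -e
        · simp
          ring
        · simp only [Nat.succ_eq_add_one, Nat.reduceAdd, Fin.isValue, Matrix.cons_val_zero, Matrix.cons_val_one, Matrix.cons_val_fin_one, mul_one, one_mul, Matrix.cons_val, one_pow, Fin.reduceFinMk, zero_mul, add_zero, Pi.smul_apply, smul_eq_mul, mul_zero]
          ring
  · obtain ⟨s, d, hs, hd, h1, h2⟩ := hasX_add_sub ha hb hab
    refine ⟨(a - b) ^ 2, pow_ne_zero _ (sub_ne_zero.2 hab), ?_⟩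
    simp only [sym, xRep_hasX hs, xRep_hasX hd, xRep_hasX ha, xRep_hasX hb]
    funext i
    fin_cases i
    · simp only [Nat.succ_eq_add_one, Nat.reduceAdd, Fin.isValue, Matrix.cons_val_zero, Matrix.cons_val_one, Matrix.cons_val_fin_one, mul_one, one_mul, Matrix.cons_val, one_pow, Fin.zero_eta, Pi.smul_apply, smul_eq_mul]
      linear_combination -h2
    · simp
      linear_combination -h1
    · simp
      ring

/-- the approximate parallelogram law -/
theorem parallelogram : ∃ C : ℝ, ∀ V W : EC.Point,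
    |lh (V + W) + lh (V - W) - 2 * lh V - 2 * lh W| ≤ C := by
  obtain ⟨C₁, h₁⟩ := WeierstrassCurve.abs_logHeight_addSubMap_sub_two_mul_logHeight_le EC
  obtain ⟨C₂, h₂⟩ := Height.abs_logHeight_sym2_sub_le ℚ
  have hsym : ∀ V W : EC.Point, |logHeight (sym V W) - (lh V + lh W)| ≤ C₂ := by
    intro V W
    have hV := V.xRep_ne_zero
    have hW := W.xRep_ne_zero
    have eV : V.xRep = ![V.xRep 0, V.xRep 1] := by
      funext i; fin_cases i <;> rfl
    have eW : W.xRep = ![W.xRep 0, W.xRep 1] := by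
      funext i; fin_cases i <;> rfl
    have := h₂ (a := V.xRep 0) (b := V.xRep 1) (c := W.xRep 0) (d := W.xRep 1)
      (by rw [← eV]; exact hV) (by rw [← eW]; exact hW)
    rw [← eV, ← eW] at this
    exact this
  refine ⟨C₁ + 3 * C₂, fun V W => ?_⟩
  obtain ⟨c, hc, hmap⟩ := sym_map V W
  have h3 := h₁ (sym V W)
  rw [hmap, logHeight_smul_eq_logHeight _ hc] at h3
  have h4 := hsym V W
  have h5 := hsym (V + W) (V - W)
  rw [abs_le] at *
  constructor <;> linarith only [h3, h4, h5]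

/-- functions on the integers satisfying the approximate parallelogram law -/
theorem quadratic_of_parallelogram {g : ℤ → ℝ} {C : ℝ} (h0 : g 0 = 0)
    (h : ∀ m n, |g (m + n) + g (m - n) - 2 * g m - 2 * g n| ≤ C) :
    ∃ κ : ℝ, ∀ n : ℤ, |g n - κ * (n : ℝ) ^ 2| ≤ 2 * C := by
  have hC : 0 ≤ C := le_trans (abs_nonneg _) (h 0 0)
  have heven : ∀ n, |g (-n) - g n| ≤ C := by
    intro n
    have := h 0 n
    rw [zero_add, zero_sub, h0] at this
    rw [abs_le] at this ⊢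
    constructor <;> linarith [this.1, this.2]
  have key : ∀ (n : ℤ) (k : ℕ), |g (k * n) - (k : ℝ) ^ 2 * g n| ≤ C / 2 * (k : ℝ) * ((k : ℝ) - 1) ∧
      |g (((k : ℤ) + 1) * n) - ((k : ℝ) + 1) ^ 2 * g n - (g (k * n) - (k : ℝ) ^ 2 * g n)| ≤
        C * k := by
    intro n k
    induction k with
    | zero => simp [h0]
    | succ k ih =>
      obtain ⟨ih1, ih2⟩ := ih
      have h1 := h (((k : ℤ) + 1) * n) n
      have e1 : ((k : ℤ) + 1) * n + n = ((k : ℤ) + 1 + 1) * n := by ring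
      have e2 : ((k : ℤ) + 1) * n - n = (k : ℤ) * n := by ring
      rw [e1, e2] at h1
      push_cast
      rw [abs_le] at ih1 ih2 h1
      constructor
      · rw [abs_le]
        constructor <;> linarith only [ih1, ih2]
      · rw [abs_le]
        constructor <;> linarith only [ih2, h1]
  have key2 : ∀ (n : ℤ) (k : ℕ), |g (k * n) - (k : ℝ) ^ 2 * g n| ≤ C / 2 * (k : ℝ) ^ 2 := by
    intro n k
    refine (key n k).1.trans ?_
    have hk : (0 : ℝ) ≤ k := Nat.cast_nonneg k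
    nlinarith only [hC]
  have cmp : ∀ m n : ℕ, 1 ≤ m → 1 ≤ n →
      (g m - C / 2) / (m : ℝ) ^ 2 ≤ (g n + C / 2) / (n : ℝ) ^ 2 := by
    intro m n hm hn
    have hm' : (0 : ℝ) < (m : ℝ) ^ 2 := by positivity
    have hn' : (0 : ℝ) < (n : ℝ) ^ 2 := by positivity
    rw [div_le_div_iff₀ hm' hn']
    have h1 := key2 m n
    have h2 := key2 n m
    rw [mul_comm (m : ℤ) (n : ℤ)] at h2
    rw [abs_le] at h1 h2
    linarith only [h1, h2]
  let S : Set ℝ := {q | ∃ m : ℕ, 1 ≤ m ∧ q = (g m - C / 2) / (m : ℝ) ^ 2}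
  have hne : S.Nonempty := ⟨_, 1, le_rfl, rfl⟩
  have hbdd : BddAbove S := by
    refine ⟨(g (1 : ℕ) + C / 2) / ((1 : ℕ) : ℝ) ^ 2, ?_⟩
    rintro q ⟨m, hm, rfl⟩
    exact cmp m 1 hm le_rfl
  have hnat : ∀ n : ℕ, |g n - sSup S * (n : ℝ) ^ 2| ≤ C / 2 := by
    intro n
    rcases Nat.eq_zero_or_pos n with rfl | hn
    · simp only [Nat.cast_zero, h0]
      simp only [ne_eq, OfNat.ofNat_ne_zero, not_false_eq_true, zero_pow, mul_zero, sub_self, abs_zero]
      linarith only [hC]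
    have hn' : (0 : ℝ) < (n : ℝ) ^ 2 := by positivity
    have h1 : (g n - C / 2) / (n : ℝ) ^ 2 ≤ sSup S := le_csSup hbdd ⟨n, hn, rfl⟩
    have h2 : sSup S ≤ (g n + C / 2) / (n : ℝ) ^ 2 := by
      refine csSup_le hne ?_
      rintro q ⟨m, hm, rfl⟩
      exact cmp m n hm hn
    rw [div_le_iff₀ hn'] at h1
    rw [le_div_iff₀ hn'] at h2
    rw [abs_le]
    constructor <;> linarith only [h1, h2]
  refine ⟨sSup S, fun n => ?_⟩
  rcases le_total 0 n with hn | hn
  · obtain ⟨k, rfl⟩ := Int.eq_ofNat_of_zero_le hn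
    refine (hnat k).trans ?_
    linarith only [hC]
  · obtain ⟨k, hk⟩ : ∃ k : ℕ, n = -k := ⟨(-n).toNat, by omega⟩
    subst hk
    have h1 := hnat k
    have h2 := heven k
    rw [abs_le] at h1 h2 ⊢
    push_cast
    constructor <;> linarith only [h1, h2]

theorem lh_hasX {V : EC.Point} {x : ℚ} (h : HasX V x) : lh V = Real.log (H x) := by
  unfold lh H
  rw [xRep_hasX h, ← logHeight₁_eq_logHeight, Rat.logHeight₁_eq_log_max]

theorem odd_growth : ∃ κ C : ℝ, 0 < κ ∧ ∀ (n : ℤ) (x : ℚ), Odd n → HasX (n • P0) x →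
    |Real.log (H x) - κ * (n : ℝ) ^ 2| ≤ C := by
  obtain ⟨C, hC⟩ := parallelogram
  have h0 : lh (0 : EC.Point) = 0 := by
    unfold lh
    rw [xRep_zero', ← logHeight_swap, ← logHeight₁_eq_logHeight, logHeight₁_zero]
  obtain ⟨κ, hκ⟩ := quadratic_of_parallelogram (g := fun n : ℤ => lh (n • P0)) (C := C)
    (by simp only [zero_zsmul, h0]) (fun m n => by
      have h1 := hC (m • P0) (n • P0)
      have e : m • P0 - n • P0 = (m - n) • P0 := by rw [sub_zsmul, sub_eq_add_neg]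
      rw [← add_zsmul, e] at h1
      exact h1)
  refine ⟨κ, 2 * C, ?_, ?_⟩
  · by_contra hneg
    push Not at hneg
    -- all heights are bounded, contradiction with Northcott
    have hfin := NumberField.finite_setOfPred_logHeight₁_le (K := ℚ) (2 * C)
    have hx : ∀ n : ℕ, ∃ x, HasX (((n : ℤ) + 1) • P0) x := by
      intro n
      rcases point_cases (((n : ℤ) + 1) • P0) with h | h
      · exact absurd h (zsmul_P0_ne_zero (by omega))
      · exact h
    choose x hx using hx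
    have hinj : Function.Injective x := by
      intro m n hmn
      have h1 := hx m
      rw [hmn] at h1
      rcases h1.eq_or_neg (hx n) with h | h
      · have h2 : ((m : ℤ) - n) • P0 = 0 := by
          have e : ((m : ℤ) - n) = ((m : ℤ) + 1) - ((n : ℤ) + 1) := by ring
          rw [e, sub_zsmul, h, add_neg_cancel]
        by_contra hne
        exact zsmul_P0_ne_zero (by omega) h2
      · have h2 : ((m : ℤ) + n + 2) • P0 = 0 := by
          have e : ((m : ℤ) + n + 2) = ((m : ℤ) + 1) + ((n : ℤ) + 1) := by ring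
          rw [e, add_zsmul, h, neg_add_cancel]
        exact absurd h2 (zsmul_P0_ne_zero (by omega))
    refine Set.infinite_range_of_injective hinj (hfin.subset ?_)
    rintro _ ⟨n, rfl⟩
    have h1 := hκ ((n : ℤ) + 1)
    rw [lh_hasX (hx n)] at h1
    show logHeight₁ (x n) ≤ 2 * C
    rw [Rat.logHeight₁_eq_log_max]
    unfold H at h1
    have h2 : κ * (((n : ℤ) + 1 : ℤ) : ℝ) ^ 2 ≤ 0 :=
      mul_nonpos_of_nonpos_of_nonneg hneg (sq_nonneg _)
    rw [abs_le] at h1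
    linarith only [h1, h2]
  · intro n x _ hx
    have := hκ n
    rw [lh_hasX hx] at this
    exact this

end Vale.Agent.P027.HT
end
end

section

section

/-! Diophantine calculus for points of the curve `y^2 = x^3 - 2x`. -/

namespace Vale.Agent.P027.HT

open Vale.Agent.P345

/-- total decoding of pairs of rational numbers as points -/
noncomputable def dec (x y : ℚ) : EC.Point := by
  classical
  exact if h : y ^ 2 = x ^ 3 - 2 * x then pt x y h else 0

lemma dec_of {x y : ℚ} (h : y ^ 2 = x ^ 3 - 2 * x) : dec x y = pt x y h := by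
  unfold dec; rw [dif_pos h]

lemma dec_of_not {x y : ℚ} (h : ¬ y ^ 2 = x ^ 3 - 2 * x) : dec x y = 0 := by
  unfold dec; rw [dif_neg h]

lemma some_eq_dec {x y : ℚ} (h : EC.Nonsingular x y) :
    (WeierstrassCurve.Affine.Point.some x y h : EC.Point) = dec x y := by
  rw [dec_of ((ec_nonsingular_iff x y).1 h)]; rfl

lemma exists_dec (P : EC.Point) : ∃ x y, dec x y = P := by
  rcases P with _ | ⟨x, y, h⟩
  · exact ⟨0, 1, dec_of_not (by norm_num)⟩
  · exact ⟨x, y, (some_eq_dec h).symm⟩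

lemma dec_inj {x y x' y' : ℚ} (h : y ^ 2 = x ^ 3 - 2 * x) (e : dec x y = dec x' y') :
    x = x' ∧ y = y' := by
  rw [dec_of h] at e
  by_cases h' : y' ^ 2 = x' ^ 3 - 2 * x'
  · rw [dec_of h'] at e
    unfold pt at e
    rw [WeierstrassCurve.Affine.Point.some.injEq] at e
    exact e
  · rw [dec_of_not h'] at e
    exact absurd e (WeierstrassCurve.Affine.Point.some_ne_zero _)

lemma dec_eq_iff (x y x' y' : ℚ) : dec x y = dec x' y' ↔
    (y ^ 2 ≠ x ^ 3 - 2 * x ∧ y' ^ 2 ≠ x' ^ 3 - 2 * x') ∨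
      (y ^ 2 = x ^ 3 - 2 * x ∧ x = x' ∧ y = y') := by
  constructor
  · intro e
    by_cases h : y ^ 2 = x ^ 3 - 2 * x
    · exact Or.inr ⟨h, dec_inj h e⟩
    · by_cases h' : y' ^ 2 = x' ^ 3 - 2 * x'
      · exact absurd ((dec_inj h' e.symm).1 ▸ (dec_inj h' e.symm).2 ▸ h') h
      · exact Or.inl ⟨h, h'⟩
  · rintro (⟨h, h'⟩ | ⟨-, rfl, rfl⟩)
    · rw [dec_of_not h, dec_of_not h']
    · rfl

lemma add_eq_dec {x y x' y' : ℚ} (h : y ^ 2 = x ^ 3 - 2 * x) (h' : y' ^ 2 = x' ^ 3 - 2 * x')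
    (hxy : ¬ (x = x' ∧ y = -y')) {l : ℚ} (hl : EC.slope x x' y y' = l) :
    dec x y + dec x' y' = dec (l ^ 2 - x - x') (-(l * (l ^ 2 - x - x' - x) + y)) := by
  rw [dec_of h, dec_of h']
  have hxy' : ¬ (x = x' ∧ y = EC.negY x' y') := by rw [negY_ec]; exact hxy
  unfold pt
  rw [WeierstrassCurve.Affine.Point.add_some hxy', some_eq_dec]
  have hX : EC.addX x x' (EC.slope x x' y y') = l ^ 2 - x - x' := by
    rw [hl]
    simp only [WeierstrassCurve.Affine.addX, EC]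
    ring
  have hY : EC.addY x x' y (EC.slope x x' y y') = -(l * (l ^ 2 - x - x' - x) + y) := by
    rw [WeierstrassCurve.Affine.addY, negY_ec, WeierstrassCurve.Affine.negAddY, hX, hl]
  rw [hX, hY]

lemma add_ne {x y x' y' : ℚ} (h : y ^ 2 = x ^ 3 - 2 * x) (h' : y' ^ 2 = x' ^ 3 - 2 * x')
    (hxy : x ≠ x') : dec x y + dec x' y' =
      dec (((y - y') / (x - x')) ^ 2 - x - x')
        (-((y - y') / (x - x') * (((y - y') / (x - x')) ^ 2 - x - x' - x) + y)) :=
  add_eq_dec h h' (fun h => hxy h.1) (WeierstrassCurve.Affine.slope_of_X_ne hxy)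

lemma add_self_ne {x y : ℚ} (h : y ^ 2 = x ^ 3 - 2 * x) (hy : y ≠ 0) : dec x y + dec x y =
      dec (((3 * x ^ 2 - 2) / (2 * y)) ^ 2 - x - x)
        (-((3 * x ^ 2 - 2) / (2 * y) * (((3 * x ^ 2 - 2) / (2 * y)) ^ 2 - x - x - x) + y)) := by
  refine add_eq_dec h h (fun h => hy ?_) ?_
  · have := h.2; linarith only [h]
  · have hne : y ≠ EC.negY x y := by
      rw [negY_ec]; intro h1; apply hy; linarith
    rw [WeierstrassCurve.Affine.slope_of_Y_ne rfl hne, negY_ec]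
    simp only [EC]
    congr 1 <;> ring

lemma neg_dec (x y : ℚ) : -dec x y = dec x (-y) := by
  by_cases h : y ^ 2 = x ^ 3 - 2 * x
  · rw [dec_of h, dec_of (by rw [neg_sq]; exact h), neg_pt]
  · rw [dec_of_not h, dec_of_not (by rw [neg_sq]; exact h), neg_zero]

/-- the graph of addition -/
lemma add_iff (x y x' y' u v : ℚ) : dec x y + dec x' y' = dec u v ↔
    (y ^ 2 ≠ x ^ 3 - 2 * x ∧ dec x' y' = dec u v) ∨
    (y' ^ 2 ≠ x' ^ 3 - 2 * x' ∧ dec x y = dec u v) ∨
    (y ^ 2 = x ^ 3 - 2 * x ∧ y' ^ 2 = x' ^ 3 - 2 * x' ∧ x ≠ x' ∧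
      dec (((y - y') / (x - x')) ^ 2 - x - x')
        (-((y - y') / (x - x') * (((y - y') / (x - x')) ^ 2 - x - x' - x) + y)) = dec u v) ∨
    (y ^ 2 = x ^ 3 - 2 * x ∧ y' ^ 2 = x' ^ 3 - 2 * x' ∧ x = x' ∧ y = -y' ∧ v ^ 2 ≠ u ^ 3 - 2 * u) ∨
    (y ^ 2 = x ^ 3 - 2 * x ∧ x = x' ∧ y = y' ∧ y ≠ 0 ∧
      dec (((3 * x ^ 2 - 2) / (2 * y)) ^ 2 - x - x)
        (-((3 * x ^ 2 - 2) / (2 * y) * (((3 * x ^ 2 - 2) / (2 * y)) ^ 2 - x - x - x) + y)) =
        dec u v) := by
  have hz : ∀ a b : ℚ, dec a b = 0 → b ^ 2 ≠ a ^ 3 - 2 * a := by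
    intro a b h1 h2
    rw [dec_of h2] at h1
    exact absurd h1 (WeierstrassCurve.Affine.Point.some_ne_zero _)
  by_cases h : y ^ 2 = x ^ 3 - 2 * x
  swap
  · constructor
    · intro e
      rw [dec_of_not h, zero_add] at e
      exact Or.inl ⟨h, e⟩
    · rintro (⟨-, e⟩ | ⟨h', e⟩ | ⟨h1, -⟩ | ⟨h1, -⟩ | ⟨h1, -⟩)
      · rw [dec_of_not h, zero_add, e]
      · rw [dec_of_not h', add_zero, e]
      · exact absurd h1 h
      · exact absurd h1 h
      · exact absurd h1 h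
  by_cases h' : y' ^ 2 = x' ^ 3 - 2 * x'
  swap
  · constructor
    · intro e
      rw [dec_of_not h', add_zero] at e
      exact Or.inr (Or.inl ⟨h', e⟩)
    · rintro (⟨h1, e⟩ | ⟨-, e⟩ | ⟨-, h1, -⟩ | ⟨-, h1, -⟩ | ⟨-, rfl, rfl, -⟩)
      · exact absurd h h1
      · rw [dec_of_not h', add_zero, e]
      · exact absurd h1 h'
      · exact absurd h1 h'
      · exact absurd h h'
  by_cases hx : x = x'
  · subst hx
    have hyy : y = y' ∨ y = -y' := sq_eq_sq_iff_eq_or_eq_neg.1 (by rw [h, h'])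
    by_cases hy : y = -y'
    · have e0 : dec x y + dec x y' = 0 := by
        rw [hy, ← neg_dec, neg_add_cancel]
      rw [e0]
      constructor
      · intro e
        exact Or.inr (Or.inr (Or.inr (Or.inl ⟨h, h', rfl, hy, hz _ _ e.symm⟩)))
      · rintro (⟨h1, -⟩ | ⟨h1, -⟩ | ⟨-, -, h1, -⟩ | ⟨-, -, -, -, h1⟩ | ⟨-, -, h1, h2, -⟩)
        · exact absurd h h1
        · exact absurd h' h1
        · exact absurd rfl h1
        · rw [dec_of_not h1]
        · exact absurd (by linarith only [hy, h1]) h2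
    · have hy' : y = y' := hyy.resolve_right hy
      subst hy'
      have hy0 : y ≠ 0 := by
        rintro rfl
        exact hy (by norm_num)
      rw [add_self_ne h hy0]
      constructor
      · intro e
        exact Or.inr (Or.inr (Or.inr (Or.inr ⟨h, rfl, rfl, hy0, e⟩)))
      · rintro (⟨h1, -⟩ | ⟨h1, -⟩ | ⟨-, -, h1, -⟩ | ⟨-, -, -, h1, -⟩ | ⟨-, -, -, -, e⟩)
        · exact absurd h h1
        · exact absurd h h1
        · exact absurd rfl h1
        · exact absurd h1 hy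
        · exact e
  · rw [add_ne h h' hx]
    constructor
    · intro e
      exact Or.inr (Or.inr (Or.inl ⟨h, h', hx, e⟩))
    · rintro (⟨h1, -⟩ | ⟨h1, -⟩ | ⟨-, -, -, e⟩ | ⟨-, -, h1, -⟩ | ⟨-, h1, -⟩)
      · exact absurd h h1
      · exact absurd h' h1
      · exact e
      · exact absurd h1 hx
      · exact absurd h1 hx

section Dio

variable {f g f' g' a b : (ℕ → ℚ) → ℚ}

lemma dio_on (hf : DioFn f) (hg : DioFn g) :
    Dio (fun v => g v ^ 2 = f v ^ 3 - 2 * f v) :=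
  Dio.eq (hg.pow 2) ((hf.pow 3).sub ((lit_fn 2).mul hf))

lemma dio_not_on (hf : DioFn f) (hg : DioFn g) :
    Dio (fun v => g v ^ 2 ≠ f v ^ 3 - 2 * f v) :=
  Dio.ne (hg.pow 2) ((hf.pow 3).sub ((lit_fn 2).mul hf))

lemma dio_dec_eq (hf : DioFn f) (hg : DioFn g) (hf' : DioFn f') (hg' : DioFn g') :
    Dio (fun v => dec (f v) (g v) = dec (f' v) (g' v)) := by
  simp only [dec_eq_iff]
  exact ((dio_not_on hf hg).and (dio_not_on hf' hg')).or
    ((dio_on hf hg).and ((Dio.eq hf hf').and (Dio.eq hg hg')))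

lemma fn_neg (hf : DioFn f) : DioFn (fun v => -f v) := by
  simpa using zero_fn.sub hf

lemma dio_add (hf : DioFn f) (hg : DioFn g) (hf' : DioFn f') (hg' : DioFn g')
    (ha : DioFn a) (hb : DioFn b) :
    Dio (fun v => dec (f v) (g v) + dec (f' v) (g' v) = dec (a v) (b v)) := by
  simp only [add_iff]
  have hl : DioFn (fun v => (g v - g' v) / (f v - f' v)) := (hg.sub hg').div (hf.sub hf')
  have hm : DioFn (fun v => (3 * f v ^ 2 - 2) / (2 * g v)) :=
    (((lit_fn 3).mul (hf.pow 2)).sub (lit_fn 2)).div ((lit_fn 2).mul hg)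
  refine ((dio_not_on hf hg).and (dio_dec_eq hf' hg' ha hb)).or
    (((dio_not_on hf' hg').and (dio_dec_eq hf hg ha hb)).or
    (((dio_on hf hg).and ((dio_on hf' hg').and ((Dio.ne hf hf').and ?_))).or
    (((dio_on hf hg).and ((dio_on hf' hg').and ((Dio.eq hf hf').and
      ((Dio.eq hg (fn_neg hg')).and (dio_not_on ha hb))))).or
    ((dio_on hf hg).and ((Dio.eq hf hf').and ((Dio.eq hg hg').and
      ((Dio.ne hg zero_fn).and ?_)))))))
  · exact dio_dec_eq (((hl.pow 2).sub hf).sub hf')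
      (fn_neg ((hl.mul ((((hl.pow 2).sub hf).sub hf').sub hf)).add hg)) ha hb
  · exact dio_dec_eq (((hm.pow 2).sub hf).sub hf)
      (fn_neg ((hm.mul ((((hm.pow 2).sub hf).sub hf).sub hf)).add hg)) ha hb

end Dio

/-- Diophantine functions with values in the group of points -/
def DPt (F : (ℕ → ℚ) → EC.Point) : Prop := Dio (fun v => dec (v 0) (v 1) = F (tl (tl v)))

theorem DPt.dec {f g : (ℕ → ℚ) → ℚ} (hf : DioFn f) (hg : DioFn g) :
    DPt (fun v => dec (f v) (g v)) :=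
  dio_dec_eq (DioFn.var 0) (DioFn.var 1) hf.tl.tl hg.tl.tl

theorem DPt.const (P : EC.Point) : DPt (fun _ => P) := by
  obtain ⟨x, y, rfl⟩ := exists_dec P
  have hq : ∀ q : ℚ, DioFn (fun _ => q) := by
    intro q
    have := (DioFn.int q.num).div (DioFn.int q.den)
    refine Dio.congr this (fun v => ?_)
    push_cast
    rw [Rat.num_div_den]
  exact DPt.dec (hq x) (hq y)

/-- substitution of Diophantine points -/
theorem DPt.subst {F : (ℕ → ℚ) → EC.Point} (hF : DPt F) {S : EC.Point → (ℕ → ℚ) → Prop}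
    (hS : Dio (fun v => S (HT.dec (v 0) (v 1)) (tl (tl v)))) : Dio (fun v => S (F v) v) := by
  have h : Dio (fun v => ∃ y x, HT.dec x y = F v ∧ S (HT.dec x y) v) :=
    Dio.ex (S := fun y v => ∃ x, HT.dec x y = F v ∧ S (HT.dec x y) v)
      (Dio.ex (S := fun x v => HT.dec x (v 0) = F (tl v) ∧ S (HT.dec x (v 0)) (tl v))
        (Dio.and hF hS))
  refine h.congr (fun v => ⟨fun hv => ?_, ?_⟩)
  · obtain ⟨x, y, e⟩ := exists_dec (F v)
    exact ⟨y, x, e, by rw [e]; exact hv⟩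
  · rintro ⟨y, x, e, hv⟩
    rw [e] at hv
    exact hv

theorem DPt.tl {F : (ℕ → ℚ) → EC.Point} (hF : DPt F) : DPt (fun v => F (tl v)) := by
  have := Dio.ren hF (fun i => if i = 0 then 0 else if i = 1 then 1 else i + 1)
  exact this

theorem DPt.add {F G : (ℕ → ℚ) → EC.Point} (hF : DPt F) (hG : DPt G) :
    DPt (fun v => F v + G v) := by
  unfold DPt
  refine DPt.subst (S := fun P v => HT.dec (v 0) (v 1) = P + G (P027.tl (P027.tl v))) hF.tl.tl ?_
  refine DPt.subst (S := fun Q v => HT.dec (v 2) (v 3) = HT.dec (v 0) (v 1) + Q)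
    (F := fun v => G (P027.tl (P027.tl (P027.tl (P027.tl v))))) hG.tl.tl.tl.tl ?_
  have := dio_add (DioFn.var 2) (DioFn.var 3) (DioFn.var 0) (DioFn.var 1) (DioFn.var 4)
    (DioFn.var 5)
  exact this.congr (fun v => eq_comm)

theorem DPt.neg {F : (ℕ → ℚ) → EC.Point} (hF : DPt F) : DPt (fun v => -F v) := by
  unfold DPt
  refine DPt.subst (S := fun P v => HT.dec (v 0) (v 1) = -P) hF.tl.tl ?_
  simp only [neg_dec]
  exact dio_dec_eq (DioFn.var 2) (DioFn.var 3) (DioFn.var 0) (fn_neg (DioFn.var 1))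

theorem DPt.sub {F G : (ℕ → ℚ) → EC.Point} (hF : DPt F) (hG : DPt G) :
    DPt (fun v => F v - G v) := by
  simpa [sub_eq_add_neg] using hF.add hG.neg

theorem DPt.nsmul {F : (ℕ → ℚ) → EC.Point} (hF : DPt F) (n : ℕ) : DPt (fun v => n • F v) := by
  induction n with
  | zero => simpa using DPt.const 0
  | succ n ih => simpa only [succ_nsmul] using ih.add hF

theorem dio_pt_eq {F G : (ℕ → ℚ) → EC.Point} (hF : DPt F) (hG : DPt G) :
    Dio (fun v => F v = G v) := by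
  refine DPt.subst (S := fun P v => P = G v) hF ?_
  exact hG

/-- the first coordinate (zero for the point at infinity) -/
noncomputable def xc (P : EC.Point) : ℚ := P.xRep 0 / P.xRep 1

lemma xc_of_hasX {P : EC.Point} {x : ℚ} (h : HasX P x) : xc P = x := by
  unfold xc
  rw [xRep_hasX h]
  simp

lemma xc_dec {x y : ℚ} (h : y ^ 2 = x ^ 3 - 2 * x) : xc (dec x y) = x :=
  xc_of_hasX ⟨y, h, dec_of h⟩

lemma xc_dec_not {x y : ℚ} (h : ¬ y ^ 2 = x ^ 3 - 2 * x) : xc (dec x y) = 0 := by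
  rw [dec_of_not h]
  unfold xc
  rw [xRep_zero']
  simp

theorem DPt.xc {F : (ℕ → ℚ) → EC.Point} (hF : DPt F) : DioFn (fun v => xc (F v)) := by
  unfold DioFn
  refine DPt.subst (S := fun P v => v 0 = HT.xc P) hF.tl ?_
  have h1 : Dio (fun v => (v 1 ^ 2 = v 0 ^ 3 - 2 * v 0 ∧ v 2 = v 0) ∨
      (v 1 ^ 2 ≠ v 0 ^ 3 - 2 * v 0 ∧ v 2 = 0)) :=
    ((dio_on (DioFn.var 0) (DioFn.var 1)).and (Dio.eq (DioFn.var 2) (DioFn.var 0))).or
      ((dio_not_on (DioFn.var 0) (DioFn.var 1)).and (Dio.eq (DioFn.var 2) zero_fn))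
  refine h1.congr (fun v => ?_)
  change v 2 = HT.xc (HT.dec (v 0) (v 1)) ↔ _
  by_cases h : v 1 ^ 2 = v 0 ^ 3 - 2 * v 0
  · rw [xc_dec h]
    simp [h]
  · rw [xc_dec_not h]
    simp [h]

/-- odd multiples of the generator -/
def OddPt (P : EC.Point) : Prop := ∃ n : ℤ, Odd n ∧ P = n • P0

theorem dio_odd {F : (ℕ → ℚ) → EC.Point} (hF : DPt F) : Dio (fun v => OddPt (F v)) := by
  refine DPt.subst (S := fun P _ => OddPt P) hF ?_
  have h1 : Dio (fun v => v 1 ^ 2 = v 0 ^ 3 - 2 * v 0 ∧ ∃ s : ℚ, s ≠ 0 ∧ v 0 = -s ^ 2) :=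
    (dio_on (DioFn.var 0) (DioFn.var 1)).and (Dio.ex (S := fun s v => s ≠ 0 ∧ v 0 = -s ^ 2)
      ((Dio.ne (DioFn.var 0) zero_fn).and (Dio.eq (DioFn.var 1) (fn_neg ((DioFn.var 0).pow 2)))))
  refine h1.congr (fun v => ?_)
  rw [← odd_point_iff]
  constructor
  · rintro ⟨n, hn, e⟩
    refine ⟨n, hn, ?_⟩
    by_cases h : v 1 ^ 2 = v 0 ^ 3 - 2 * v 0
    · exact ⟨h, by rw [← e, dec_of h]⟩
    · rw [dec_of_not h] at e
      refine absurd e.symm (zsmul_P0_ne_zero ?_)
      rintro rfl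
      exact absurd hn (by decide)
  · rintro ⟨n, hn, h, e⟩
    exact ⟨n, hn, by rw [dec_of h, e]⟩

end Vale.Agent.P027.HT
end
end

section

section

/-! Positive existential definitions, with the relation `R`, on the indices of the points
`(2 j + 1) P0`. -/

namespace Vale.Agent.P027.HT

open Vale.Agent.P345

variable {K : ℕ}

/-- substitution of Diophantine points -/
theorem HD.subst {F : (ℕ → ℚ) → EC.Point} (hF : DPt F)
    {S : (ℚ → ℚ → Prop) → EC.Point → (ℕ → ℚ) → Prop}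
    (hS : HD K (fun R v => S R (dec (v 0) (v 1)) (tl (tl v)))) : HD K (fun R v => S R (F v) v) := by
  have h : HD K (fun R v => ∃ y x, dec x y = F v ∧ S R (dec x y) v) :=
    HD.ex (S := fun R y v => ∃ x, dec x y = F v ∧ S R (dec x y) v)
      (HD.ex (S := fun R x v => dec x (v 0) = F (tl v) ∧ S R (dec x (v 0)) (tl v))
        (HD.and (HD.of_dio hF) hS))
  refine h.congr (fun R _ v => ⟨fun hv => ?_, ?_⟩)
  · obtain ⟨x, y, e⟩ := exists_dec (F v)
    exact ⟨y, x, e, by rw [e]; exact hv⟩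
  · rintro ⟨y, x, e, hv⟩
    rw [e] at hv
    exact hv

/-- quantification over points -/
theorem HD.exP {S : (ℚ → ℚ → Prop) → EC.Point → (ℕ → ℚ) → Prop}
    (hS : HD K (fun R v => S R (dec (v 0) (v 1)) (tl (tl v)))) :
    HD K (fun R v => ∃ P, S R P v) := by
  have h : HD K (fun R v => ∃ y x, S R (dec x y) v) :=
    HD.ex (S := fun R y v => ∃ x, S R (dec x y) v)
      (HD.ex (S := fun R x v => S R (dec x (v 0)) (tl v)) hS)
  refine h.congr (fun R _ v => ⟨?_, ?_⟩)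
  · rintro ⟨P, hP⟩
    obtain ⟨x, y, e⟩ := exists_dec P
    exact ⟨y, x, by rw [e]; exact hP⟩
  · rintro ⟨y, x, h⟩
    exact ⟨_, h⟩

/-- point variables: the newest is number 0 -/
theorem DPt.var (i : ℕ) : DPt (fun v => HT.dec (v (2 * i)) (v (2 * i + 1))) :=
  DPt.dec (DioFn.var _) (DioFn.var _)

/-- multiplication of odd multiples -/
def MulRel (A B C : EC.Point) : Prop :=
  ∃ m n : ℤ, Odd m ∧ Odd n ∧ A = (m * n) • P0 ∧ B = m • P0 ∧ C = n • P0

lemma zsmul_inj {m n : ℤ} (h : m • P0 = n • P0) : m = n := by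
  by_contra hne
  have : (m - n) • P0 = 0 := by rw [sub_zsmul, h, add_neg_cancel]
  exact zsmul_P0_ne_zero (sub_ne_zero.2 hne) this

lemma hasX_xc {P : EC.Point} (h : P ≠ 0) : HasX P (xc P) := by
  obtain ⟨x, hx⟩ := exists_hasX h
  rw [xc_of_hasX hx]
  exact hx

lemma hasX_odd {n : ℤ} (h : Odd n) : HasX (n • P0) (xc (n • P0)) := by
  refine hasX_xc (zsmul_P0_ne_zero ?_)
  rintro rfl
  exact absurd h (by decide)

theorem hd_mulRel (hK : 1 ≤ K) {A B C : (ℕ → ℚ) → EC.Point} (hA : DPt A) (hB : DPt B)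
    (hC : DPt C) : HD K (fun _ v => MulRel (A v) (B v) (C v)) := by
  obtain ⟨M, e, hM, hM0, H⟩ := mul_iff_of_growth odd_growth K hK
  have hMZ : Even (M : ℤ) := by exact_mod_cast hM
  have f1 : DioFn (fun v => xc (A v + M • P0) * xc (B v - M • C v)) :=
    (hA.add (DPt.const _)).xc.mul (hB.sub (hC.nsmul M)).xc
  have f2 : DioFn (fun v => xc (A v - M • P0) * xc (B v + M • C v)) :=
    (hA.sub (DPt.const _)).xc.mul (hB.add (hC.nsmul M)).xc
  have h : HD K (fun R v => (OddPt (A v) ∧ OddPt (B v) ∧ OddPt (C v)) ∧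
      R (xc (A v + M • P0) * xc (B v - M • C v) / 2)
        (xc (A v - M • P0) * xc (B v + M • C v) / 2 ^ e) ∧
      R (xc (A v - M • P0) * xc (B v + M • C v) / 2)
        (xc (A v + M • P0) * xc (B v - M • C v) / 2 ^ e)) :=
    (HD.of_dio ((dio_odd hA).and ((dio_odd hB).and (dio_odd hC)))).and
      ((HD.rel (f1.div (lit_fn 2)) (f2.div ((lit_fn 2).pow e))).and
        (HD.rel (f2.div (lit_fn 2)) (f1.div ((lit_fn 2).pow e))))
  refine h.congr (fun R hR v => ?_)
  have key : ∀ k m n : ℤ, Odd k → Odd m → Odd n → A v = k • P0 → B v = m • P0 → C v = n • P0 →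
      (k = m * n ↔ R (xc (A v + M • P0) * xc (B v - M • C v) / 2)
        (xc (A v - M • P0) * xc (B v + M • C v) / 2 ^ e) ∧
      R (xc (A v - M • P0) * xc (B v + M • C v) / 2)
        (xc (A v + M • P0) * xc (B v - M • C v) / 2 ^ e)) := by
    intro k m n hk hm hn eA eB eC
    have e1 : A v + M • P0 = (k + M) • P0 := by rw [eA, add_zsmul, natCast_zsmul]
    have e2 : B v - M • C v = (m - M * n) • P0 := by
      rw [eB, eC, sub_zsmul, mul_zsmul, natCast_zsmul, sub_eq_add_neg]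
    have e3 : A v - M • P0 = (k - M) • P0 := by
      rw [eA, sub_zsmul, natCast_zsmul, sub_eq_add_neg]
    have e4 : B v + M • C v = (m + M * n) • P0 := by
      rw [eB, eC, add_zsmul, mul_zsmul, natCast_zsmul]
    have hMn : Even ((M : ℤ) * n) := hMZ.mul_right n
    rw [e1, e2, e3, e4]
    exact H R hR k m n _ _ _ _ hk hm hn (hasX_odd (hk.add_even hMZ)) (hasX_odd (hm.sub_even hMn))
      (hasX_odd (hk.sub_even hMZ)) (hasX_odd (hm.add_even hMn))
  constructor
  · rintro ⟨m, n, hm, hn, eA, eB, eC⟩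
    exact ⟨⟨⟨_, hm.mul hn, eA⟩, ⟨m, hm, eB⟩, ⟨n, hn, eC⟩⟩,
      (key _ m n (hm.mul hn) hm hn eA eB eC).1 rfl⟩
  · rintro ⟨⟨⟨k, hk, eA⟩, ⟨m, hm, eB⟩, ⟨n, hn, eC⟩⟩, h⟩
    have := (key k m n hk hm hn eA eB eC).2 h
    exact ⟨m, n, hm, hn, by rw [eA, this], eB, eC⟩

/-- the point of index `j` -/
noncomputable def ix (j : ℤ) : EC.Point := (2 * j + 1) • P0

lemma ix_inj {a b : ℤ} (h : ix a = ix b) : a = b := by
  have := zsmul_inj h
  omega

lemma oddPt_ix (j : ℤ) : OddPt (ix j) := ⟨2 * j + 1, ⟨j, rfl⟩, rfl⟩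

lemma OddPt.exists_ix {P : EC.Point} (h : OddPt P) : ∃ j, P = ix j := by
  obtain ⟨n, ⟨j, rfl⟩, rfl⟩ := h
  exact ⟨j, rfl⟩

/-- multiplication of indices -/
def MulI (A B C : EC.Point) : Prop := ∃ a b : ℤ, A = ix (a * b) ∧ B = ix a ∧ C = ix b

theorem hd_mulI (hK : 1 ≤ K) {A B C : (ℕ → ℚ) → EC.Point} (hA : DPt A) (hB : DPt B)
    (hC : DPt C) : HD K (fun _ v => MulI (A v) (B v) (C v)) := by
  have h : HD K (fun _ v => ∃ W, OddPt (A v) ∧ MulRel W (B v) (C v) ∧
      2 • A v + B v + C v = W + 3 • P0) := by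
    refine HD.exP (S := fun _ W v => OddPt (A v) ∧ MulRel W (B v) (C v) ∧
      2 • A v + B v + C v = W + 3 • P0) ?_
    refine (HD.of_dio (dio_odd hA.tl.tl)).and ((hd_mulRel hK (DPt.var 0) hB.tl.tl hC.tl.tl).and
      (HD.of_dio (dio_pt_eq (((hA.tl.tl.nsmul 2).add hB.tl.tl).add hC.tl.tl)
        ((DPt.var 0).add (DPt.const _)))))
  refine h.congr (fun R _ v => ?_)
  constructor
  · rintro ⟨a, b, eA, eB, eC⟩
    refine ⟨((2 * a + 1) * (2 * b + 1)) • P0, by rw [eA]; exact oddPt_ix _,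
      ⟨2 * a + 1, 2 * b + 1, ⟨a, rfl⟩, ⟨b, rfl⟩, rfl, eB, eC⟩, ?_⟩
    rw [eA, eB, eC]
    unfold ix
    rw [← natCast_zsmul, ← natCast_zsmul, ← mul_zsmul, ← add_zsmul, ← add_zsmul, ← add_zsmul]
    congr 1
    push_cast
    ring
  · rintro ⟨W, hA, ⟨m, n, ⟨a, rfl⟩, ⟨b, rfl⟩, eW, eB, eC⟩, h⟩
    obtain ⟨j, hj⟩ := hA.exists_ix
    refine ⟨a, b, ?_, eB, eC⟩
    rw [hj, eB, eC, eW] at h
    unfold ix at h
    rw [← natCast_zsmul, ← natCast_zsmul, ← mul_zsmul, ← add_zsmul, ← add_zsmul, ← add_zsmul] at h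
    have h1 := zsmul_inj h
    push_cast at h1
    rw [hj]
    congr 1
    linarith only [h1]

/-- natural indices -/
def NatIx (P : EC.Point) : Prop := ∃ n : ℕ, P = ix n

lemma ix_four (a b c d : ℤ) : ix (a + b + c + d) = ix a + ix b + ix c + ix d - 3 • P0 := by
  unfold ix
  rw [← natCast_zsmul, sub_eq_add_neg, ← neg_zsmul, ← add_zsmul, ← add_zsmul, ← add_zsmul,
    ← add_zsmul]
  congr 1
  push_cast
  ring

theorem hd_sqIx (hK : 1 ≤ K) {A : (ℕ → ℚ) → EC.Point} (hA : DPt A) :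
    HD K (fun _ v => ∃ a : ℤ, A v = ix (a * a)) := by
  have h : HD K (fun _ v => ∃ B, MulI (A v) B B) :=
    HD.exP (S := fun _ B v => MulI (A v) B B) (hd_mulI hK hA.tl.tl (DPt.var 0) (DPt.var 0))
  refine h.congr (fun R _ v => ?_)
  constructor
  · rintro ⟨a, ha⟩
    exact ⟨ix a, a, a, ha, rfl, rfl⟩
  · rintro ⟨B, a, b, h1, h2, h3⟩
    have : a = b := ix_inj (h2.symm.trans h3)
    subst this
    exact ⟨a, h1⟩

theorem hd_natIx (hK : 1 ≤ K) {A : (ℕ → ℚ) → EC.Point} (hA : DPt A) :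
    HD K (fun _ v => NatIx (A v)) := by
  have h : HD K (fun _ v => ∃ B C D E, ((∃ a : ℤ, B = ix (a * a)) ∧ (∃ a : ℤ, C = ix (a * a))) ∧
      ((∃ a : ℤ, D = ix (a * a)) ∧ (∃ a : ℤ, E = ix (a * a))) ∧
        A v = B + C + D + E - 3 • P0) := by
    refine HD.exP (S := fun _ B v => ∃ C D E, ((∃ a : ℤ, B = ix (a * a)) ∧
      (∃ a : ℤ, C = ix (a * a))) ∧ ((∃ a : ℤ, D = ix (a * a)) ∧ (∃ a : ℤ, E = ix (a * a))) ∧
        A v = B + C + D + E - 3 • P0) ?_
    refine HD.exP (S := fun _ C v => ∃ D E, ((∃ a : ℤ, dec (v 0) (v 1) = ix (a * a)) ∧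
      (∃ a : ℤ, C = ix (a * a))) ∧ ((∃ a : ℤ, D = ix (a * a)) ∧ (∃ a : ℤ, E = ix (a * a))) ∧
        A (tl (tl v)) = dec (v 0) (v 1) + C + D + E - 3 • P0) ?_
    refine HD.exP (S := fun _ D v => ∃ E, ((∃ a : ℤ, dec (v 2) (v 3) = ix (a * a)) ∧
      (∃ a : ℤ, dec (v 0) (v 1) = ix (a * a))) ∧ ((∃ a : ℤ, D = ix (a * a)) ∧
      (∃ a : ℤ, E = ix (a * a))) ∧
        A (tl (tl (tl (tl v)))) = dec (v 2) (v 3) + dec (v 0) (v 1) + D + E - 3 • P0) ?_
    refine HD.exP (S := fun _ E v => ((∃ a : ℤ, dec (v 4) (v 5) = ix (a * a)) ∧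
      (∃ a : ℤ, dec (v 2) (v 3) = ix (a * a))) ∧ ((∃ a : ℤ, dec (v 0) (v 1) = ix (a * a)) ∧
      (∃ a : ℤ, E = ix (a * a))) ∧
        A (tl (tl (tl (tl (tl (tl v)))))) = dec (v 4) (v 5) + dec (v 2) (v 3) +
          dec (v 0) (v 1) + E - 3 • P0) ?_
    refine ((hd_sqIx hK (DPt.var 3)).and (hd_sqIx hK (DPt.var 2))).and
      (((hd_sqIx hK (DPt.var 1)).and (hd_sqIx hK (DPt.var 0))).and (HD.of_dio ?_))
    exact dio_pt_eq hA.tl.tl.tl.tl.tl.tl.tl.tl
      (((((DPt.var 3).add (DPt.var 2)).add (DPt.var 1)).add (DPt.var 0)).sub (DPt.const _))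
  refine h.congr (fun R _ v => ?_)
  constructor
  · rintro ⟨n, hn⟩
    obtain ⟨a, b, c, d, h⟩ := Nat.sum_four_squares n
    refine ⟨ix (a * a), ix (b * b), ix (c * c), ix (d * d), ⟨⟨a, rfl⟩, ⟨b, rfl⟩⟩,
      ⟨⟨c, rfl⟩, ⟨d, rfl⟩⟩, ?_⟩
    rw [hn, ← ix_four, ← h]
    congr 1
    push_cast
    ring
  · rintro ⟨B, C, D, E, ⟨⟨a, rfl⟩, ⟨b, rfl⟩⟩, ⟨⟨c, rfl⟩, ⟨d, rfl⟩⟩, h⟩
    refine ⟨(a * a + b * b + c * c + d * d).toNat, ?_⟩
    rw [h, ← ix_four, Int.toNat_of_nonneg]
    linarith only [sq_nonneg a, sq_nonneg b, sq_nonneg c, sq_nonneg d]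

/-- replacing the first two members of the environment -/
def upd (x y : ℚ) (v : ℕ → ℚ) : ℕ → ℚ := fun i => if i = 0 then x else if i = 1 then y else v i

/-- polynomial functions of indices -/
theorem hd_poly (hK : 1 ≤ K) {α : Type} (e : α → ℕ) {f : (α → ℕ) → ℤ} (hf : IsPoly f) :
    ∃ S, HD K S ∧ ∀ R, Coarse K R → ∀ (v : ℕ → ℚ) (j : α → ℕ),
      (∀ i, dec (v (2 * e i + 2)) (v (2 * e i + 3)) = ix (j i)) →
        (S R v ↔ dec (v 0) (v 1) = ix (f j)) := by
  induction hf with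
  | proj i =>
    refine ⟨fun _ v => dec (v 0) (v 1) = dec (v (2 * e i + 2)) (v (2 * e i + 3)),
      HD.of_dio (dio_dec_eq (DioFn.var _) (DioFn.var _) (DioFn.var _) (DioFn.var _)),
      fun R _ v j h => ?_⟩
    show dec (v 0) (v 1) = dec (v (2 * e i + 2)) (v (2 * e i + 3)) ↔ dec (v 0) (v 1) = ix (j i)
    rw [h i]
  | const n =>
    refine ⟨fun _ v => dec (v 0) (v 1) = ix n,
      HD.of_dio (dio_pt_eq (DPt.var 0) (DPt.const _)), fun R _ v j h => Iff.rfl⟩
  | @sub f g _ _ ihf ihg =>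
    obtain ⟨S, hS, hS'⟩ := ihf
    obtain ⟨T, hT, hT'⟩ := ihg
    refine ⟨fun R v => ∃ y x y' x', (S R (upd x y v) ∧ T R (upd x' y' v)) ∧
      dec (v 0) (v 1) = dec x y - dec x' y' + P0, ?_, fun R hR v j h => ?_⟩
    · refine HD.ex (S := fun R y v => ∃ x y' x', (S R (upd x y v) ∧ T R (upd x' y' v)) ∧
        dec (v 0) (v 1) = dec x y - dec x' y' + P0) ?_
      refine HD.ex (S := fun R x w => ∃ y' x', (S R (upd x (w 0) (tl w)) ∧
        T R (upd x' y' (tl w))) ∧ dec (w 1) (w 2) = dec x (w 0) - dec x' y' + P0) ?_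
      refine HD.ex (S := fun R y' w => ∃ x', (S R (upd (w 0) (w 1) (tl (tl w))) ∧
        T R (upd x' y' (tl (tl w)))) ∧ dec (w 2) (w 3) = dec (w 0) (w 1) - dec x' y' + P0) ?_
      refine HD.ex (S := fun R x' w => (S R (upd (w 1) (w 2) (tl (tl (tl w)))) ∧
        T R (upd x' (w 0) (tl (tl (tl w))))) ∧
          dec (w 3) (w 4) = dec (w 1) (w 2) - dec x' (w 0) + P0) ?_
      refine HD.and (HD.and ?_ ?_) (HD.of_dio (dio_pt_eq (DPt.dec (DioFn.var 4) (DioFn.var 5)) ?_))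
      · have := hS.ren (fun i => if i = 0 then 2 else if i = 1 then 3 else i + 4)
        refine this.congr (fun R _ v => ?_)
        have e1 : (fun i => v (if i = 0 then 2 else if i = 1 then 3 else i + 4)) =
            upd (v 2) (v 3) (tl (tl (tl (tl v)))) := by
          funext i
          rcases i with _ | _ | i <;> rfl
        rw [e1]
        rfl
      · have := hT.ren (fun i => if i = 0 then 0 else if i = 1 then 1 else i + 4)
        refine this.congr (fun R _ v => ?_)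
        have e1 : (fun i => v (if i = 0 then 0 else if i = 1 then 1 else i + 4)) =
            upd (v 0) (v 1) (tl (tl (tl (tl v)))) := by
          funext i
          rcases i with _ | _ | i <;> rfl
        rw [e1]
        rfl
      · exact ((DPt.dec (DioFn.var 2) (DioFn.var 3)).sub (DPt.dec (DioFn.var 0) (DioFn.var 1))).add
          (DPt.const _)
    · have hu : ∀ x y, ∀ i, dec (upd x y v (2 * e i + 2)) (upd x y v (2 * e i + 3)) = ix (j i) :=
        fun x y i => h i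
      have e0 : ∀ a b : ℤ, ix a - ix b + P0 = ix (a - b) := by
        intro a b
        unfold ix
        nth_rw 3 [← one_zsmul P0]
        rw [sub_eq_add_neg, ← neg_zsmul, ← add_zsmul, ← add_zsmul]
        congr 1
        ring
      constructor
      · rintro ⟨y, x, y', x', ⟨h1, h2⟩, h3⟩
        have h4 : dec x y = ix (f j) := (hS' R hR (upd x y v) j (hu x y)).1 h1
        have h5 : dec x' y' = ix (g j) := (hT' R hR (upd x' y' v) j (hu x' y')).1 h2
        rw [h3, h4, h5, e0]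
      · intro h1
        obtain ⟨x, y, hxy⟩ := exists_dec (ix (f j))
        obtain ⟨x', y', hxy'⟩ := exists_dec (ix (g j))
        refine ⟨y, x, y', x', ⟨(hS' R hR (upd x y v) j (hu x y)).2 hxy,
          (hT' R hR (upd x' y' v) j (hu x' y')).2 hxy'⟩, ?_⟩
        rw [h1, hxy, hxy', e0]
  | @mul f g _ _ ihf ihg =>
    obtain ⟨S, hS, hS'⟩ := ihf
    obtain ⟨T, hT, hT'⟩ := ihg
    refine ⟨fun R v => ∃ y x y' x', (S R (upd x y v) ∧ T R (upd x' y' v)) ∧
      MulI (dec (v 0) (v 1)) (dec x y) (dec x' y'), ?_, fun R hR v j h => ?_⟩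
    · refine HD.ex (S := fun R y v => ∃ x y' x', (S R (upd x y v) ∧ T R (upd x' y' v)) ∧
        MulI (dec (v 0) (v 1)) (dec x y) (dec x' y')) ?_
      refine HD.ex (S := fun R x w => ∃ y' x', (S R (upd x (w 0) (tl w)) ∧
        T R (upd x' y' (tl w))) ∧ MulI (dec (w 1) (w 2)) (dec x (w 0)) (dec x' y')) ?_
      refine HD.ex (S := fun R y' w => ∃ x', (S R (upd (w 0) (w 1) (tl (tl w))) ∧
        T R (upd x' y' (tl (tl w)))) ∧ MulI (dec (w 2) (w 3)) (dec (w 0) (w 1)) (dec x' y')) ?_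
      refine HD.ex (S := fun R x' w => (S R (upd (w 1) (w 2) (tl (tl (tl w)))) ∧
        T R (upd x' (w 0) (tl (tl (tl w))))) ∧
          MulI (dec (w 3) (w 4)) (dec (w 1) (w 2)) (dec x' (w 0))) ?_
      refine HD.and (HD.and ?_ ?_) (hd_mulI hK (DPt.dec (DioFn.var 4) (DioFn.var 5))
        (DPt.dec (DioFn.var 2) (DioFn.var 3)) (DPt.dec (DioFn.var 0) (DioFn.var 1)))
      · have := hS.ren (fun i => if i = 0 then 2 else if i = 1 then 3 else i + 4)
        refine this.congr (fun R _ v => ?_)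
        have e1 : (fun i => v (if i = 0 then 2 else if i = 1 then 3 else i + 4)) =
            upd (v 2) (v 3) (tl (tl (tl (tl v)))) := by
          funext i
          rcases i with _ | _ | i <;> rfl
        rw [e1]
        rfl
      · have := hT.ren (fun i => if i = 0 then 0 else if i = 1 then 1 else i + 4)
        refine this.congr (fun R _ v => ?_)
        have e1 : (fun i => v (if i = 0 then 0 else if i = 1 then 1 else i + 4)) =
            upd (v 0) (v 1) (tl (tl (tl (tl v)))) := by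
          funext i
          rcases i with _ | _ | i <;> rfl
        rw [e1]
        rfl
    · have hu : ∀ x y, ∀ i, dec (upd x y v (2 * e i + 2)) (upd x y v (2 * e i + 3)) = ix (j i) :=
        fun x y i => h i
      constructor
      · rintro ⟨y, x, y', x', ⟨h1, h2⟩, a, b, h3, h6, h7⟩
        have h4 : dec x y = ix (f j) := (hS' R hR (upd x y v) j (hu x y)).1 h1
        have h5 : dec x' y' = ix (g j) := (hT' R hR (upd x' y' v) j (hu x' y')).1 h2
        have h8 : f j = a := ix_inj (h4.symm.trans h6)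
        have h9 : g j = b := ix_inj (h5.symm.trans h7)
        rw [h3, ← h8, ← h9]
      · intro h1
        obtain ⟨x, y, hxy⟩ := exists_dec (ix (f j))
        obtain ⟨x', y', hxy'⟩ := exists_dec (ix (g j))
        exact ⟨y, x, y', x', ⟨(hS' R hR (upd x y v) j (hu x y)).2 hxy,
          (hT' R hR (upd x' y' v) j (hu x' y')).2 hxy'⟩, f j, g j, h1, hxy, hxy'⟩

end Vale.Agent.P027.HT
end
end

section

section

/-! Transfer of recursively enumerable relations to indices, and evaluation of indices. -/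

namespace Vale.Agent.P027.HT

open Vale.Agent.P345

variable {K : ℕ}

/-- a block of `N` new members in front of the environment `v` -/
def blk (N : ℕ) (u v : ℕ → ℚ) : ℕ → ℚ := fun i => if i < N then u i else v (i - N)

lemma blk_lt {N : ℕ} (u v : ℕ → ℚ) {i : ℕ} (h : i < N) : blk N u v i = u i := if_pos h

lemma blk_add {N : ℕ} (u v : ℕ → ℚ) (i : ℕ) : blk N u v (i + N) = v i := by
  unfold blk
  rw [if_neg (by omega), Nat.add_sub_cancel]

theorem HD.exN (N : ℕ) {S : (ℚ → ℚ → Prop) → (ℕ → ℚ) → Prop} (hS : HD K S) :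
    HD K (fun R v => ∃ u, S R (blk N u v)) := by
  induction N generalizing S with
  | zero =>
    refine hS.congr (fun R _ v => ?_)
    have e : ∀ u, blk 0 u v = v := fun u => by funext i; simp [blk]
    simp [e]
  | succ N ih =>
    have h1 : HD K (fun R v => ∃ x, S R (cns x v)) :=
      HD.ex (S := fun R x v => S R (cns x v)) (by simpa only [cns_tl] using hS)
    refine (ih h1).congr (fun R _ v => ?_)
    have e : ∀ u, blk (N + 1) u v = cns (u 0) (blk N (tl u) v) := by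
      intro u
      funext i
      rcases i with _ | i
      · simp only [blk, lt_add_iff_pos_left, Order.lt_add_one_iff, zero_le, ↓reduceIte, cns_zero]
      · rw [cns_succ]
        simp only [blk, Nat.add_lt_add_iff_right, Nat.add_sub_add_right]
        rfl
    constructor
    · rintro ⟨u, hu⟩
      rw [e] at hu
      exact ⟨tl u, u 0, hu⟩
    · rintro ⟨u, x, hu⟩
      refine ⟨cns x u, ?_⟩
      rw [e]
      exact hu

theorem HD.true : HD K (fun _ _ => True) := HD.of_dio Dio.true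

theorem HD.all_lt (N : ℕ) {S : ℕ → (ℚ → ℚ → Prop) → (ℕ → ℚ) → Prop} (h : ∀ k, HD K (S k)) :
    HD K (fun R v => ∀ k < N, S k R v) := by
  induction N with
  | zero => exact HD.true.congr (fun R _ v => by simp)
  | succ N ih =>
    refine (ih.and (h N)).congr (fun R _ v => ?_)
    constructor
    · intro h1
      exact ⟨fun k hk => h1 k (by omega), h1 N (by omega)⟩
    · rintro ⟨h1, h2⟩ k hk
      rcases Nat.lt_succ_iff_lt_or_eq.1 hk with h3 | rfl
      · exact h1 k h3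
      · exact h2

/-- recursively enumerable relations between indices -/
theorem hd_sf (hK : 1 ≤ K) {n : ℕ} {P : (Fin n → ℕ) → Prop} (hP : SF P) :
    ∃ S, HD K S ∧ ∀ R, Coarse K R → ∀ (v : ℕ → ℚ) (j : Fin n → ℕ),
      (∀ i : Fin n, dec (v (2 * i)) (v (2 * i + 1)) = ix (j i)) → (S R v ↔ P j) := by
  obtain ⟨m, f, hf, h⟩ := hP
  have hf' : IsPoly (fun u : Fin n ⊕ Fin m → ℕ => f (fun i => u (Sum.inl i), fun i => u (Sum.inr i))) :=
    hf
  obtain ⟨S, hS, hS'⟩ := hd_poly hK (Sum.elim (fun i : Fin n => (i : ℕ) + m)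
    (fun k : Fin m => (k : ℕ))) hf'
  refine ⟨fun R v => ∃ u, (fun R w => ((∀ k < m, NatIx (dec (w (2 * k + 2)) (w (2 * k + 3)))) ∧
    dec (w 0) (w 1) = ix 0) ∧ S R w) R (blk (2 * m + 2) u v), ?_, fun R hR v j hj => ?_⟩
  · have h1 : HD K (fun R w => ((∀ k < m, NatIx (dec (w (2 * k + 2)) (w (2 * k + 3)))) ∧
        dec (w 0) (w 1) = ix 0) ∧ S R w) :=
      HD.and (HD.and (HD.all_lt m (S := fun k _ w => NatIx (dec (w (2 * k + 2)) (w (2 * k + 3))))
        fun k => hd_natIx hK (DPt.dec (DioFn.var _) (DioFn.var _)))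
        (HD.of_dio (dio_pt_eq (DPt.dec (DioFn.var 0) (DioFn.var 1)) (DPt.const _)))) hS
    exact HD.exN (2 * m + 2) h1
  have hv : ∀ u (i : Fin n), dec (blk (2 * m + 2) u v (2 * ((i : ℕ) + m) + 2))
      (blk (2 * m + 2) u v (2 * ((i : ℕ) + m) + 3)) = ix (j i) := by
    intro u i
    have e1 : 2 * ((i : ℕ) + m) + 2 = 2 * (i : ℕ) + (2 * m + 2) := by ring
    have e2 : 2 * ((i : ℕ) + m) + 3 = 2 * (i : ℕ) + 1 + (2 * m + 2) := by ring
    rw [e1, e2, blk_add, blk_add]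
    exact hj i
  constructor
  · rintro ⟨u, ⟨h1, h2⟩, h3⟩
    have hl : ∀ k : Fin m, ∃ l : ℕ, dec (blk (2 * m + 2) u v (2 * (k : ℕ) + 2))
        (blk (2 * m + 2) u v (2 * (k : ℕ) + 3)) = ix l := fun k => h1 k k.2
    choose l hl using hl
    have h4 := (hS' R hR (blk (2 * m + 2) u v) (Sum.elim j l) (by
      rintro (i | k)
      · exact hv u i
      · exact hl k)).1 h3
    rw [h2] at h4
    have h5 := ix_inj h4
    exact (h j).2 l h5.symm
  · intro hPj
    obtain ⟨l, hl, -⟩ := (h j).1 hPj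
    have hc : ∀ a : ℤ, ∃ xy : ℚ × ℚ, dec xy.1 xy.2 = ix a := by
      intro a
      obtain ⟨x, y, hxy⟩ := exists_dec (ix a)
      exact ⟨(x, y), hxy⟩
    choose c hc using hc
    let l' : ℕ → ℕ := fun k => if h : k < m then l ⟨k, h⟩ else 0
    let u : ℕ → ℚ := fun i => if i < 2 then (if i % 2 = 0 then (c 0).1 else (c 0).2)
      else (if i % 2 = 0 then (c (l' (i / 2 - 1))).1 else (c (l' (i / 2 - 1))).2)
    have hu : ∀ k < m, dec (blk (2 * m + 2) u v (2 * k + 2)) (blk (2 * m + 2) u v (2 * k + 3)) =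
        ix (l' k) := by
      intro k hk
      rw [blk_lt _ _ (by omega), blk_lt _ _ (by omega)]
      have e1 : ¬ (2 * k + 2 < 2) := by omega
      have e2 : ¬ (2 * k + 3 < 2) := by omega
      have e3 : (2 * k + 2) % 2 = 0 := by omega
      have e4 : ¬ (2 * k + 3) % 2 = 0 := by omega
      have e5 : (2 * k + 2) / 2 - 1 = k := by omega
      have e6 : (2 * k + 3) / 2 - 1 = k := by omega
      simp only [u, e1, e2, e3, e4, e5, e6, if_true, if_false]
      exact hc _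
    have hu0 : dec (blk (2 * m + 2) u v 0) (blk (2 * m + 2) u v 1) = ix 0 := by
      rw [blk_lt _ _ (by omega), blk_lt _ _ (by omega)]
      exact hc 0
    refine ⟨u, ⟨fun k hk => ⟨l' k, hu k hk⟩, hu0⟩, ?_⟩
    refine (hS' R hR (blk (2 * m + 2) u v) (Sum.elim j l) (by
      rintro (i | k)
      · exact hv u i
      · have := hu k k.2
        have e : l' k = l k := by
          simp only [l', dif_pos k.2]
        rw [e] at this
        exact this)).2 ?_
    rw [hu0]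
    exact congrArg ix hl.symm

/-- the relation used in the evaluation of an index -/
theorem sf_T (c c2 : ℕ) : SF (fun j : Fin 4 → ℕ => 1 ≤ j 3 ∧ j 2 = j 3 + c ∧
    j 1 = 2 * 3 ^ (c2 * (j 2 + 1) ^ 2) ∧ j 0 = j 1 * j 3) := by
  have hv : ∀ i : Fin 4, SFn (fun j : Fin 4 → ℕ => j i) := fun i =>
    SFn.of_isP (IsP.apply i)
  have hp : ∀ {f g : (Fin 4 → ℕ) → ℕ}, SFn f → SFn g → SFn (fun j => f j ^ g j) :=
    fun hf hg => SFn.comp₂ (g := fun p : ℕ × ℕ => p.1 ^ p.2) SFn.pow hf hg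
  refine SF.and (SF.le (SFn.const 1) (hv 3)) (SF.and (SF.eq (hv 2) ((hv 3).add (SFn.const c)))
    (SF.and (SF.eq (hv 1) ?_) (SF.eq (hv 0) ((hv 1).mul (hv 3)))))
  exact (SFn.const 2).mul (hp (SFn.const 3) ((SFn.const c2).mul (hp (hv 2).succ (SFn.const 2))))

/-- the evaluation statement -/
def EvalIff (K : ℕ) : Prop := ∃ c c2 : ℕ, ∀ R, Coarse K R → ∀ (n : ℕ) (w : ℚ), 1 ≤ n →
  (w = (n : ℚ) ^ 2 ↔ R w (xc (ix ((n + c : ℕ) : ℤ))) ∧
    0 ≤ padicValRat 3 ((xc ((4 * 3 ^ (c2 * (n + c + 1) ^ 2) : ℕ) • P0) /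
      xc (n • ((4 * 3 ^ (c2 * (n + c + 1) ^ 2) : ℕ) • P0)) - w) *
        xc ((4 * 3 ^ (c2 * (n + c + 1) ^ 2) : ℕ) • P0) ^ 2))

lemma ix_sub_P0 (n : ℕ) : ix (n : ℤ) - P0 = (2 * n) • P0 := by
  unfold ix
  rw [add_zsmul, one_zsmul]
  have : (2 * (n : ℤ)) • P0 = (2 * n) • P0 := by
    rw [← natCast_zsmul]; push_cast; rfl
  rw [this]
  abel

theorem hd_square (hK : 1 ≤ K) (hE : EvalIff K) :
    HD K (fun _ v => ∃ n : ℕ, 1 ≤ n ∧ dec (v 0) (v 1) = ix n ∧ v 2 = (n : ℚ) ^ 2) := by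
  obtain ⟨c, c2, hE⟩ := hE
  obtain ⟨S, hS, hS'⟩ := hd_sf hK (sf_T c c2)
  have h1 : DioFn (fun v => xc (dec (v 2) (v 3) - P0)) := ((DPt.var 1).sub (DPt.const _)).xc
  have h0 : DioFn (fun v => xc (dec (v 0) (v 1) - P0)) := ((DPt.var 0).sub (DPt.const _)).xc
  have hW : HD K (fun R w => (∀ k < 4, NatIx (dec (w (2 * k)) (w (2 * k + 1)))) ∧
      S R w ∧ R (w 8) (xc (dec (w 4) (w 5))) ∧
      0 ≤ padicValRat 3 ((xc (dec (w 2) (w 3) - P0) / xc (dec (w 0) (w 1) - P0) - w 8) *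
        xc (dec (w 2) (w 3) - P0) ^ 2)) :=
    HD.and (HD.all_lt 4 (S := fun k _ w => NatIx (dec (w (2 * k)) (w (2 * k + 1))))
      fun k => hd_natIx hK (DPt.var k)) (HD.and hS (HD.and
      (HD.rel (DioFn.var 8) (DPt.var 2).xc)
      (HD.of_dio (dio_int3 (((h1.div h0).sub (DioFn.var 8)).mul (h1.pow 2))))))
  have h := HD.exN 6 hW
  clear h1 h0
  refine h.congr (fun R hR v => ?_)
  constructor
  · rintro ⟨n, hn, hn1, hn2⟩
    have hc : ∀ a : ℤ, ∃ xy : ℚ × ℚ, dec xy.1 xy.2 = ix a := by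
      intro a
      obtain ⟨x, y, hxy⟩ := exists_dec (ix a)
      exact ⟨(x, y), hxy⟩
    choose cc hc using hc
    obtain ⟨b, hb⟩ : ∃ b : ℕ, b = 2 * 3 ^ (c2 * (n + c + 1) ^ 2) := ⟨_, rfl⟩
    let u : ℕ → ℚ := fun i => match i with
      | 0 => (cc ((b * n : ℕ) : ℤ)).1
      | 1 => (cc ((b * n : ℕ) : ℤ)).2
      | 2 => (cc (b : ℤ)).1
      | 3 => (cc (b : ℤ)).2
      | 4 => (cc ((n + c : ℕ) : ℤ)).1
      | _ => (cc ((n + c : ℕ) : ℤ)).2
    have w0 : dec (blk 6 u v 0) (blk 6 u v 1) = ix ((b * n : ℕ) : ℤ) := hc _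
    have w1 : dec (blk 6 u v 2) (blk 6 u v 3) = ix (b : ℤ) := hc _
    have w2 : dec (blk 6 u v 4) (blk 6 u v 5) = ix ((n + c : ℕ) : ℤ) := hc _
    have w3 : dec (blk 6 u v 6) (blk 6 u v 7) = ix (n : ℤ) := hn1
    have w4 : blk 6 u v 8 = (n : ℚ) ^ 2 := hn2
    refine ⟨u, ?_, ?_, ?_⟩
    · intro k hk
      interval_cases k
      · exact ⟨_, w0⟩
      · exact ⟨_, w1⟩
      · exact ⟨_, w2⟩
      · exact ⟨_, w3⟩
    · refine (hS' R hR _ ![b * n, b, n + c, n] ?_).2 ⟨hn, rfl, hb, rfl⟩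
      intro i
      fin_cases i
      · exact w0
      · exact w1
      · exact w2
      · exact w3
    · have := (hE R hR n (blk 6 u v 8) hn).1 w4
      rw [w0, w1, w2, ix_sub_P0, ix_sub_P0]
      have e1 : 2 * b = 4 * 3 ^ (c2 * (n + c + 1) ^ 2) := by rw [hb]; ring
      have e2 : (2 * (b * n)) • P0 = n • ((2 * b) • P0) := by
        rw [← mul_nsmul]; congr 1; ring
      rw [e2, e1]
      exact this
  · rintro ⟨u, h1, h2, h3, h4⟩
    obtain ⟨j0, w0⟩ := h1 0 (by norm_num)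
    obtain ⟨j1, w1⟩ := h1 1 (by norm_num)
    obtain ⟨j2, w2⟩ := h1 2 (by norm_num)
    obtain ⟨n, w3⟩ := h1 3 (by norm_num)
    simp only [Nat.reduceMul, Nat.reduceAdd] at w0 w1 w2 w3
    obtain ⟨hn, e2, e1, e0⟩ := (hS' R hR _ ![j0, j1, j2, n] (by
      intro i
      fin_cases i
      · exact w0
      · exact w1
      · exact w2
      · exact w3)).1 h2
    change 1 ≤ n at hn
    change j2 = n + c at e2
    change j1 = 2 * 3 ^ (c2 * (j2 + 1) ^ 2) at e1
    change j0 = j1 * n at e0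
    refine ⟨n, hn, w3, ?_⟩
    have e3 : 2 * j1 = 4 * 3 ^ (c2 * (n + c + 1) ^ 2) := by rw [e1, e2]; ring
    have e4 : (2 * j0) • P0 = n • ((2 * j1) • P0) := by
      rw [e0, ← mul_nsmul]; congr 1; ring
    rw [w0, w1, ix_sub_P0, ix_sub_P0, e4, e3] at h4
    rw [w2, e2] at h3
    exact (hE R hR n (blk 6 u v 8) hn).2 ⟨h3, h4⟩

theorem hd_value (hK : 1 ≤ K) (hE : EvalIff K) {q : (ℕ → ℚ) → ℚ} (hq : DioFn q)
    {P : (ℕ → ℚ) → EC.Point} (hP : DPt P) :
    HD K (fun _ v => ∃ n : ℕ, P v = ix n ∧ q v = n) := by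
  -- squares of shifted indices
  have hsq : ∀ {F : (ℕ → ℚ) → EC.Point}, DPt F →
      HD K (fun _ v => ∃ n : ℕ, 1 ≤ n ∧ F (tl v) = ix n ∧ v 0 = (n : ℚ) ^ 2) := by
    intro F hF
    have h1 := (hd_square hK hE).ren (fun i => if i = 0 then 0 else if i = 1 then 1 else 2)
    exact HD.subst (S := fun _ P v => ∃ n : ℕ, 1 ≤ n ∧ P = ix n ∧ v 0 = (n : ℚ) ^ 2) hF.tl h1
  have h : HD K (fun _ v => NatIx (P v) ∧ ∃ a, (∃ n : ℕ, 1 ≤ n ∧ P v + 2 • P0 = ix n ∧
      a = (n : ℚ) ^ 2) ∧ ∃ b, (∃ n : ℕ, 1 ≤ n ∧ P v + 4 • P0 = ix n ∧ b = (n : ℚ) ^ 2) ∧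
        2 * q v = b - a - 3) := by
    refine (hd_natIx hK hP).and ?_
    refine HD.ex (S := fun _ a v => (∃ n : ℕ, 1 ≤ n ∧ P v + 2 • P0 = ix n ∧
      a = (n : ℚ) ^ 2) ∧ ∃ b, (∃ n : ℕ, 1 ≤ n ∧ P v + 4 • P0 = ix n ∧ b = (n : ℚ) ^ 2) ∧
        2 * q v = b - a - 3) ?_
    refine (hsq (F := fun v => P v + 2 • P0) (hP.add (DPt.const _))).and ?_
    refine HD.ex (S := fun _ b v => (∃ n : ℕ, 1 ≤ n ∧ P (tl v) + 4 • P0 = ix n ∧
      b = (n : ℚ) ^ 2) ∧ 2 * q (tl v) = b - v 0 - 3) ?_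
    refine (hsq (F := fun v => P (tl v) + 4 • P0) (hP.tl.add (DPt.const _))).and (HD.of_dio ?_)
    exact Dio.eq ((lit_fn 2).mul hq.tl.tl) (((DioFn.var 0).sub (DioFn.var 1)).sub (lit_fn 3))
  refine h.congr (fun R _ v => ?_)
  have e2 : ∀ n : ℕ, ix (n : ℤ) + 2 • P0 = ix ((n + 1 : ℕ) : ℤ) := by
    intro n
    unfold ix
    rw [← natCast_zsmul, ← add_zsmul]
    congr 1
  have e4 : ∀ n : ℕ, ix (n : ℤ) + 4 • P0 = ix ((n + 2 : ℕ) : ℤ) := by
    intro n
    unfold ix
    rw [← natCast_zsmul, ← add_zsmul]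
    congr 1
  constructor
  · rintro ⟨n, hn, hq⟩
    refine ⟨⟨n, hn⟩, ((n + 1 : ℕ) : ℚ) ^ 2, ⟨n + 1, by omega, by rw [hn, e2], rfl⟩,
      ((n + 2 : ℕ) : ℚ) ^ 2, ⟨n + 2, by omega, by rw [hn, e4], rfl⟩, ?_⟩
    rw [hq]
    push_cast
    ring
  · rintro ⟨⟨n, hn⟩, a, ⟨n1, -, h1, rfl⟩, b, ⟨n2, -, h2, rfl⟩, h3⟩
    rw [hn, e2] at h1
    rw [hn, e4] at h2
    have h4 := ix_inj h1
    have h5 := ix_inj h2
    have h6 : n1 = n + 1 := by omega
    have h7 : n2 = n + 2 := by omega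
    refine ⟨n, hn, ?_⟩
    rw [h6, h7] at h3
    push_cast at h3
    linarith only [h3]

/-- recursively enumerable sets of tuples of natural numbers -/
theorem final_of (hK : 1 ≤ K) (hE : EvalIff K) (n : ℕ) (S : Set (Fin n → ℕ))
    (hS : REPred (fun a => a ∈ S)) :
    ∃ (m : ℕ) (g : MvPolynomial (Fin n ⊕ Fin m) ℤ)
      (L : List ((Fin n ⊕ Fin m) × (Fin n ⊕ Fin m))), ∀ R, Coarse K R → ∀ x : Fin n → ℚ,
      ((∃ a : Fin n → ℕ, a ∈ S ∧ ∀ i, x i = a i) ↔
        ∃ y : Fin m → ℚ, MvPolynomial.aeval (Sum.elim x y) g = 0 ∧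
          ∀ ij ∈ L, R (Sum.elim x y ij.1) (Sum.elim x y ij.2)) := by
  obtain ⟨T, hT, hT'⟩ := hd_sf hK (sf_of_rePred n S hS)
  refine HD.finite (S := fun _ x => ∃ a : Fin n → ℕ, a ∈ S ∧ ∀ i, x i = a i) ?_
  have hW : HD K (fun R w => (∀ k < n, ∃ j : ℕ,
      dec (w (2 * k)) (w (2 * k + 1)) = ix j ∧ w (k + 2 * n) = j) ∧ T R w) :=
    HD.and (HD.all_lt n (S := fun k _ w => ∃ j : ℕ,
      dec (w (2 * k)) (w (2 * k + 1)) = ix j ∧ w (k + 2 * n) = j)
      fun k => hd_value hK hE (DioFn.var _) (DPt.var k)) hT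
  have h := HD.exN (2 * n) hW
  refine h.congr (fun R hR v => ?_)
  constructor
  · rintro ⟨a, haS, ha⟩
    have hc : ∀ a : ℤ, ∃ xy : ℚ × ℚ, dec xy.1 xy.2 = ix a := by
      intro a
      obtain ⟨x, y, hxy⟩ := exists_dec (ix a)
      exact ⟨(x, y), hxy⟩
    choose c hc using hc
    let l' : ℕ → ℕ := fun k => if h : k < n then a ⟨k, h⟩ else 0
    let u : ℕ → ℚ := fun i => if i % 2 = 0 then (c (l' (i / 2))).1 else (c (l' (i / 2))).2
    have hu : ∀ k < n, dec (blk (2 * n) u v (2 * k)) (blk (2 * n) u v (2 * k + 1)) =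
        ix (l' k) := by
      intro k hk
      rw [blk_lt _ _ (by omega), blk_lt _ _ (by omega)]
      have e3 : (2 * k) % 2 = 0 := by omega
      have e4 : ¬ (2 * k + 1) % 2 = 0 := by omega
      have e5 : (2 * k) / 2 = k := by omega
      have e6 : (2 * k + 1) / 2 = k := by omega
      simp only [u, e3, e4, e5, e6, if_true, if_false]
      exact hc _
    have hl : ∀ k : Fin n, l' k = a k := fun k => by simp only [l', dif_pos k.2]
    refine ⟨u, fun k hk => ⟨l' k, hu k hk, ?_⟩, ?_⟩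
    · rw [blk_add]
      have := ha ⟨k, hk⟩
      rw [← hl ⟨k, hk⟩] at this
      exact this
    · refine (hT' R hR _ a ?_).2 haS
      intro i
      rw [hu i i.2, hl]
  · rintro ⟨u, h1, h2⟩
    choose a ha hav using fun k : Fin n => h1 k k.2
    refine ⟨a, (hT' R hR _ a ha).1 h2, fun i => ?_⟩
    have := hav i
    rw [blk_add] at this
    exact this

end Vale.Agent.P027.HT
end
end

section

section

/-! Three-adic evaluation: `x(V) / x(n V)` is congruent to `n ^ 2`. -/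

namespace Vale.Agent.P027.HT

open Vale.Agent.P345 Vale.Agent.P027

/-- a point with three-adically large coordinate is not torsion -/
lemma nsmul_ne_zero_of_large {V : EC.Point} {x : ℚ} (hV : HasX V x) (h9 : 9 ≤ padicNorm 3 x)
    {n : ℕ} (hn : 1 ≤ n) : n • V ≠ 0 := by
  have hx0 : x ≠ 0 := ne_zero_of_norm (by norm_num) h9
  have hg : Good x := by
    obtain ⟨y, hy, -⟩ := hV
    refine ⟨y, ?_, hy⟩
    rintro rfl
    apply x_sq_sub_ne hx0
    rw [← hy]; norm_num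
  obtain ⟨k, hk, hX, -⟩ := good_even hg
  have h2 : HasX (V + V) (ww x) := hasX_two_smul hV hx0
  intro hcon
  have h3 : n • (V + V) = 0 := by rw [nsmul_add, hcon, add_zero]
  rcases h2.eq_or_neg hX with h | h
  · rw [h] at h3
    rw [← natCast_zsmul, ← mul_zsmul] at h3
    exact zsmul_P0_ne_zero (mul_ne_zero (by exact_mod_cast (by omega : n ≠ 0)) (by omega)) h3
  · rw [h, neg_nsmul, neg_eq_zero] at h3
    rw [← natCast_zsmul, ← mul_zsmul] at h3
    exact zsmul_P0_ne_zero (mul_ne_zero (by exact_mod_cast (by omega : n ≠ 0)) (by omega)) h3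

/-- the function `(1 - 2 w) / (1 + 2 w)^2` is close to one -/
lemma norm_quot {w : ℚ} (hw : padicNorm 3 w < 1) :
    1 + 2 * w ≠ 0 ∧ padicNorm 3 ((1 - 2 * w) / (1 + 2 * w) ^ 2 - 1) ≤ padicNorm 3 w := by
  have n2 : padicNorm 3 2 ≤ 1 := by exact_mod_cast padicNorm.of_int (p := 3) 2
  have n6 : padicNorm 3 (-6) ≤ 1 := by exact_mod_cast padicNorm.of_int (p := 3) (-6)
  have n4 : padicNorm 3 (-4) ≤ 1 := by exact_mod_cast padicNorm.of_int (p := 3) (-4)
  have hw0 : 0 ≤ padicNorm 3 w := padicNorm.nonneg _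
  have h1 : padicNorm 3 (2 * w) < 1 := by
    rw [padicNorm.mul]; nlinarith only [hw, n2, hw0]
  have h2 : padicNorm 3 (1 + 2 * w) = 1 := by
    rw [norm_add_left 3 (by simpa only [padicNorm.mul, ne_eq, OfNat.ofNat_ne_zero, not_false_eq_true, padicNorm.eq_zpow_of_nonzero,     Nat.cast_ofNat, zpow_neg, one_ne_zero, padicValRat.one, neg_zero, zpow_ofNat, pow_zero] using h1)]; simp
  have h3 : 1 + 2 * w ≠ 0 := by
    intro h; rw [h] at h2; simp at h2
  refine ⟨h3, ?_⟩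
  have e : (1 - 2 * w) / (1 + 2 * w) ^ 2 - 1 = w * (-6 + -4 * w) / (1 + 2 * w) ^ 2 := by
    field_simp; ring
  rw [e, padicNorm.div, sq, padicNorm.mul, padicNorm.mul, h2]
  have h4 : padicNorm 3 (-6 + -4 * w) ≤ 1 := by
    refine (padicNorm.nonarchimedean).trans (max_le n6 ?_)
    rw [padicNorm.mul]
    nlinarith only [n4, hw, padicNorm.nonneg (p := 3) (-4)]
  rw [mul_one, div_one]
  nlinarith only [hw0, h4]

lemma rec_algebra {a b s d : ℚ} (ha : a ≠ 0) (hb : b ≠ 0) (hs : s ≠ 0) (hd : d ≠ 0)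
    (hab : a - b ≠ 0) (h1 : (s + d) * (a - b) ^ 2 = 2 * (a * b - 2) * (a + b))
    (h2 : s * d * (a - b) ^ 2 = (a * b + 2) ^ 2) (hw : 1 + 2 * (a⁻¹ * b⁻¹) ≠ 0) :
    s⁻¹ + d⁻¹ - 2 * a⁻¹ - 2 * b⁻¹ =
      2 * (a⁻¹ + b⁻¹) * ((1 - 2 * (a⁻¹ * b⁻¹)) / (1 + 2 * (a⁻¹ * b⁻¹)) ^ 2 - 1) := by
  have hw' : a * b + 2 ≠ 0 := by
    intro h
    apply hw
    have e2 : 1 + 2 * (a⁻¹ * b⁻¹) = (a * b + 2) / (a * b) := by (clear * - hb ha; field_simp)
    rw [e2, h, zero_div]
  have h3 : s⁻¹ + d⁻¹ = 2 * (a * b - 2) * (a + b) / (a * b + 2) ^ 2 := by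
    rw [← h1, ← h2]
    field_simp
    ring
  have h4 : 2 * (a⁻¹ + b⁻¹) * ((1 - 2 * (a⁻¹ * b⁻¹)) / (1 + 2 * (a⁻¹ * b⁻¹)) ^ 2) =
      2 * (a * b - 2) * (a + b) / (a * b + 2) ^ 2 := by
    have e1 : 1 - 2 * (a⁻¹ * b⁻¹) = (a * b - 2) / (a * b) := by (clear * - hb ha; field_simp)
    have e2 : 1 + 2 * (a⁻¹ * b⁻¹) = (a * b + 2) / (a * b) := by field_simp
    have e3 : a⁻¹ + b⁻¹ = (a + b) / (a * b) := by field_simp; ring
    rw [e1, e2, e3]
    (clear * - ha hb hw'; field_simp)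
  linear_combination h3 - h4

/-- the bound for the second difference -/
lemma second_diff {a b s d B : ℚ} (hB : 9 ≤ B) (hb : padicNorm 3 b = B) (ha : B ≤ padicNorm 3 a)
    (hs : s ≠ 0) (hd : d ≠ 0) (hab : a - b ≠ 0)
    (h1 : (s + d) * (a - b) ^ 2 = 2 * (a * b - 2) * (a + b))
    (h2 : s * d * (a - b) ^ 2 = (a * b + 2) ^ 2) :
    padicNorm 3 (s⁻¹ + d⁻¹ - 2 * a⁻¹ - 2 * b⁻¹) * B ^ 3 ≤ 1 := by
  have hB0 : 0 < B := by linarith only [hB]
  have hb0 : b ≠ 0 := ne_zero_of_norm hB0 hb.ge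
  have ha0 : a ≠ 0 := ne_zero_of_norm hB0 ha
  have n2 : padicNorm 3 2 ≤ 1 := by exact_mod_cast padicNorm.of_int (p := 3) 2
  have na : padicNorm 3 a⁻¹ ≤ B⁻¹ := by
    rw [← one_div, padicNorm.div, padicNorm.one, one_div]
    exact inv_anti₀ hB0 ha
  have nb : padicNorm 3 b⁻¹ = B⁻¹ := by
    rw [← one_div, padicNorm.div, padicNorm.one, one_div, hb]
  have hBi : B⁻¹ ≤ 1 / 9 := by
    rw [← one_div]; exact one_div_le_one_div_of_le (by norm_num) hB
  have hBi0 : 0 < B⁻¹ := by positivity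
  have na0 : 0 ≤ padicNorm 3 a⁻¹ := padicNorm.nonneg _
  have nw : padicNorm 3 (a⁻¹ * b⁻¹) ≤ B⁻¹ ^ 2 := by
    rw [padicNorm.mul, nb, sq]
    exact mul_le_mul_of_nonneg_right na hBi0.le
  have hw1 : padicNorm 3 (a⁻¹ * b⁻¹) < 1 := by nlinarith only [hBi, hBi0, nw]
  obtain ⟨hw, hq⟩ := norm_quot hw1
  rw [rec_algebra ha0 hb0 hs hd hab h1 h2 hw, padicNorm.mul, padicNorm.mul]
  have nab : padicNorm 3 (a⁻¹ + b⁻¹) ≤ B⁻¹ :=
    (padicNorm.nonarchimedean).trans (max_le na nb.le)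
  have h20 : 0 ≤ padicNorm 3 2 := padicNorm.nonneg _
  have hab0 : 0 ≤ padicNorm 3 (a⁻¹ + b⁻¹) := padicNorm.nonneg _
  have hq0 : 0 ≤ padicNorm 3 ((1 - 2 * (a⁻¹ * b⁻¹)) / (1 + 2 * (a⁻¹ * b⁻¹)) ^ 2 - 1) :=
    padicNorm.nonneg _
  calc padicNorm 3 2 * padicNorm 3 (a⁻¹ + b⁻¹) *
        padicNorm 3 ((1 - 2 * (a⁻¹ * b⁻¹)) / (1 + 2 * (a⁻¹ * b⁻¹)) ^ 2 - 1) * B ^ 3
      ≤ (1 * B⁻¹) * B⁻¹ ^ 2 * B ^ 3 := by
        apply mul_le_mul_of_nonneg_right _ (by positivity)
        apply mul_le_mul _ (hq.trans nw) hq0 (by positivity)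
        apply mul_le_mul n2 nab hab0 (by norm_num)
    _ = 1 := by field_simp

theorem sq_congr {V : EC.Point} {x : ℚ} (hV : HasX V x) (h9 : 9 ≤ padicNorm 3 x) {n : ℕ}
    (hn : 1 ≤ n) : ∃ x', HasX (n • V) x' ∧
      padicNorm 3 (x / x' - (n : ℚ) ^ 2) * padicNorm 3 x ^ 2 ≤ 1 := by
  set B := padicNorm 3 x with hBdef
  have hB0 : 0 < B := by linarith only [h9]
  have hB1 : 1 < B := by linarith only [h9]
  have hx0 : x ≠ 0 := ne_zero_of_norm hB0 le_rfl
  have hmem : V ∈ GG 3 B hB1 := by rw [mem_GG_of_hasX 3 hB1 hV]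
  have hne : ∀ m : ℕ, 1 ≤ m → m • V ≠ 0 := fun m hm => nsmul_ne_zero_of_large hV h9 hm
  have hex : ∀ m : ℕ, ∃ z : ℚ, (m = 0 → z = 0) ∧ (1 ≤ m → HasX (m • V) z) := by
    intro m
    rcases Nat.eq_zero_or_pos m with h | h
    · exact ⟨0, fun _ => rfl, fun h1 => by omega⟩
    · obtain ⟨z, hz⟩ := exists_hasX (hne m h)
      exact ⟨z, fun h1 => by omega, fun _ => hz⟩
  choose X hX0 hX using hex
  have hX1 : X 1 = x := (by simpa using hX 1 le_rfl : HasX V (X 1)).unique hV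
  have hXB : ∀ m : ℕ, 1 ≤ m → B ≤ padicNorm 3 (X m) := by
    intro m hm
    have h1 : m • V ∈ GG 3 B hB1 := AddSubgroup.nsmul_mem _ hmem m
    exact (mem_GG_of_hasX 3 hB1 (hX m hm)).1 h1
  have hXne : ∀ m : ℕ, 1 ≤ m → X m ≠ 0 := fun m hm => ne_zero_of_norm hB0 (hXB m hm)
  -- second differences
  have hrec : ∀ m : ℕ, padicNorm 3 ((X (m + 2))⁻¹ + (X m)⁻¹ - 2 * (X (m + 1))⁻¹ - 2 * x⁻¹) * B ^ 3
      ≤ 1 := by
    intro m
    rcases Nat.eq_zero_or_pos m with h | h
    · subst h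
      have e2 : X 2 = (x ^ 2 + 2) ^ 2 / (4 * (x ^ 3 - 2 * x)) := by
        have h1 : HasX (V + V) (X 2) := by simpa only [two_nsmul] using hX 2 (by norm_num)
        exact h1.unique (hasX_two_smul hV hx0)
      have hx3 := x_sq_sub_ne hx0
      have nb : padicNorm 3 x⁻¹ = B⁻¹ := by
        rw [← one_div, padicNorm.div, padicNorm.one, one_div]
      have hBi : B⁻¹ ≤ 1 / 9 := by
        rw [← one_div]; exact one_div_le_one_div_of_le (by norm_num) h9
      have hBi0 : 0 < B⁻¹ := by positivity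
      have nw : padicNorm 3 (x⁻¹ * x⁻¹) = B⁻¹ ^ 2 := by
        rw [padicNorm.mul, nb, sq]
      obtain ⟨hw, hq⟩ := norm_quot (w := x⁻¹ * x⁻¹) (by rw [nw]; nlinarith only [hBi, hBi0])
      have hx2 : x ^ 2 + 2 ≠ 0 := by (clear * - hx0; positivity)
      have e3 : (X 2)⁻¹ + (X 0)⁻¹ - 2 * (X 1)⁻¹ - 2 * x⁻¹ =
          2 * (2 * x⁻¹) * ((1 - 2 * (x⁻¹ * x⁻¹)) / (1 + 2 * (x⁻¹ * x⁻¹)) ^ 2 - 1) := by
        rw [hX0 0 rfl, hX1, e2]
        have f1 : 1 - 2 * (x⁻¹ * x⁻¹) = (x ^ 2 - 2) / x ^ 2 := by (clear * - hx0; field_simp)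
        have f2 : 1 + 2 * (x⁻¹ * x⁻¹) = (x ^ 2 + 2) / x ^ 2 := by field_simp
        rw [f1, f2]
        field_simp
        ring
      simp only [Nat.zero_add]
      rw [e3, padicNorm.mul, padicNorm.mul, padicNorm.mul, nb]
      have n2 : padicNorm 3 2 ≤ 1 := by exact_mod_cast padicNorm.of_int (p := 3) 2
      have h20 : 0 ≤ padicNorm 3 2 := padicNorm.nonneg _
      rw [nw] at hq
      have hq0 : 0 ≤ padicNorm 3 ((1 - 2 * (x⁻¹ * x⁻¹)) / (1 + 2 * (x⁻¹ * x⁻¹)) ^ 2 - 1) :=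
        padicNorm.nonneg _
      calc padicNorm 3 2 * (padicNorm 3 2 * B⁻¹) *
            padicNorm 3 ((1 - 2 * (x⁻¹ * x⁻¹)) / (1 + 2 * (x⁻¹ * x⁻¹)) ^ 2 - 1) * B ^ 3
          ≤ (1 * (1 * B⁻¹)) * B⁻¹ ^ 2 * B ^ 3 := by
            apply mul_le_mul_of_nonneg_right _ (by positivity)
            apply mul_le_mul _ hq hq0 (by positivity)
            apply mul_le_mul n2 _ (by (clear * - h20 h9; positivity)) (by norm_num)
            apply mul_le_mul_of_nonneg_right n2 hBi0.le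
        _ = 1 := by field_simp
    · have hm1 := hX (m + 1) (by omega)
      have hab : X (m + 1) ≠ x := by
        intro h1
        rw [h1] at hm1
        rcases hm1.eq_or_neg hV with h2 | h2
        · apply hne m h
          rw [add_nsmul, one_nsmul] at h2
          exact add_eq_right.1 h2
        · apply hne (m + 2) (by omega)
          have : (m + 2) • V = (m + 1) • V + V := by rw [← succ_nsmul]
          rw [this, h2, neg_add_cancel]
      obtain ⟨s, d, hs, hd, h1, h2⟩ := hasX_add_sub hm1 hV hab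
      have es : s = X (m + 2) := by
        have : (m + 1) • V + V = (m + 2) • V := by rw [← succ_nsmul]
        rw [this] at hs
        exact hs.unique (hX (m + 2) (by omega))
      have ed : d = X m := by
        have : (m + 1) • V - V = m • V := by rw [succ_nsmul, add_sub_cancel_right]
        rw [this] at hd
        exact hd.unique (hX m h)
      subst es ed
      exact second_diff h9 rfl (hXB (m + 1) (by omega)) (hXne _ (by omega)) (hXne _ h)
        (sub_ne_zero.2 hab) h1 h2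
  -- the estimate for `1 / x(mV) - m ^ 2 / x`
  have n2 : padicNorm 3 2 ≤ 1 := by exact_mod_cast padicNorm.of_int (p := 3) 2
  have hB3 : (0 : ℚ) < B ^ 3 := by positivity
  have hest : ∀ m : ℕ, padicNorm 3 ((X m)⁻¹ - (m : ℚ) ^ 2 * x⁻¹) * B ^ 3 ≤ 1 ∧
      padicNorm 3 ((X (m + 1))⁻¹ - ((m + 1 : ℕ) : ℚ) ^ 2 * x⁻¹) * B ^ 3 ≤ 1 := by
    intro m
    induction m with
    | zero =>
      constructor
      · rw [hX0 0 rfl]; simp only [inv_zero, CharP.cast_eq_zero, ne_eq, OfNat.ofNat_ne_zero, not_false_eq_true, zero_pow, zero_mul, sub_self, padicNorm.zero, zero_le_one]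
      · rw [Nat.zero_add, hX1]; simp only [Nat.cast_one, one_pow, one_mul, sub_self, padicNorm.zero, zero_mul, zero_le_one]
    | succ m ih =>
      refine ⟨ih.2, ?_⟩
      obtain ⟨i1, i2⟩ := ih
      have hr := hrec m
      rw [← le_div_iff₀ hB3] at i1 i2 hr ⊢
      have e : (X (m + 1 + 1))⁻¹ - ((m + 1 + 1 : ℕ) : ℚ) ^ 2 * x⁻¹ =
          (((X (m + 2))⁻¹ + (X m)⁻¹ - 2 * (X (m + 1))⁻¹ - 2 * x⁻¹) +
            2 * ((X (m + 1))⁻¹ - ((m + 1 : ℕ) : ℚ) ^ 2 * x⁻¹)) -
            ((X m)⁻¹ - (m : ℚ) ^ 2 * x⁻¹) := by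
        push_cast; ring
      rw [e]
      refine (padicNorm.sub).trans (max_le ((padicNorm.nonarchimedean).trans (max_le hr ?_)) i1)
      rw [padicNorm.mul]
      calc _ ≤ 1 * padicNorm 3 ((X (m + 1))⁻¹ - ((m + 1 : ℕ) : ℚ) ^ 2 * x⁻¹) :=
            mul_le_mul_of_nonneg_right n2 (padicNorm.nonneg _)
        _ ≤ _ := by rw [one_mul]; exact i2
  refine ⟨X n, hX n hn, ?_⟩
  have h1 := (hest n).1
  have e : x / X n - (n : ℚ) ^ 2 = x * ((X n)⁻¹ - (n : ℚ) ^ 2 * x⁻¹) := by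
    have := hXne n hn
    (clear * - this hx0; field_simp)
  rw [e, padicNorm.mul]
  calc _ = padicNorm 3 ((X n)⁻¹ - (n : ℚ) ^ 2 * x⁻¹) * B ^ 3 := by rw [← hBdef]; ring
    _ ≤ 1 := h1

end Vale.Agent.P027.HT
end
end

section

section

/-! Evaluation of an index: `w = n ^ 2` by a height bound and a three-adic congruence. -/

namespace Vale.Agent.P027.HT

open Vale.Agent.P345

lemma norm_le_one_of_val {p : ℕ} [Fact p.Prime] {x : ℚ} (h : 0 ≤ padicValRat p x) :
    padicNorm p x ≤ 1 := by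
  by_cases hx : x = 0
  · rw [hx, padicNorm.zero]; norm_num
  · rw [norm_eq_zpow p hx]
    exact zpow_le_one_of_nonpos₀ (by exact_mod_cast (Fact.out (p := p.Prime)).one_le) (by omega)

lemma val_of_norm_le_one {p : ℕ} [hp : Fact p.Prime] {x : ℚ} (h : padicNorm p x ≤ 1) :
    0 ≤ padicValRat p x := by
  by_cases hx : x = 0
  · rw [hx]; simp
  · rw [norm_eq_zpow p hx] at h
    by_contra hcon
    have h1 : (1 : ℚ) < p := by exact_mod_cast hp.out.one_lt
    have := one_lt_zpow₀ h1 (n := -padicValRat p x) (by omega)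
    linarith only [h, this]

lemma int_of_close {w : ℚ} {n B N : ℕ} (hn : 1 ≤ n) (hw : H w ≤ B) (hB : 2 * n ^ 2 * B < 3 ^ N)
    (h : padicNorm 3 (w - (n : ℚ) ^ 2) ≤ (3 : ℚ) ^ (-(N : ℤ))) : w = (n : ℚ) ^ 2 := by
  by_contra hne
  obtain ⟨z, hz⟩ : ∃ z : ℤ, z = w.num - (n : ℤ) ^ 2 * w.den := ⟨_, rfl⟩
  have hden : (w.den : ℚ) ≠ 0 := by exact_mod_cast w.den_ne_zero
  have e : (w - (n : ℚ) ^ 2) * w.den = z := by
    rw [hz]
    push_cast
    rw [sub_mul]
    congr 1
    exact Rat.mul_den_eq_num w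
  have hz0 : z ≠ 0 := by
    rintro rfl
    rw [Int.cast_zero] at e
    rcases mul_eq_zero.1 e with h1 | h1
    · exact hne (sub_eq_zero.1 h1)
    · exact hden h1
  have h1 : padicNorm 3 (z : ℚ) ≤ (3 : ℚ) ^ (-(N : ℤ)) := by
    rw [← e, padicNorm.mul]
    have h2 : padicNorm 3 (w.den : ℚ) ≤ 1 := padicNorm.of_nat _
    have h3 := padicNorm.nonneg (p := 3) (w - (n : ℚ) ^ 2)
    nlinarith only [h, h2, h3]
  have h2 : ((3 ^ N : ℕ) : ℤ) ∣ z := by
    rw [padicNorm.dvd_iff_norm_le]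
    exact_mod_cast h1
  have h3 : 3 ^ N ≤ z.natAbs := by
    have := Int.natAbs_dvd_natAbs.2 h2
    rw [Int.natAbs_natCast] at this
    exact Nat.le_of_dvd (Int.natAbs_pos.2 hz0) this
  have h4 : w.num.natAbs ≤ B := le_trans (le_max_left _ _) hw
  have h5 : w.den ≤ B := le_trans (le_max_right _ _) hw
  have h6 : z.natAbs ≤ w.num.natAbs + n ^ 2 * w.den := by
    rw [hz]
    refine (Int.natAbs_sub_le _ _).trans ?_
    rw [Int.natAbs_mul, Int.natAbs_pow, Int.natAbs_natCast, Int.natAbs_natCast]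
  have h7 : 1 ≤ n ^ 2 := Nat.one_le_pow _ _ hn
  have h8 : n ^ 2 * w.den ≤ n ^ 2 * B := Nat.mul_le_mul_left _ h5
  have h9 : B ≤ n ^ 2 * B := Nat.le_mul_of_pos_left _ h7
  have : 3 ^ N ≤ 2 * n ^ 2 * B := by
    calc 3 ^ N ≤ w.num.natAbs + n ^ 2 * w.den := h3.trans h6
      _ ≤ n ^ 2 * B + n ^ 2 * B := by omega
      _ = 2 * n ^ 2 * B := by ring
  omega

lemma H_sq (n : ℕ) (hn : 1 ≤ n) : H ((n : ℚ) ^ 2) = n ^ 2 := by
  have := H_div (a := n ^ 2) (b := 1) one_pos (Nat.coprime_one_right _)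
  push_cast at this
  rw [div_one] at this
  rw [this]
  exact max_eq_left (Nat.one_le_pow _ _ hn)

lemma aux_one {κ C n c m : ℝ} (hκ : 0 < κ) (hC : 0 ≤ C) (hn : 1 ≤ n) (hc : 1 ≤ c)
    (h : 1 + C ≤ 4 * κ * (c - 1)) (hm : m = n + c) :
    2 * n ≤ κ * (2 * m + 1) ^ 2 - C := by
  have h3 : 1 + C ≤ 4 * κ * c := by linarith only [hκ, h]
  have h4 : 8 * n * c + 4 * c ^ 2 ≤ (2 * m + 1) ^ 2 := by rw [hm]; nlinarith only [hn, hc]
  have h5 : κ * (8 * n * c + 4 * c ^ 2) ≤ κ * (2 * m + 1) ^ 2 :=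
    mul_le_mul_of_nonneg_left h4 hκ.le
  have h6 : 2 * n * (1 + C) ≤ 2 * n * (4 * κ * c) :=
    mul_le_mul_of_nonneg_left h3 (by linarith only [hn])
  have h7 : c * (1 + C) ≤ c * (4 * κ * c) :=
    mul_le_mul_of_nonneg_left h3 (by linarith)
  have h8 : 0 ≤ n * C := by positivity
  have h9 : C ≤ c * C := le_mul_of_one_le_left hC hc
  linarith only [hc, h5, h6, h7, h8, h9]

lemma aux_two {κ C lK c2 Q n m ln lH l2 l3 i : ℝ} (hκ : 0 < κ) (hC : 0 ≤ C) (hlK : 0 ≤ lK)
    (hQ : Q = (m + 1) ^ 2) (hc2 : 3 + lK + C + 4 * κ ≤ c2) (hi : i = c2 * Q) (hn : 1 ≤ n)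
    (hm : n ≤ m) (hln : ln ≤ n) (hlH : lH ≤ κ * (2 * m + 1) ^ 2 + C) (hl2 : l2 ≤ 1)
    (hl3 : 1 ≤ l3) : l2 + 2 * ln + (lK + lH) < (4 + 4 * i) * l3 := by
  have hQ1 : 1 ≤ Q := by rw [hQ]; nlinarith only [hn, hm]
  have hi0 : (3 + lK + C + 4 * κ) * Q ≤ i := by
    rw [hi]; exact mul_le_mul_of_nonneg_right hc2 (by linarith)
  obtain ⟨A, hA⟩ : ∃ A, A = (3 + lK + C + 4 * κ) * Q := ⟨_, rfl⟩
  have hA0 : 0 ≤ A := by rw [hA]; positivity
  have h1 : κ * (2 * m + 1) ^ 2 ≤ 4 * κ * Q := by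
    have : (2 * m + 1) ^ 2 ≤ 4 * Q := by rw [hQ]; linarith only [hn, hm]
    nlinarith only [hκ, hQ, hn, hm]
  have h2 : lK + C ≤ (lK + C) * Q := le_mul_of_one_le_right (by (clear * - hlK hC; positivity)) hQ1
  have h3 : 2 * n ≤ 3 * Q := by rw [hQ]; nlinarith only [hm]
  have h4 : 3 * Q + (lK + C) * Q + 4 * κ * Q = A := by rw [hA]; ring
  have h5 : (4 + 4 * i) * 1 ≤ (4 + 4 * i) * l3 :=
    mul_le_mul_of_nonneg_left hl3 (by linarith only [hi0, hA, hA0])
  linarith only [hln, hlH, hl2, hi0, hA, hA0, h1, h2, h3, h5]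

theorem evalIff (K : ℕ) (hK : 1 ≤ K) : EvalIff K := by
  obtain ⟨κ, C, hκ, hC⟩ := odd_growth
  have hC0 : 0 ≤ C := le_trans (abs_nonneg _) (hC 1 _ odd_one (hasX_odd odd_one))
  obtain ⟨c, hc⟩ := exists_nat_ge ((1 + C) / (4 * κ) + 1)
  obtain ⟨c2, hc2⟩ := exists_nat_ge (3 + Real.log K + C + 4 * κ)
  have hlK : 0 ≤ Real.log K := Real.log_nonneg (by exact_mod_cast hK)
  refine ⟨c, c2, fun R hR n w hn => ?_⟩
  obtain ⟨m, hm⟩ : ∃ m, m = n + c := ⟨_, rfl⟩
  obtain ⟨i, hi⟩ : ∃ i, i = c2 * (n + c + 1) ^ 2 := ⟨_, rfl⟩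
  rw [← hi, ← hm]
  -- heights
  have hgr := hC (2 * (m : ℤ) + 1) _ ⟨_, rfl⟩ (hasX_odd ⟨_, rfl⟩)
  have hxm : xc ((2 * (m : ℤ) + 1) • P0) = xc (ix (m : ℤ)) := rfl
  rw [hxm, abs_le] at hgr
  obtain ⟨Hm, hHm⟩ : ∃ Hm, Hm = H (xc (ix (m : ℤ))) := ⟨_, rfl⟩
  rw [← hHm] at hgr
  have hHm1 : 1 ≤ Hm := by
    rw [hHm]
    exact le_trans (Rat.den_pos _) (le_max_right _ _)
  have hHmR : (0 : ℝ) < Hm := by exact_mod_cast hHm1
  have hnR : (1 : ℝ) ≤ n := by exact_mod_cast hn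
  have hmR : (m : ℝ) = n + c := by rw [hm]; push_cast; ring
  have hcR : (1 + C) ≤ 4 * κ * (c - 1) := by
    have h1 : (1 + C) / (4 * κ) ≤ c - 1 := by linarith only [hc]
    rw [div_le_iff₀ (by positivity)] at h1
    linarith only [h1]
  have hlogn : Real.log n ≤ n := (Real.log_le_sub_one_of_pos (by linarith only [hnR])).trans (by linarith only [])
  have hc1 : (1 : ℝ) ≤ c := by
    have : 0 ≤ (1 + C) / (4 * κ) := by positivity
    linarith only [hc, this]
  push_cast at hgr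
  have hfwd : n ^ 2 ≤ Hm := by
    have h1 : Real.log ((n : ℝ) ^ 2) ≤ Real.log Hm := by
      rw [Real.log_pow]
      push_cast
      have h2 := aux_one hκ hC0 hnR hc1 hcR hmR
      linarith only [hlogn, hgr, h2]
    have h2 : ((n : ℝ) ^ 2) ≤ Hm := (Real.log_le_log_iff (by positivity) hHmR).1 h1
    exact_mod_cast h2
  have hbig : 2 * n ^ 2 * (K * Hm) < 3 ^ (4 + 4 * i) := by
    have hKR : (0 : ℝ) < K := by exact_mod_cast hK
    have h1 : Real.log (2 * (n : ℝ) ^ 2 * (K * Hm)) < Real.log ((3 : ℝ) ^ (4 + 4 * i)) := by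
      rw [Real.log_mul (by positivity) (by positivity), Real.log_mul (by norm_num) (by positivity),
        Real.log_mul hKR.ne' hHmR.ne', Real.log_pow, Real.log_pow]
      have h3 : (1 : ℝ) ≤ Real.log 3 := by
        rw [Real.le_log_iff_exp_le (by norm_num)]
        have := Real.exp_one_lt_d9
        linarith only [this]
      have h2 : Real.log 2 ≤ 1 := by
        have := Real.log_two_lt_d9; linarith only [this]
      have hiR : (i : ℝ) = c2 * ((m : ℝ) + 1) ^ 2 := by rw [hi, hmR]; push_cast; ring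
      push_cast
      exact aux_two hκ hC0 hlK rfl hc2 hiR hnR (by rw [hmR]; linarith only []) hlogn
        (by linarith only [hgr]) h2 h3
    have h2 : (2 * (n : ℝ) ^ 2 * (K * Hm)) < (3 : ℝ) ^ (4 + 4 * i) :=
      (Real.log_lt_log_iff (by (clear * - hn hK hHm1; positivity)) (by positivity)).1 h1
    exact_mod_cast h2
  -- the three-adic part
  obtain ⟨x, hx, hval⟩ := val_four (k := ((3 ^ i : ℕ) : ℤ)) (by positivity)
  have hv3 : padicValInt 3 ((3 ^ i : ℕ) : ℤ) = i := by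
    rw [padicValInt.of_nat]
    exact padicValNat.prime_pow i
  rw [hv3] at hval
  have hx' : HasX ((4 * 3 ^ i : ℕ) • P0) x := by
    have e : (4 * ((3 ^ i : ℕ) : ℤ)) • P0 = (4 * 3 ^ i : ℕ) • P0 := by
      rw [← natCast_zsmul]; push_cast; rfl
    rw [← e]; exact hx
  obtain ⟨V, hV⟩ : ∃ V : EC.Point, V = (4 * 3 ^ i : ℕ) • P0 := ⟨_, rfl⟩
  rw [← hV] at hx' ⊢
  have hx0 : x ≠ 0 := by
    rintro rfl
    rw [padicValRat.zero] at hval
    (clear * - hi hv3 hval; omega)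
  have hnx : padicNorm 3 x = (3 : ℚ) ^ (2 + 2 * i) := by
    rw [norm_eq_zpow 3 hx0, hval]
    rw [← zpow_natCast]
    push_cast
    congr 1
    ring
  have h9 : 9 ≤ padicNorm 3 x := by
    rw [hnx, pow_add]
    have : (1 : ℚ) ≤ 3 ^ (2 * i) := one_le_pow₀ (by norm_num)
    linarith only [this]
  obtain ⟨x', hx'', hcong⟩ := sq_congr hx' h9 hn
  rw [xc_of_hasX hx', xc_of_hasX hx'']
  constructor
  · intro hw
    refine ⟨(hR _ _).1 ?_, val_of_norm_le_one ?_⟩
    · rw [hw, H_sq n hn, ← hHm]; exact hfwd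
    · rw [hw, padicNorm.mul, pow_two x, padicNorm.mul, ← pow_two]
      exact hcong
  · rintro ⟨h1, h2⟩
    have h3 := (hR _ _).2 h1
    rw [← hHm] at h3
    have h4 := norm_le_one_of_val h2
    rw [padicNorm.mul, pow_two x, padicNorm.mul, ← pow_two] at h4
    refine int_of_close hn h3 hbig ?_
    have hxp : 0 < padicNorm 3 x ^ 2 := by (clear * - h9; positivity)
    have e : w - (n : ℚ) ^ 2 = (x / x' - (n : ℚ) ^ 2) + -(x / x' - w) := by ring
    have h5 : padicNorm 3 (w - (n : ℚ) ^ 2) * padicNorm 3 x ^ 2 ≤ 1 := by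
      rw [e]
      have := padicNorm.nonarchimedean (p := 3) (q := x / x' - (n : ℚ) ^ 2) (r := -(x / x' - w))
      rw [padicNorm.neg] at this
      rcases le_max_iff.1 this with h6 | h6
      · exact (mul_le_mul_of_nonneg_right h6 hxp.le).trans hcong
      · exact (mul_le_mul_of_nonneg_right h6 hxp.le).trans h4
    rw [zpow_neg, zpow_natCast, ← one_div, le_div_iff₀ (by positivity)]
    have e2 : (3 : ℚ) ^ (4 + 4 * i) = padicNorm 3 x ^ 2 := by
      rw [hnx, ← pow_mul]; congr 1; ring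
    rw [e2]
    exact h5

/-- FINAL: recursively enumerable sets of tuples of natural numbers are definable -/
theorem final (K : ℕ) (hK : 1 ≤ K) (n : ℕ) (S : Set (Fin n → ℕ)) (hS : REPred (fun a => a ∈ S)) :
    ∃ (m : ℕ) (g : MvPolynomial (Fin n ⊕ Fin m) ℤ)
      (L : List ((Fin n ⊕ Fin m) × (Fin n ⊕ Fin m))), ∀ R, Coarse K R → ∀ x : Fin n → ℚ,
      ((∃ a : Fin n → ℕ, a ∈ S ∧ ∀ i, x i = a i) ↔
        ∃ y : Fin m → ℚ, MvPolynomial.aeval (Sum.elim x y) g = 0 ∧
          ∀ ij ∈ L, R (Sum.elim x y ij.1) (Sum.elim x y ij.2)) :=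
  final_of hK (evalIff K hK) n S hS

end Vale.Agent.P027.HT
end
end

section

section

/-! The integers are definable. -/

namespace Vale.Agent.P027.HT

open Vale.Agent.P345

/-- the integers are definable -/
theorem final_int (K : ℕ) (hK : 1 ≤ K) :
    ∃ (m : ℕ) (g : MvPolynomial (Fin 1 ⊕ Fin m) ℤ)
      (L : List ((Fin 1 ⊕ Fin m) × (Fin 1 ⊕ Fin m))), ∀ R, Coarse K R → ∀ x : Fin 1 → ℚ,
      ((∃ z : ℤ, x 0 = z) ↔
        ∃ y : Fin m → ℚ, MvPolynomial.aeval (Sum.elim x y) g = 0 ∧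
          ∀ ij ∈ L, R (Sum.elim x y ij.1) (Sum.elim x y ij.2)) := by
  refine HD.finite (S := fun _ x => ∃ z : ℤ, x 0 = z) ?_
  have hN : ∀ {q : (ℕ → ℚ) → ℚ}, DioFn q → HD K (fun _ v => ∃ n : ℕ, q v = n) := by
    intro q hq
    have h := HD.exP (S := fun _ P v => ∃ n : ℕ, P = ix n ∧ q v = n)
      (hd_value hK (evalIff K hK) hq.tl.tl (DPt.var 0))
    refine h.congr (fun R _ v => ⟨?_, ?_⟩)
    · rintro ⟨n, hn⟩
      exact ⟨ix n, n, rfl, hn⟩
    · rintro ⟨P, n, -, hn⟩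
      exact ⟨n, hn⟩
  have h : HD K (fun _ v => (∃ n : ℕ, v 0 = n) ∨ ∃ n : ℕ, -v 0 = n) :=
    (hN (DioFn.var 0)).or (hN (fn_neg (DioFn.var 0)))
  refine h.congr (fun R _ v => ?_)
  change (∃ z : ℤ, v 0 = z) ↔ _
  constructor
  · rintro ⟨z, hz⟩
    rcases Int.eq_nat_or_neg z with ⟨n, rfl | rfl⟩
    · exact Or.inl ⟨n, by rw [hz]; push_cast; rfl⟩
    · exact Or.inr ⟨n, by rw [hz]; push_cast; ring⟩
  · rintro (⟨n, hn⟩ | ⟨n, hn⟩)
    · exact ⟨n, by rw [hn]; push_cast; rfl⟩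
    · exact ⟨-n, by rw [← neg_neg (v 0), hn]; push_cast; rfl⟩

end Vale.Agent.P027.HT
end
end

section

section

/-! Finite sets of natural numbers coded by one rational number. -/

namespace Vale.Agent.P027.K2

/-- `x` has the position `n` -/
def Pos (x : ℚ) (n : ℕ) : Prop := Good x ∧ padicValRat 3 (xi x) = -2 - 2 * n

def Lower (t : ℚ) (A : Set ℕ) : Prop := ∀ n, (n ∈ A → ∃ x, Pos x n ∧ Mach t (kap x)) ∧
  (n ∉ A → ∃ x, Pos x n ∧ Out t (kap x))

def Upper (t : ℚ) (A : Set ℕ) : Prop := ∀ n x, Pos x n →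
  (Mach t (kap x) → n ∈ A) ∧ (Out t (kap x) → n ∉ A)

def Basic (t : ℚ) : Prop :=
  (t ≠ 3 ∧ 0 ≤ padicValRat 2 (4 / (t - 3))) ∨
  (0 ≤ padicValRat 3 (t / 3) ∨ 0 ≤ padicValRat 3 (1 / (3 * t))) ∨
  Mach (1 / t) (1 / t) ∨
  ∃ X Y : ℚ, X * Y = t ∧ Mach X Y

theorem exists_lower {t : ℚ} (h : ¬ Basic t) : ∃ A : Set ℕ, A.Finite ∧ Lower t A := by
  unfold Basic at h
  push Not at h
  obtain ⟨h1, h3, hneg, hsq⟩ := h
  have h8 : Three8 t := by
    by_contra hc
    rw [not_three8_iff] at hc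
    exact absurd hc.2 (not_le.2 (h1 hc.1))
  have ht0 := h8.val.1
  have ht2 := h8.val.2
  have ht3 : padicValRat 3 t = 0 := by
    rw [padicValRat.div ht0 (by norm_num), v33,
      padicValRat.div one_ne_zero (mul_ne_zero (by norm_num) ht0), padicValRat.one,
      padicValRat.mul (by norm_num) ht0, v33] at h3
    omega
  have hval : ∀ q, Inert q → q ≠ 3 → 0 ≤ padicValRat q t ∧ padicValRat q t ≤ 1 := by
    intro q hq hq3
    have := Fact.mk hq.1
    have hq0 : (q : ℚ) ≠ 0 := by exact_mod_cast hq.1.ne_zero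
    constructor
    · by_contra hc
      apply hneg
      have e2 : padicValRat 2 (1 / t) = 0 := by
        rw [padicValRat.div one_ne_zero ht0, padicValRat.one, ht2]; norm_num
      have eq : 1 ≤ padicValRat q (1 / t) := by
        rw [padicValRat.div one_ne_zero ht0, padicValRat.one]; omega
      exact mach_complete hq hq3 e2.ge e2.ge (Or.inr eq) (Or.inr eq)
    · by_contra hc
      refine hsq q (t / q) (by field_simp) ?_
      refine mach_complete hq hq3 (by rw [hq.v2]) ?_ (Or.inr (by rw [vself hq.1])) (Or.inr ?_)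
      · rw [padicValRat.div ht0 hq0, ht2, hq.v2]; norm_num
      · rw [padicValRat.div ht0 hq0, vself hq.1]; omega
  choose xs hgood hpos using ec_exists
  have hkap : ∀ n, kap (xs n) ≠ 0 ∧ padicValRat 2 (kap (xs n)) = 0 := fun n => ec_two (hgood n)
  have hcomp : ∀ n, ¬ Mach t (kap (xs n)) → Out t (kap (xs n)) := by
    intro n hm
    by_contra ho
    exact hm (out_or_mach h8 ht3 hval (hkap n).1 (hkap n).2 ho)
  have hfin : {n | Mach t (kap (xs n))}.Finite := by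
    have hp : ∀ n, ∃ q, Mach t (kap (xs n)) → (Inert q ∧ q ≠ 3 ∧ 1 ≤ padicValRat q t ∧
        1 ≤ padicValRat q (kap (xs n))) := by
      intro n
      by_cases hm : Mach t (kap (xs n))
      · obtain ⟨q, hq, hq3, h1, h2⟩ := mach_sound hm
        exact ⟨q, fun _ => ⟨hq, hq3, h1.resolve_left ht0, h2.resolve_left (hkap n).1⟩⟩
      · exact ⟨0, fun h => absurd h hm⟩
    choose qs hqs using hp
    have hsub : qs '' {n | Mach t (kap (xs n))} ⊆ ↑(t.num.natAbs.primeFactors) := by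
      rintro q ⟨n, hn, rfl⟩
      obtain ⟨hq, hq3, h1, h2⟩ := hqs n hn
      rw [Finset.mem_coe, Nat.mem_primeFactors]
      refine ⟨hq.1, ?_, by simpa using ht0⟩
      by_contra hd
      have : padicValInt (qs n) t.num = 0 :=
        padicValInt.eq_zero_of_not_dvd (fun h => hd (Int.natCast_dvd.1 h))
      have h5 : (0 : ℤ) ≤ (padicValNat (qs n) t.den : ℤ) := Int.natCast_nonneg _
      rw [padicValRat_def, this] at h1
      omega
    refine Set.Finite.of_finite_image ((Finset.finite_toSet _).subset hsub) ?_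
    intro n hn m hm hnm
    obtain ⟨hq, hq3, h1, h2⟩ := hqs n hn
    obtain ⟨hq', hq3', h1', h2'⟩ := hqs m hm
    rw [← hnm] at h2'
    have := ec_unique hq hq3 (hgood n) (hgood m) (by omega) (by omega)
    rw [hpos, hpos] at this
    omega
  refine ⟨_, hfin, fun n => ⟨fun hn => ?_, fun hn => ?_⟩⟩
  · rw [Set.mem_ofPred_eq] at hn
    exact ⟨xs n, ⟨hgood n, hpos n⟩, hn⟩
  · rw [Set.mem_ofPred_eq] at hn
    exact ⟨xs n, ⟨hgood n, hpos n⟩, hcomp n hn⟩

/-- arbitrarily large codes -/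
theorem exists_code17 (S : Finset ℕ) (hS : ∀ q ∈ S, Inert q) (hodd : S.card % 2 = 1) (j : ℕ) :
    ∃ t : ℤ, 17 ^ j ≤ t.natAbs ∧ Three8 (t : ℚ) ∧
      ∀ p, Inert p → padicValRat p (t : ℚ) = if p ∈ S then 1 else 0 := by
  have hv := fun p hp => prod_val S (fun q hq => (hS q hq).1) (p := p) hp
  have hpos : 0 < ∏ q ∈ S, q := Finset.prod_pos (fun q hq => (hS q hq).1.pos)
  have h17 : ∀ p, Inert p → padicValRat p ((17 : ℚ) ^ j) = 0 := by
    intro p hp
    have := Fact.mk hp.1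
    rw [padicValRat.pow]
    have h : padicValRat p ((17 : ℕ) : ℚ) = 0 := by
      refine vprime hp.1 (by norm_num) ?_
      rintro rfl
      rcases hp.2 with h | h <;> norm_num at h
    rw [show (17 : ℚ) = ((17 : ℕ) : ℚ) by norm_num, h, mul_zero]
  have h178 : (17 ^ j) % 8 = 1 := by
    rw [Nat.pow_mod]; norm_num
  have hle : 17 ^ j ≤ (∏ q ∈ S, q) * 17 ^ j := Nat.le_mul_of_pos_left _ hpos
  have hval : ∀ p, Inert p → padicValRat p ((((∏ q ∈ S, q) * 17 ^ j : ℕ) : ℤ) : ℚ) =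
      if p ∈ S then 1 else 0 := by
    intro p hp
    have := Fact.mk hp.1
    have h0 : ((∏ q ∈ S, q : ℕ) : ℚ) ≠ 0 := by exact_mod_cast hpos.ne'
    have e : ((((∏ q ∈ S, q) * 17 ^ j : ℕ) : ℤ) : ℚ) = ((∏ q ∈ S, q : ℕ) : ℚ) * 17 ^ j := by
      push_cast; ring
    rw [e, padicValRat.mul h0 (by positivity), hv p hp.1, h17 p hp, add_zero]
  rcases (prod_mod S hS).2 hodd with h | h
  · refine ⟨(((∏ q ∈ S, q) * 17 ^ j : ℕ) : ℤ), by rw [Int.natAbs_natCast]; exact hle, ?_, hval⟩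
    obtain ⟨k, hk⟩ : ∃ k, (∏ q ∈ S, q) * 17 ^ j = 8 * k + 3 := by
      have : ((∏ q ∈ S, q) * 17 ^ j) % 8 = 3 := by rw [Nat.mul_mod, h, h178]
      exact ⟨((∏ q ∈ S, q) * 17 ^ j) / 8, by omega⟩
    unfold Three8
    rw [hk]
    have : ((((8 * k + 3 : ℕ) : ℤ) : ℚ) - 3) / 8 = (k : ℚ) := by push_cast; ring
    rw [this]
    exact zero_le_padicValRat_of_nat k
  · refine ⟨-(((∏ q ∈ S, q) * 17 ^ j : ℕ) : ℤ), by
      rw [Int.natAbs_neg, Int.natAbs_natCast]; exact hle, ?_, fun p hp => by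
        rw [Int.cast_neg, padicValRat.neg, hval p hp]⟩
    obtain ⟨k, hk⟩ : ∃ k, (∏ q ∈ S, q) * 17 ^ j = 8 * k + 5 := by
      have : ((∏ q ∈ S, q) * 17 ^ j) % 8 = 5 := by rw [Nat.mul_mod, h, h178]
      exact ⟨((∏ q ∈ S, q) * 17 ^ j) / 8, by (clear * - this; omega)⟩
    unfold Three8
    rw [hk]
    have : (((-((8 * k + 5 : ℕ) : ℤ) : ℤ) : ℚ) - 3) / 8 = -((k + 1 : ℕ) : ℚ) := by
      push_cast; ring
    rw [this, padicValRat.neg]
    exact zero_le_padicValRat_of_nat _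

theorem exists_upper {A : Set ℕ} (hA : A.Finite) (j : ℕ) :
    ∃ t : ℤ, 17 ^ j ≤ t.natAbs ∧ ¬ Basic (t : ℚ) ∧ Upper (t : ℚ) A := by
  choose ps hin hp3 hps using ec_prime
  have hp5 : ∀ n, ps n ≠ 5 := by
    intro n h
    obtain ⟨x, hx, hxn⟩ := ec_exists n
    have h1 := (hps n x hx).2 hxn
    rw [h] at h1
    exact absurd (ec_five hx) (by omega)
  have h5 : Inert 5 := ⟨by norm_num, Or.inr (by norm_num)⟩
  obtain ⟨S, hS1, hS2, hS3⟩ : ∃ S : Finset ℕ, (∀ q ∈ S, q = 5 ∨ ∃ n ∈ A, q = ps n) ∧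
      (∀ n ∈ A, ps n ∈ S) ∧ S.card % 2 = 1 := by
    have hmem : ∀ q, q ∈ hA.toFinset.image ps → ∃ n ∈ A, q = ps n := by
      intro q hq
      obtain ⟨n, hn, rfl⟩ := Finset.mem_image.1 hq
      exact ⟨n, hA.mem_toFinset.1 hn, rfl⟩
    have hmem' : ∀ n ∈ A, ps n ∈ hA.toFinset.image ps := fun n hn =>
      Finset.mem_image_of_mem _ (hA.mem_toFinset.2 hn)
    have h5' : 5 ∉ hA.toFinset.image ps := by
      intro h
      obtain ⟨n, -, h⟩ := hmem 5 h
      exact hp5 n h.symm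
    rcases Nat.mod_two_eq_zero_or_one (hA.toFinset.image ps).card with h | h
    · refine ⟨insert 5 (hA.toFinset.image ps), ?_, ?_, ?_⟩
      · intro q hq
        rcases Finset.mem_insert.1 hq with h | h
        · exact Or.inl h
        · exact Or.inr (hmem q h)
      · intro n hn
        exact Finset.mem_insert_of_mem (hmem' n hn)
      · rw [Finset.card_insert_of_notMem h5']
        omega
    · exact ⟨hA.toFinset.image ps, fun q hq => Or.inr (hmem q hq), hmem', h⟩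
  have hSin : ∀ q ∈ S, Inert q := by
    intro q hq
    rcases hS1 q hq with h | ⟨n, -, h⟩
    · rw [h]; exact h5
    · rw [h]; exact hin n
  obtain ⟨τ, hlarge, h8, hv⟩ := exists_code17 S hSin hS3 j
  set t : ℚ := (τ : ℚ) with htdef
  have ht0 := h8.val.1
  have hle : ∀ q, Inert q → padicValRat q t ≤ 1 ∧ 0 ≤ padicValRat q t := by
    intro q hq
    rw [hv q hq]
    split_ifs <;> norm_num
  have ht3 : padicValRat 3 t = 0 := by
    rw [hv 3 ⟨Nat.prime_three, Or.inl rfl⟩, if_neg]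
    intro h
    rcases hS1 3 h with h | ⟨n, -, h⟩
    · norm_num at h
    · exact hp3 n h.symm
  refine ⟨τ, hlarge, ?_, ?_⟩
  · rw [← htdef]
    unfold Basic
    rintro (h | h | h | h)
    · exact not_three8_iff.2 h h8
    · rw [padicValRat.div ht0 (by norm_num), v33,
        padicValRat.div one_ne_zero (mul_ne_zero (by norm_num) ht0), padicValRat.one,
        padicValRat.mul (by norm_num) ht0, v33] at h
      omega
    · obtain ⟨q, hq, -, h1, -⟩ := mach_sound h
      have := Fact.mk hq.1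
      rcases h1 with h1 | h1
      · exact absurd h1 (by simpa using ht0)
      · rw [padicValRat.div one_ne_zero ht0, padicValRat.one] at h1
        have := hle q hq
        omega
    · obtain ⟨X, Y, hXY, hm⟩ := h
      obtain ⟨q, hq, -, h1, h2⟩ := mach_sound hm
      have := Fact.mk hq.1
      have hX0 : X ≠ 0 := by rintro rfl; apply ht0; rw [← hXY]; simp
      have hY0 : Y ≠ 0 := by rintro rfl; apply ht0; rw [← hXY]; simp
      have h3 := hle q hq
      rw [← hXY, padicValRat.mul hX0 hY0] at h3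
      have h4 := h1.resolve_left hX0
      have h5 := h2.resolve_left hY0
      omega
  · rintro nx x ⟨hx, hnx⟩
    refine ⟨fun hm => ?_, fun ho hn => ?_⟩
    · obtain ⟨q, hq, hq3, h1, h2⟩ := mach_sound hm
      have h1' := h1.resolve_left ht0
      have h2' := h2.resolve_left (ec_two hx).1
      have hqS : q ∈ S := by
        by_contra hc
        rw [← htdef, hv q hq, if_neg hc] at h1'
        omega
      rcases hS1 q hqS with h | ⟨n, hn, h⟩
      · rw [h] at h2'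
        exact absurd (ec_five hx) (by omega)
      · rw [h] at h2'
        have h3 := (hps n x hx).1 (by omega)
        rw [hnx] at h3
        have h4 : nx = n := by omega
        rw [h4]; exact hn
    · have h1 := (hps nx x hx).2 hnx
      have h2 := out_sound (ec_two hx).1 ht0 (hin nx)
        (by rw [hv _ (hin nx), if_pos (hS2 nx hn)]) ho
      omega

end Vale.Agent.P027.K2
end
end

section

section

/-! Predicates of finite sets and natural numbers that are represented by Diophantine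
predicates over the rationals. -/

namespace Vale.Agent.P027.K2

def nc (n : ℕ) (e : ℕ → ℕ) : ℕ → ℕ := fun i => Nat.rec n (fun j _ => e j) i

theorem nc_zero (n : ℕ) (e : ℕ → ℕ) : nc n e 0 = n := rfl
theorem nc_succ (n : ℕ) (e : ℕ → ℕ) (i : ℕ) : nc n e (i + 1) = e i := rfl

/-- `v (i + 1)` encodes the natural number `e i` by its three-adic valuation -/
def Enc (v : ℕ → ℚ) (e : ℕ → ℕ) : Prop := ∀ i, v (i + 1) ≠ 0 ∧ padicValRat 3 (v (i + 1)) = e i

def sub (c d : ℕ) (A : Set ℕ) : Set ℕ := {n | c * n + d ∈ A}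

theorem mem_sub {c d n : ℕ} {A : Set ℕ} : n ∈ sub c d A ↔ c * n + d ∈ A := Iff.rfl

def Rep (S : Set ℕ → (ℕ → ℕ) → Prop) : Prop := ∀ c d : ℕ,
  ∃ V : (ℕ → ℚ) → Prop, Dio V ∧ ∀ v e A, Enc v e →
    (Upper (v 0) A → V v → S (sub c d A) e) ∧ (Lower (v 0) A → S (sub c d A) e → V v)

theorem Rep.congr {S T : Set ℕ → (ℕ → ℕ) → Prop} (h : Rep S) (e : ∀ A e, T A e ↔ S A e) :
    Rep T := by
  have : T = S := by funext A x; exact propext (e A x)
  rwa [this]

theorem Rep.and {S T : Set ℕ → (ℕ → ℕ) → Prop} (hS : Rep S) (hT : Rep T) :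
    Rep (fun A e => S A e ∧ T A e) := by
  intro c d
  obtain ⟨V, hV, h⟩ := hS c d
  obtain ⟨W, hW, h'⟩ := hT c d
  refine ⟨_, hV.and hW, fun v e A he => ⟨fun hU hx => ?_, fun hL hx => ?_⟩⟩
  · exact ⟨(h v e A he).1 hU hx.1, (h' v e A he).1 hU hx.2⟩
  · exact ⟨(h v e A he).2 hL hx.1, (h' v e A he).2 hL hx.2⟩

theorem Rep.or {S T : Set ℕ → (ℕ → ℕ) → Prop} (hS : Rep S) (hT : Rep T) :
    Rep (fun A e => S A e ∨ T A e) := by
  intro c d
  obtain ⟨V, hV, h⟩ := hS c d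
  obtain ⟨W, hW, h'⟩ := hT c d
  refine ⟨_, hV.or hW, fun v e A he => ⟨fun hU hx => ?_, fun hL hx => ?_⟩⟩
  · exact hx.imp ((h v e A he).1 hU) ((h' v e A he).1 hU)
  · exact hx.imp ((h v e A he).2 hL) ((h' v e A he).2 hL)

def sw (i : ℕ) : ℕ := if i = 0 then 1 else if i = 1 then 0 else i

theorem sw_two (i : ℕ) : sw (i + 2) = i + 2 := by
  unfold sw
  rw [if_neg (by omega), if_neg (by omega)]

theorem Enc.cons {v : ℕ → ℚ} {e : ℕ → ℕ} (h : Enc v e) {u : ℚ} {n : ℕ} (hu : u ≠ 0)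
    (hn : padicValRat 3 u = n) : Enc (fun i => cns u v (sw i)) (nc n e) := by
  intro i
  rcases i with _ | i
  · exact ⟨hu, hn⟩
  · rw [nc_succ]
    simp only
    rw [show i + 1 + 1 = i + 2 from rfl, sw_two, cns_succ]
    exact h i

theorem Rep.ex {S : Set ℕ → (ℕ → ℕ) → Prop} (hS : Rep S) :
    Rep (fun A e => ∃ n, S A (nc n e)) := by
  intro c d
  obtain ⟨V, hV, h⟩ := hS c d
  refine ⟨fun v => ∃ u : ℚ, (u ≠ 0 ∧ 0 ≤ padicValRat 3 u) ∧ V (fun i => cns u v (sw i)), ?_, ?_⟩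
  · refine Dio.ex (S := fun u v => (u ≠ 0 ∧ 0 ≤ padicValRat 3 u) ∧ V (fun i => cns u v (sw i))) ?_
    refine ((Dio.ne (DioFn.var 0) zero_fn).and (dio_int3 (DioFn.var 0))).and ?_
    refine (hV.ren sw).congr (fun v => ?_)
    rw [cns_tl]
  · intro v e A he
    refine ⟨fun hU hx => ?_, fun hL hx => ?_⟩
    · obtain ⟨u, ⟨hu, h3⟩, hx⟩ := hx
      obtain ⟨n, hn⟩ := Int.eq_ofNat_of_zero_le h3
      exact ⟨n, (h _ _ A (he.cons hu hn)).1 hU hx⟩
    · obtain ⟨n, hx⟩ := hx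
      have hn : padicValRat 3 ((3 : ℚ) ^ n) = n := by
        rw [padicValRat.pow, v33, mul_one]
      have h0 : (3 : ℚ) ^ n ≠ 0 := by positivity
      exact ⟨3 ^ n, ⟨h0, by rw [hn]; omega⟩, (h _ _ A (he.cons h0 hn)).2 hL hx⟩

/-- linear functions of the natural numbers -/
def LinF (f : (ℕ → ℕ) → ℕ) : Prop := ∃ g : (ℕ → ℚ) → ℚ, DioFn g ∧ ∀ v e, Enc v e →
  g v ≠ 0 ∧ padicValRat 3 (g v) = f e

theorem LinF.var (i : ℕ) : LinF (fun e => e i) :=
  ⟨fun v => v (i + 1), DioFn.var _, fun _ _ h => h i⟩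

theorem LinF.const (n : ℕ) : LinF (fun _ => n) := by
  refine ⟨fun _ => 3 ^ n, (lit_fn 3).pow n, fun _ _ _ => ⟨by positivity, ?_⟩⟩
  rw [padicValRat.pow, v33, mul_one]

theorem LinF.add {f g : (ℕ → ℕ) → ℕ} (hf : LinF f) (hg : LinF g) : LinF (fun e => f e + g e) := by
  obtain ⟨F, hF, h⟩ := hf
  obtain ⟨G, hG, h'⟩ := hg
  refine ⟨_, hF.mul hG, fun v e he => ⟨mul_ne_zero (h v e he).1 (h' v e he).1, ?_⟩⟩
  rw [padicValRat.mul (h v e he).1 (h' v e he).1, (h v e he).2, (h' v e he).2]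
  push_cast; ring

theorem LinF.smul {f : (ℕ → ℕ) → ℕ} (c : ℕ) (hf : LinF f) : LinF (fun e => c * f e) := by
  obtain ⟨F, hF, h⟩ := hf
  refine ⟨_, hF.pow c, fun v e he => ⟨pow_ne_zero _ (h v e he).1, ?_⟩⟩
  rw [padicValRat.pow, (h v e he).2]
  push_cast; ring

theorem Rep.eq {f g : (ℕ → ℕ) → ℕ} (hf : LinF f) (hg : LinF g) :
    Rep (fun _ e => f e = g e) := by
  intro c d
  obtain ⟨F, hF, h⟩ := hf
  obtain ⟨G, hG, h'⟩ := hg
  refine ⟨fun v => U3 (F v / G v), dio_U3 (hF.div hG), fun v e A he => ?_⟩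
  have key : U3 (F v / G v) ↔ f e = g e := by
    have hF0 := (h v e he).1
    have hG0 := (h' v e he).1
    rw [U3_iff (div_ne_zero hF0 hG0), padicValRat.div hF0 hG0, (h v e he).2, (h' v e he).2]
    omega
  exact ⟨fun _ => key.1, fun _ => key.2⟩

theorem Rep.le {f g : (ℕ → ℕ) → ℕ} (hf : LinF f) (hg : LinF g) :
    Rep (fun _ e => f e ≤ g e) := by
  intro c d
  obtain ⟨F, hF, h⟩ := hf
  obtain ⟨G, hG, h'⟩ := hg
  refine ⟨fun v => 0 ≤ padicValRat 3 (G v / F v), dio_int3 (hG.div hF), fun v e A he => ?_⟩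
  have key : 0 ≤ padicValRat 3 (G v / F v) ↔ f e ≤ g e := by
    have hF0 := (h v e he).1
    have hG0 := (h' v e he).1
    rw [padicValRat.div hG0 hF0, (h v e he).2, (h' v e he).2]
    omega
  exact ⟨fun _ => key.1, fun _ => key.2⟩

theorem Rep.lt {f g : (ℕ → ℕ) → ℕ} (hf : LinF f) (hg : LinF g) :
    Rep (fun _ e => f e < g e) :=
  (Rep.le (hf.add (LinF.const 1)) hg).congr (fun _ _ => Nat.lt_iff_add_one_le)

theorem Rep.ne {f g : (ℕ → ℕ) → ℕ} (hf : LinF f) (hg : LinF g) :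
    Rep (fun _ e => f e ≠ g e) :=
  ((Rep.lt hf hg).or (Rep.lt hg hf)).congr (fun _ _ => ne_iff_lt_or_gt)

theorem pos_iff {x u : ℚ} {n m : ℕ} (hx : padicValRat 3 (xi x) = -2 - 2 * n) (hu : u ≠ 0)
    (hm : padicValRat 3 u = m) : U3 (xi x * (9 * u ^ 2)) ↔ n = m := by
  have hx0 := xi_ne hx
  have hu2 : u ^ 2 ≠ 0 := pow_ne_zero _ hu
  rw [U3_iff (mul_ne_zero hx0 (mul_ne_zero (by norm_num) hu2)),
    padicValRat.mul hx0 (mul_ne_zero (by norm_num) hu2),
    padicValRat.mul (by norm_num) hu2, padicValRat.pow, v39, hx, hm]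
  push_cast
  omega

theorem Rep.mem {f : (ℕ → ℕ) → ℕ} (hf : LinF f) : Rep (fun A e => f e ∈ A) := by
  intro c d
  obtain ⟨F, hF, h⟩ := (hf.smul c).add (LinF.const d)
  refine ⟨fun v => ∃ x : ℚ, Good x ∧ U3 (xi x * (9 * (F v) ^ 2)) ∧ Mach (v 0) (kap x), ?_, ?_⟩
  · refine Dio.ex (S := fun x v => Good x ∧ U3 (xi x * (9 * (F v) ^ 2)) ∧ Mach (v 0) (kap x)) ?_
    exact (dio_good (DioFn.var 0)).and ((dio_U3 ((fn_xi (DioFn.var 0)).mul
      ((lit_fn 9).mul (hF.tl.pow 2)))).and (dio_mach (DioFn.var 1) (fn_kap (DioFn.var 0))))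
  · intro v e A he
    obtain ⟨h0, h3⟩ := h v e he
    refine ⟨fun hU hx => ?_, fun hL hx => ?_⟩
    · obtain ⟨x, hg, hu, hm⟩ := hx
      obtain ⟨n, hn⟩ := ec_pos hg
      rw [pos_iff hn h0 h3] at hu
      have hu' : n = c * f e + d := hu
      rw [mem_sub, ← hu']
      exact (hU n x ⟨hg, hn⟩).1 hm
    · obtain ⟨x, ⟨hg, hn⟩, hm⟩ := (hL _).1 (mem_sub.1 hx)
      exact ⟨x, hg, (pos_iff hn h0 h3).2 rfl, hm⟩

theorem Rep.nmem {f : (ℕ → ℕ) → ℕ} (hf : LinF f) : Rep (fun A e => f e ∉ A) := by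
  intro c d
  obtain ⟨F, hF, h⟩ := (hf.smul c).add (LinF.const d)
  refine ⟨fun v => ∃ x : ℚ, Good x ∧ U3 (xi x * (9 * (F v) ^ 2)) ∧ Out (v 0) (kap x), ?_, ?_⟩
  · refine Dio.ex (S := fun x v => Good x ∧ U3 (xi x * (9 * (F v) ^ 2)) ∧ Out (v 0) (kap x)) ?_
    exact (dio_good (DioFn.var 0)).and ((dio_U3 ((fn_xi (DioFn.var 0)).mul
      ((lit_fn 9).mul (hF.tl.pow 2)))).and (dio_out (DioFn.var 1) (fn_kap (DioFn.var 0))))
  · intro v e A he
    obtain ⟨h0, h3⟩ := h v e he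
    refine ⟨fun hU hx => ?_, fun hL hx => ?_⟩
    · obtain ⟨x, hg, hu, hm⟩ := hx
      obtain ⟨n, hn⟩ := ec_pos hg
      rw [pos_iff hn h0 h3] at hu
      have hu' : n = c * f e + d := hu
      rw [mem_sub, ← hu']
      exact (hU n x ⟨hg, hn⟩).2 hm
    · obtain ⟨x, ⟨hg, hn⟩, hm⟩ := (hL _).2 (fun h => hx (mem_sub.2 h))
      exact ⟨x, hg, (pos_iff hn h0 h3).2 rfl, hm⟩

theorem sub_sub (c d c' d' : ℕ) (A : Set ℕ) :
    sub c' d' (sub c d A) = sub (c * c') (c * d' + d) A := by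
  ext n
  rw [mem_sub, mem_sub, mem_sub]
  have : c * (c' * n + d') + d = c * c' * n + (c * d' + d) := by ring
  rw [this]

theorem Rep.sub {S : Set ℕ → (ℕ → ℕ) → Prop} (hS : Rep S) (c' d' : ℕ) :
    Rep (fun A e => S (sub c' d' A) e) := by
  intro c d
  obtain ⟨V, hV, h⟩ := hS (c * c') (c * d' + d)
  refine ⟨V, hV, fun v e A he => ?_⟩
  simp only
  rw [sub_sub]
  exact h v e A he

/-- renaming of the natural variables -/
theorem Rep.ren {S : Set ℕ → (ℕ → ℕ) → Prop} (hS : Rep S) (r : ℕ → ℕ) :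
    Rep (fun A e => S A (fun i => e (r i))) := by
  intro c d
  obtain ⟨V, hV, h⟩ := hS c d
  refine ⟨fun v => V (fun i => v (Nat.rec 0 (fun j _ => r j + 1) i)), hV.ren _,
    fun v e A he => ?_⟩
  have he' : Enc (fun i => v (Nat.rec 0 (fun j _ => r j + 1) i)) (fun i => e (r i)) :=
    fun i => he (r i)
  exact h _ _ A he'

end Vale.Agent.P027.K2
end
end

section

section

/-! Relations on natural numbers certified by one finite set and a universal condition. -/

namespace Vale.Agent.P027.K2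

def Un (Φ : Set ℕ → (ℕ → ℕ) → Prop) : Prop := Rep (fun A e => ¬ Φ A e)

theorem Un.and {S T : Set ℕ → (ℕ → ℕ) → Prop} (hS : Un S) (hT : Un T) :
    Un (fun A e => S A e ∧ T A e) :=
  (Rep.or hS hT).congr (fun _ _ => not_and_or)

theorem Un.or {S T : Set ℕ → (ℕ → ℕ) → Prop} (hS : Un S) (hT : Un T) :
    Un (fun A e => S A e ∨ T A e) :=
  (Rep.and hS hT).congr (fun _ _ => not_or)

theorem Un.imp {S T : Set ℕ → (ℕ → ℕ) → Prop} (hS : Rep S) (hT : Un T) :
    Un (fun A e => S A e → T A e) :=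
  (Rep.and hS hT).congr (fun _ _ => Classical.not_imp)

theorem Un.all {S : Set ℕ → (ℕ → ℕ) → Prop} (hS : Un S) :
    Un (fun A e => ∀ n, S A (nc n e)) :=
  (Rep.ex hS).congr (fun _ _ => not_forall)

theorem Un.eq {f g : (ℕ → ℕ) → ℕ} (hf : LinF f) (hg : LinF g) : Un (fun _ e => f e = g e) :=
  Rep.ne hf hg

theorem Un.lt {f g : (ℕ → ℕ) → ℕ} (hf : LinF f) (hg : LinF g) : Un (fun _ e => f e < g e) :=
  (Rep.le hg hf).congr (fun _ _ => not_lt)

theorem Un.ne {f g : (ℕ → ℕ) → ℕ} (hf : LinF f) (hg : LinF g) : Un (fun _ e => f e ≠ g e) :=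
  (Rep.eq hf hg).congr (fun _ _ => not_not)

theorem Un.mem {f : (ℕ → ℕ) → ℕ} (hf : LinF f) : Un (fun A e => f e ∈ A) := Rep.nmem hf

theorem Un.sub {S : Set ℕ → (ℕ → ℕ) → Prop} (hS : Un S) (c d : ℕ) :
    Un (fun A e => S (sub c d A) e) := Rep.sub hS c d

theorem Un.ren {S : Set ℕ → (ℕ → ℕ) → Prop} (hS : Un S) (r : ℕ → ℕ) :
    Un (fun A e => S A (fun i => e (r i))) := Rep.ren hS r

def CE (T : (ℕ → ℕ) → Prop) : Prop := ∃ Φ, Un Φ ∧ ∀ e, T e ↔ ∃ A : Set ℕ, A.Finite ∧ Φ A e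

theorem CE.congr {S T : (ℕ → ℕ) → Prop} (h : CE S) (e : ∀ x, T x ↔ S x) : CE T := by
  have : T = S := by funext x; exact propext (e x)
  rwa [this]

theorem CE.of_un {T : (ℕ → ℕ) → Prop} (h : Un (fun _ e => T e)) : CE T :=
  ⟨_, h, fun _ => ⟨fun ht => ⟨∅, Set.finite_empty, ht⟩, fun ⟨_, _, ht⟩ => ht⟩⟩

theorem finite_sub {A : Set ℕ} (hA : A.Finite) (c d : ℕ) : (sub (c + 1) d A).Finite := by
  refine hA.preimage (Function.Injective.injOn ?_)
  intro n m h
  simp only at h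
  have : (c + 1) * n = (c + 1) * m := by omega
  exact Nat.eq_of_mul_eq_mul_left (Nat.succ_pos c) this

/-- disjoint union of finitely many sets -/
def join (r : ℕ) (B : ℕ → Set ℕ) : Set ℕ := {n | n / r ∈ B (n % r)}

theorem sub_join {r i : ℕ} (hi : i < r) (B : ℕ → Set ℕ) : sub r i (join r B) = B i := by
  ext n
  rw [mem_sub]
  change (r * n + i) / r ∈ B ((r * n + i) % r) ↔ _
  have h1 : (r * n + i) / r = n := by
    rw [Nat.mul_add_div (by omega), Nat.div_eq_of_lt hi, add_zero]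
  have h2 : (r * n + i) % r = i := by
    rw [Nat.mul_add_mod, Nat.mod_eq_of_lt hi]
  rw [h1, h2]

theorem finite_join (r : ℕ) {B : ℕ → Set ℕ} (hB : ∀ i, (B i).Finite) (hr : 0 < r) :
    (join r B).Finite := by
  have h1 : (⋃ i ∈ Finset.range r, B i).Finite :=
    Set.Finite.biUnion (Finset.finite_toSet _) (fun i _ => hB i)
  obtain ⟨N, hN⟩ := h1.bddAbove
  refine (Set.finite_le_nat (r * N + r)).subset ?_
  intro n hn
  have h2 : n / r ≤ N := by
    apply hN
    simp only [Set.mem_iUnion]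
    exact ⟨n % r, by simpa using Nat.mod_lt _ hr, hn⟩
  have h3 := Nat.div_add_mod n r
  have h4 := Nat.mod_lt n hr
  have h5 : r * (n / r) ≤ r * N := Nat.mul_le_mul_left _ h2
  change n ≤ r * N + r
  omega

theorem CE.and {S T : (ℕ → ℕ) → Prop} (hS : CE S) (hT : CE T) : CE (fun e => S e ∧ T e) := by
  obtain ⟨Φ, hΦ, h⟩ := hS
  obtain ⟨Ψ, hΨ, h'⟩ := hT
  refine ⟨_, (hΦ.sub 2 0).and (hΨ.sub 2 1), fun e => ?_⟩
  change (S e ∧ T e) ↔ _
  rw [h, h']
  constructor
  · rintro ⟨⟨A, hA, h1⟩, ⟨B, hB, h2⟩⟩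
    refine ⟨join 2 (fun i => if i = 0 then A else B), finite_join 2 ?_ (by norm_num), ?_, ?_⟩
    · intro i; split_ifs <;> assumption
    · rw [sub_join (by norm_num)]; simpa using h1
    · rw [sub_join (by norm_num)]; simpa using h2
  · rintro ⟨A, hA, h1, h2⟩
    exact ⟨⟨_, finite_sub hA 1 0, h1⟩, ⟨_, finite_sub hA 1 1, h2⟩⟩

theorem exists_last {A : Set ℕ} (hA : A.Finite) (h0 : 0 ∈ A) : ∃ n ∈ A, n + 1 ∉ A := by
  by_contra hc
  push Not at hc
  have : ∀ n, n ∈ A := fun n => by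
    induction n with
    | zero => exact h0
    | succ n ih => exact hc n ih
  exact Set.infinite_univ (hA.subset (fun n _ => this n))

theorem CE.ex {T : (ℕ → ℕ) → Prop} (hT : CE T) : CE (fun e => ∃ n, T (nc n e)) := by
  obtain ⟨Φ, hΦ, h⟩ := hT
  refine ⟨fun A e => 0 ∈ sub 2 0 A ∧ ∀ n, (n ∈ sub 2 0 A ∧ n + 1 ∉ sub 2 0 A) →
    Φ (sub 2 1 A) (nc n e), ?_, fun e => ?_⟩
  · refine ((Un.mem (LinF.const 0)).sub 2 0).and ?_
    refine Un.all (S := fun A e => (e 0 ∈ sub 2 0 A ∧ e 0 + 1 ∉ sub 2 0 A) → Φ (sub 2 1 A) e) ?_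
    exact Un.imp (((Rep.mem (LinF.var 0)).sub 2 0).and
      ((Rep.nmem ((LinF.var 0).add (LinF.const 1))).sub 2 0)) (hΦ.sub 2 1)
  · constructor
    · rintro ⟨n, hn⟩
      obtain ⟨A, hA, h1⟩ := (h _).1 hn
      refine ⟨join 2 (fun i => if i = 0 then {m | m ≤ n} else A), finite_join 2 ?_ (by norm_num),
        ?_, ?_⟩
      · intro i; split_ifs
        · exact Set.finite_le_nat n
        · exact hA
      · rw [sub_join (by norm_num)]; simp
      · rw [sub_join (by norm_num), sub_join (by norm_num)]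
        rintro m ⟨hm1, hm2⟩
        simp only [if_true, one_ne_zero, if_false, Set.mem_ofPred_eq] at hm1 hm2 ⊢
        have : m = n := by omega
        rw [this]; exact h1
    · rintro ⟨A, hA, h0, h1⟩
      obtain ⟨n, hn, hn'⟩ := exists_last (finite_sub hA 1 0) h0
      exact ⟨n, (h _).2 ⟨_, finite_sub hA 1 1, h1 n ⟨hn, hn'⟩⟩⟩

theorem CE.ren {T : (ℕ → ℕ) → Prop} (hT : CE T) (r : ℕ → ℕ) :
    CE (fun e => T (fun i => e (r i))) := by
  obtain ⟨Φ, hΦ, h⟩ := hT
  exact ⟨_, hΦ.ren r, fun e => h _⟩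

/-- the step of the certificate of `k = m n` -/
def Step (A₀ A₁ A₂ : Set ℕ) (m n k w i v : ℕ) : Prop :=
  (w ∈ A₀ ∧ w + i ∈ A₁ ∧ w + v ∈ A₂ ∧ i < k + m + 1 ∧ v < k + m + 1) →
    ((i = m ∧ v = k) ∨ (i ≠ m ∧ w + (k + m + 1) ∈ A₀ ∧ w + (k + m + 1) + (i + 1) ∈ A₁ ∧
      w + (k + m + 1) + (v + n) ∈ A₂ ∧ i + 1 < k + m + 1 ∧ v + n < k + m + 1))

theorem mul_sound {A₀ A₁ A₂ : Set ℕ} {m n k : ℕ} (h0 : 0 ∈ A₀) (h1 : 0 ∈ A₁) (h2 : 0 ∈ A₂)
    (h : ∀ w i v, Step A₀ A₁ A₂ m n k w i v) : k = m * n := by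
  have key : ∀ j, j ≤ m → (k + m + 1) * j ∈ A₀ ∧ (k + m + 1) * j + j ∈ A₁ ∧
      (k + m + 1) * j + j * n ∈ A₂ ∧ j < k + m + 1 ∧ j * n < k + m + 1 := by
    intro j
    induction j with
    | zero => intro _; simp only [mul_zero, h0, add_zero, h1, zero_mul, h2, lt_add_iff_pos_left, Order.lt_add_one_iff, zero_le, and_self]
    | succ j ih =>
      intro hj
      obtain ⟨a, b, c, d, e⟩ := ih (by omega)
      rcases h _ _ _ ⟨a, b, c, d, e⟩ with ⟨h3, -⟩ | ⟨-, h4, h5, h6, h7, h8⟩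
      · omega
      · refine ⟨?_, ?_, ?_, h7, ?_⟩
        · rw [mul_add, mul_one]; exact h4
        · rw [mul_add, mul_one]; exact h5
        · have e1 : (k + m + 1) * (j + 1) + (j + 1) * n =
              (k + m + 1) * j + (k + m + 1) + (j * n + n) := by ring
          rw [e1]; exact h6
        · rw [add_mul, one_mul]; exact h8
  obtain ⟨a, b, c, d, e⟩ := key m le_rfl
  rcases h _ _ _ ⟨a, b, c, d, e⟩ with ⟨-, h4⟩ | ⟨h3, -⟩
  · exact h4.symm
  · exact absurd rfl h3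

theorem digit_eq {K j j' a b : ℕ} (ha : a < K) (hb : b < K) (h : K * j + a = K * j' + b) :
    j = j' ∧ a = b := by
  have h1 : (K * j + a) / K = j := by
    rw [Nat.mul_add_div (by omega), Nat.div_eq_of_lt ha, add_zero]
  have h2 : (K * j' + b) / K = j' := by
    rw [Nat.mul_add_div (by omega), Nat.div_eq_of_lt hb, add_zero]
  have h3 : j = j' := by rw [← h1, ← h2, h]
  subst h3
  exact ⟨rfl, by omega⟩

theorem mul_complete (m n : ℕ) : ∃ A₀ A₁ A₂ : Set ℕ, A₀.Finite ∧ A₁.Finite ∧ A₂.Finite ∧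
    0 ∈ A₀ ∧ 0 ∈ A₁ ∧ 0 ∈ A₂ ∧ ∀ w i v, Step A₀ A₁ A₂ m n (m * n) w i v := by
  set K := m * n + m + 1 with hK
  have fin : ∀ f : ℕ → ℕ, {x | ∃ j, j ≤ m ∧ x = f j}.Finite := by
    intro f
    refine ((Set.finite_le_nat m).image f).subset ?_
    rintro x ⟨j, hj, rfl⟩
    exact ⟨j, hj, rfl⟩
  refine ⟨{x | ∃ j, j ≤ m ∧ x = K * j}, {x | ∃ j, j ≤ m ∧ x = K * j + j},
    {x | ∃ j, j ≤ m ∧ x = K * j + j * n}, fin _, fin _, fin _, ⟨0, by simp⟩, ⟨0, by simp⟩,
    ⟨0, by simp⟩, ?_⟩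
  rintro w i v ⟨⟨j, hj, rfl⟩, ⟨j', hj', h1⟩, ⟨j'', hj'', h2⟩, hi, hv⟩
  rw [← hK] at hi hv ⊢
  have hb : ∀ j, j ≤ m → j * n < K := by
    intro j hj
    have := Nat.mul_le_mul_right n hj
    omega
  obtain ⟨e1, e2⟩ := digit_eq hi (by omega) h1
  obtain ⟨e3, e4⟩ := digit_eq hv (hb _ hj'') h2
  subst e1
  subst e3
  subst e2
  subst e4
  rcases eq_or_ne i m with him | him
  · left
    exact ⟨him, by rw [him]⟩
  · right
    have hlt : i + 1 ≤ m := by omega
    have hb' := hb (i + 1) hlt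
    refine ⟨him, ⟨i + 1, hlt, by ring⟩, ⟨i + 1, hlt, by ring⟩, ⟨i + 1, hlt, by ring⟩, by omega, ?_⟩
    rw [add_mul, one_mul] at hb'
    exact hb'

theorem CE.mul : CE (fun e => e 2 = e 0 * e 1) := by
  refine ⟨fun A e => (0 ∈ sub 3 0 A ∧ 0 ∈ sub 3 1 A ∧ 0 ∈ sub 3 2 A) ∧ ∀ v i w,
    Step (sub 3 0 A) (sub 3 1 A) (sub 3 2 A) (e 0) (e 1) (e 2) w i v, ?_, fun e => ?_⟩
  · refine (((Un.mem (LinF.const 0)).sub 3 0).and (((Un.mem (LinF.const 0)).sub 3 1).and
      ((Un.mem (LinF.const 0)).sub 3 2))).and ?_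
    refine Un.all (S := fun A e => ∀ i w, Step (sub 3 0 A) (sub 3 1 A) (sub 3 2 A) (e 1) (e 2)
      (e 3) w i (e 0)) ?_
    refine Un.all (S := fun A e => ∀ w, Step (sub 3 0 A) (sub 3 1 A) (sub 3 2 A) (e 2) (e 3)
      (e 4) w (e 0) (e 1)) ?_
    refine Un.all (S := fun A e => Step (sub 3 0 A) (sub 3 1 A) (sub 3 2 A) (e 3) (e 4)
      (e 5) (e 0) (e 1) (e 2)) ?_
    have hK : LinF (fun e => e 5 + e 3 + 1) :=
      ((LinF.var 5).add (LinF.var 3)).add (LinF.const 1)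
    have hw := LinF.var 0
    have hi := LinF.var 1
    have hv := LinF.var 2
    refine Un.imp ?_ ?_
    · exact ((Rep.mem hw).sub 3 0).and (((Rep.mem (hw.add hi)).sub 3 1).and
        (((Rep.mem (hw.add hv)).sub 3 2).and ((Rep.lt hi hK).and (Rep.lt hv hK))))
    · refine ((Un.eq hi (LinF.var 3)).and (Un.eq hv (LinF.var 5))).or ?_
      exact (Un.ne hi (LinF.var 3)).and (((Un.mem (hw.add hK)).sub 3 0).and
        (((Un.mem ((hw.add hK).add (hi.add (LinF.const 1)))).sub 3 1).and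
        (((Un.mem ((hw.add hK).add (hv.add (LinF.var 4)))).sub 3 2).and
        ((Un.lt (hi.add (LinF.const 1)) hK).and (Un.lt (hv.add (LinF.var 4)) hK)))))
  · constructor
    · intro h
      obtain ⟨A₀, A₁, A₂, f0, f1, f2, h0, h1, h2, hst⟩ := mul_complete (e 0) (e 1)
      refine ⟨join 3 (fun i => if i = 0 then A₀ else if i = 1 then A₁ else A₂),
        finite_join 3 ?_ (by norm_num), ?_⟩
      · intro i; split_ifs <;> assumption
      · beta_reduce
        rw [sub_join (show 0 < 3 by norm_num), sub_join (show 1 < 3 by norm_num),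
          sub_join (show 2 < 3 by norm_num)]
        simp only [if_true, one_ne_zero, if_false, OfNat.ofNat_ne_zero, OfNat.ofNat_ne_one]
        refine ⟨⟨h0, h1, h2⟩, fun v i w => ?_⟩
        rw [h]
        exact hst w i v
    · rintro ⟨A, hA, ⟨h0, h1, h2⟩, h⟩
      exact mul_sound h0 h1 h2 (fun w i v => h v i w)

theorem CE.mul' (i j k : ℕ) : CE (fun e => e k = e i * e j) := by
  have := CE.mul.ren (fun l => if l = 0 then i else if l = 1 then j else k)
  exact this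

theorem CE.eq {f g : (ℕ → ℕ) → ℕ} (hf : LinF f) (hg : LinF g) : CE (fun e => f e = g e) :=
  CE.of_un (Un.eq hf hg)

/-- polynomial relations -/
theorem CE.poly {α : Type} {f : (α → ℕ) → ℤ} (hf : IsPoly f) : ∀ (r : α → ℕ) (i j : ℕ),
    CE (fun e => f (fun a => e (r a)) = (e i : ℤ) - e j) := by
  induction hf with
  | proj a =>
    intro r i j
    refine (CE.eq ((LinF.var (r a)).add (LinF.var j)) (LinF.var i)).congr (fun e => ?_)
    beta_reduce
    omega
  | const c =>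
    intro r i j
    refine (CE.eq ((LinF.var j).add (LinF.const c.toNat))
      ((LinF.var i).add (LinF.const (-c).toNat))).congr (fun e => ?_)
    beta_reduce
    omega
  | @sub f g hf hg ihf ihg =>
    intro r i j
    have h := ((ihf (fun a => r a + 4) 0 1).and ((ihg (fun a => r a + 4) 2 3).and
      (CE.eq (((LinF.var 0).add (LinF.var 3)).add (LinF.var (j + 4)))
        (((LinF.var 1).add (LinF.var 2)).add (LinF.var (i + 4)))))).ex.ex.ex.ex
    refine h.congr (fun e => ?_)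
    change (f fun a => e (r a)) - (g fun a => e (r a)) = (e i : ℤ) - (e j : ℤ) ↔
      ∃ d c b a : ℕ, (f fun a => e (r a)) = ((a : ℕ) : ℤ) - ((b : ℕ) : ℤ) ∧
      (g fun a => e (r a)) = ((c : ℕ) : ℤ) - ((d : ℕ) : ℤ) ∧ a + d + e j = b + c + e i
    generalize f (fun a => e (r a)) = F
    generalize g (fun a => e (r a)) = G
    constructor
    · intro he
      exact ⟨(-G).toNat, G.toNat, (-F).toNat, F.toNat, by omega, by omega, by omega⟩
    · rintro ⟨d, c, b, a, h1, h2, h3⟩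
      omega
  | @mul f g hf hg ihf ihg =>
    intro r i j
    have h := ((ihf (fun a => r a + 8) 0 1).and ((ihg (fun a => r a + 8) 2 3).and
      (((CE.mul' 0 2 4).and ((CE.mul' 1 3 5).and ((CE.mul' 0 3 6).and (CE.mul' 1 2 7)))).and
      (CE.eq (((LinF.var 4).add (LinF.var 5)).add (LinF.var (j + 8)))
        (((LinF.var 6).add (LinF.var 7)).add (LinF.var (i + 8))))))).ex.ex.ex.ex.ex.ex.ex.ex
    refine h.congr (fun e => ?_)
    change (f fun a => e (r a)) * (g fun a => e (r a)) = (e i : ℤ) - (e j : ℤ) ↔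
      ∃ u₇ u₆ u₅ u₄ d c b a : ℕ, (f fun a => e (r a)) = ((a : ℕ) : ℤ) - ((b : ℕ) : ℤ) ∧
      (g fun a => e (r a)) = ((c : ℕ) : ℤ) - ((d : ℕ) : ℤ) ∧
      (u₄ = a * c ∧ u₅ = b * d ∧ u₆ = a * d ∧ u₇ = b * c) ∧ u₄ + u₅ + e j = u₆ + u₇ + e i
    generalize f (fun a => e (r a)) = F
    generalize g (fun a => e (r a)) = G
    constructor
    · intro he
      refine ⟨_, _, _, _, (-G).toNat, G.toNat, (-F).toNat, F.toNat, by omega, by omega,
        ⟨rfl, rfl, rfl, rfl⟩, ?_⟩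
      have h1 : F = (F.toNat : ℤ) - ((-F).toNat : ℤ) := by omega
      have h2 : G = (G.toNat : ℤ) - ((-G).toNat : ℤ) := by omega
      zify
      generalize (F.toNat : ℤ) = a at *
      generalize ((-F).toNat : ℤ) = b at *
      generalize (G.toNat : ℤ) = c at *
      generalize ((-G).toNat : ℤ) = d at *
      rw [h1, h2] at he
      linear_combination he
    · rintro ⟨_, _, _, _, d, c, b, a, h1, h2, ⟨rfl, rfl, rfl, rfl⟩, h3⟩
      zify at h3
      rw [h1, h2]
      linear_combination h3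

/-- many existential quantifiers -/
def app {m : ℕ} (w : Fin m → ℕ) (e : ℕ → ℕ) : ℕ → ℕ :=
  fun i => if h : i < m then w ⟨i, h⟩ else e (i - m)

theorem CE.exN {m : ℕ} {T : (ℕ → ℕ) → Prop} (hT : CE T) :
    CE (fun e => ∃ w : Fin m → ℕ, T (app w e)) := by
  induction m with
  | zero =>
    refine hT.congr (fun e => ?_)
    have : ∀ w : Fin 0 → ℕ, app w e = e := fun w => by
      funext i
      simp [app]
    simp [this]
  | succ m ih =>
    refine (CE.ex ih).congr (fun e => ?_)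
    constructor
    · rintro ⟨w, hw⟩
      refine ⟨w (Fin.last m), fun i => w i.castSucc, ?_⟩
      convert hw using 1
      funext i
      unfold app
      by_cases h1 : i < m
      · rw [dif_pos h1, dif_pos (by omega)]
        rfl
      · rw [dif_neg h1]
        by_cases h2 : i = m
        · subst h2
          rw [dif_pos (by omega), Nat.sub_self]
          rfl
        · rw [dif_neg (by omega)]
          obtain ⟨j, hj⟩ : ∃ j, i = m + 1 + j := ⟨i - (m + 1), by omega⟩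
          subst hj
          have e1 : m + 1 + j - m = j + 1 := by omega
          have e2 : m + 1 + j - (m + 1) = j := by omega
          rw [e1, e2, nc_succ]
    · rintro ⟨n, w, hw⟩
      refine ⟨Fin.snoc w n, ?_⟩
      convert hw using 1
      funext i
      unfold app
      by_cases h1 : i < m
      · rw [dif_pos h1, dif_pos (by omega)]
        have : (⟨i, by omega⟩ : Fin (m + 1)) = Fin.castSucc ⟨i, h1⟩ := rfl
        rw [this, Fin.snoc_castSucc]
      · rw [dif_neg h1]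
        by_cases h2 : i = m
        · subst h2
          rw [dif_pos (by omega), Nat.sub_self]
          have : (⟨i, by omega⟩ : Fin (i + 1)) = Fin.last i := rfl
          rw [this, Fin.snoc_last]
          rfl
        · rw [dif_neg (by omega)]
          obtain ⟨j, hj⟩ : ∃ j, i = m + 1 + j := ⟨i - (m + 1), by omega⟩
          subst hj
          have e1 : m + 1 + j - m = j + 1 := by omega
          have e2 : m + 1 + j - (m + 1) = j := by omega
          rw [e1, e2, nc_succ]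

open Vale.Agent.P345 in
theorem CE.of_rePred {k : ℕ} {S : Set (Fin k → ℕ)} (hS : REPred (fun a => a ∈ S)) :
    CE (fun e => (fun i : Fin k => e i) ∈ S) := by
  obtain ⟨m, f, hf, h⟩ := sf_of_rePred k S hS
  have h1 : CE (fun e => ∃ w : Fin m → ℕ, f ((fun i : Fin k => e i), w) = 0) := by
    have h2 := (CE.poly hf (fun a => Sum.elim (fun i : Fin k => (i : ℕ) + m)
      (fun j : Fin m => (j : ℕ)) a) 0 0).exN (m := m)
    refine h2.congr (fun e => exists_congr (fun w => ?_))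
    rw [sub_self]
    have e1 : Ctx.eqv.symm (fun a : Ctx.ix ((Fin k → ℕ) × (Fin m → ℕ)) =>
        app w e (Sum.elim (fun i : Fin k => (i : ℕ) + m) (fun j : Fin m => (j : ℕ)) a)) =
        ((fun i : Fin k => e i), w) := by
      change ((fun i : Fin k => app w e ((i : ℕ) + m)), (fun j : Fin m => app w e (j : ℕ))) = _
      congr 1
      · funext i
        unfold app
        rw [dif_neg (by omega), Nat.add_sub_cancel]
      · funext j
        unfold app
        rw [dif_pos j.2]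
    rw [e1]
  refine h1.congr (fun e => ?_)
  exact ⟨fun hs => ((h _).1 hs).exists, fun ⟨w, hw⟩ => (h _).2 w hw⟩

end Vale.Agent.P027.K2
end
end

section

section

/-! Positive predicates of finite sets and natural numbers. -/

namespace Vale.Agent.P027.N1

open Vale.Agent.P027.K2

/-- everything captured by `t` lies in `A` -/
def Up (t : ℚ) (A : Set ℕ) : Prop := ∀ n x, Pos x n → Mach t (kap x) → n ∈ A

/-- all elements of `A` are captured by `t` -/
def Low (t : ℚ) (A : Set ℕ) : Prop := ∀ n ∈ A, ∃ x, Pos x n ∧ Mach t (kap x)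

def PRep (S : Set ℕ → (ℕ → ℕ) → Prop) : Prop := ∀ c d : ℕ,
  ∃ V : (ℕ → ℚ) → Prop, Dio V ∧ ∀ v e A, Enc v e →
    (Up (v 0) A → V v → S (sub c d A) e) ∧ (Low (v 0) A → S (sub c d A) e → V v)

theorem PRep.congr {S T : Set ℕ → (ℕ → ℕ) → Prop} (h : PRep S) (e : ∀ A e, T A e ↔ S A e) :
    PRep T := by
  have : T = S := by funext A x; exact propext (e A x)
  rwa [this]

theorem PRep.and {S T : Set ℕ → (ℕ → ℕ) → Prop} (hS : PRep S) (hT : PRep T) :
    PRep (fun A e => S A e ∧ T A e) := by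
  intro c d
  obtain ⟨V, hV, h⟩ := hS c d
  obtain ⟨W, hW, h'⟩ := hT c d
  refine ⟨_, hV.and hW, fun v e A he => ⟨fun hU hx => ?_, fun hL hx => ?_⟩⟩
  · exact ⟨(h v e A he).1 hU hx.1, (h' v e A he).1 hU hx.2⟩
  · exact ⟨(h v e A he).2 hL hx.1, (h' v e A he).2 hL hx.2⟩

theorem PRep.or {S T : Set ℕ → (ℕ → ℕ) → Prop} (hS : PRep S) (hT : PRep T) :
    PRep (fun A e => S A e ∨ T A e) := by
  intro c d
  obtain ⟨V, hV, h⟩ := hS c d
  obtain ⟨W, hW, h'⟩ := hT c d
  refine ⟨_, hV.or hW, fun v e A he => ⟨fun hU hx => ?_, fun hL hx => ?_⟩⟩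
  · exact hx.imp ((h v e A he).1 hU) ((h' v e A he).1 hU)
  · exact hx.imp ((h v e A he).2 hL) ((h' v e A he).2 hL)

theorem PRep.true : PRep (fun _ _ => True) := fun _ _ =>
  ⟨_, Dio.true, fun _ _ _ _ => ⟨fun _ _ => trivial, fun _ _ => trivial⟩⟩

theorem PRep.ex {S : Set ℕ → (ℕ → ℕ) → Prop} (hS : PRep S) :
    PRep (fun A e => ∃ n, S A (nc n e)) := by
  intro c d
  obtain ⟨V, hV, h⟩ := hS c d
  refine ⟨fun v => ∃ u : ℚ, (u ≠ 0 ∧ 0 ≤ padicValRat 3 u) ∧ V (fun i => cns u v (sw i)), ?_, ?_⟩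
  · refine Dio.ex (S := fun u v => (u ≠ 0 ∧ 0 ≤ padicValRat 3 u) ∧ V (fun i => cns u v (sw i))) ?_
    refine ((Dio.ne (DioFn.var 0) zero_fn).and (dio_int3 (DioFn.var 0))).and ?_
    refine (hV.ren sw).congr (fun v => ?_)
    rw [cns_tl]
  · intro v e A he
    refine ⟨fun hU hx => ?_, fun hL hx => ?_⟩
    · obtain ⟨u, ⟨hu, h3⟩, hx⟩ := hx
      obtain ⟨n, hn⟩ := Int.eq_ofNat_of_zero_le h3
      exact ⟨n, (h _ _ A (he.cons hu hn)).1 hU hx⟩
    · obtain ⟨n, hx⟩ := hx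
      have hn : padicValRat 3 ((3 : ℚ) ^ n) = n := by
        rw [padicValRat.pow, v33, mul_one]
      have h0 : (3 : ℚ) ^ n ≠ 0 := by positivity
      exact ⟨3 ^ n, ⟨h0, by rw [hn]; omega⟩, (h _ _ A (he.cons h0 hn)).2 hL hx⟩

theorem PRep.eq {f g : (ℕ → ℕ) → ℕ} (hf : LinF f) (hg : LinF g) :
    PRep (fun _ e => f e = g e) := by
  intro c d
  obtain ⟨F, hF, h⟩ := hf
  obtain ⟨G, hG, h'⟩ := hg
  refine ⟨fun v => U3 (F v / G v), dio_U3 (hF.div hG), fun v e A he => ?_⟩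
  have key : U3 (F v / G v) ↔ f e = g e := by
    have hF0 := (h v e he).1
    have hG0 := (h' v e he).1
    rw [U3_iff (div_ne_zero hF0 hG0), padicValRat.div hF0 hG0, (h v e he).2, (h' v e he).2]
    omega
  exact ⟨fun _ => key.1, fun _ => key.2⟩

theorem PRep.le {f g : (ℕ → ℕ) → ℕ} (hf : LinF f) (hg : LinF g) :
    PRep (fun _ e => f e ≤ g e) := by
  intro c d
  obtain ⟨F, hF, h⟩ := hf
  obtain ⟨G, hG, h'⟩ := hg
  refine ⟨fun v => 0 ≤ padicValRat 3 (G v / F v), dio_int3 (hG.div hF), fun v e A he => ?_⟩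
  have key : 0 ≤ padicValRat 3 (G v / F v) ↔ f e ≤ g e := by
    have hF0 := (h v e he).1
    have hG0 := (h' v e he).1
    rw [padicValRat.div hG0 hF0, (h v e he).2, (h' v e he).2]
    omega
  exact ⟨fun _ => key.1, fun _ => key.2⟩

theorem PRep.lt {f g : (ℕ → ℕ) → ℕ} (hf : LinF f) (hg : LinF g) :
    PRep (fun _ e => f e < g e) :=
  (PRep.le (hf.add (LinF.const 1)) hg).congr (fun _ _ => Nat.lt_iff_add_one_le)

/-- the Diophantine condition of membership -/
def Mem (t u : ℚ) : Prop := ∃ x : ℚ, Good x ∧ U3 (xi x * (9 * u ^ 2)) ∧ Mach t (kap x)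

theorem dio_mem {f g : (ℕ → ℚ) → ℚ} (hf : DioFn f) (hg : DioFn g) :
    Dio (fun v => Mem (f v) (g v)) := by
  refine Dio.ex (S := fun x v => Good x ∧ U3 (xi x * (9 * (g v) ^ 2)) ∧ Mach (f v) (kap x)) ?_
  exact (dio_good (DioFn.var 0)).and ((dio_U3 ((fn_xi (DioFn.var 0)).mul
    ((lit_fn 9).mul (hg.tl.pow 2)))).and (dio_mach hf.tl (fn_kap (DioFn.var 0))))

theorem mem_iff {t u : ℚ} {n : ℕ} (hu : u ≠ 0) (hn : padicValRat 3 u = n) :
    Mem t u ↔ ∃ x, Pos x n ∧ Mach t (kap x) := by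
  constructor
  · rintro ⟨x, hg, hx, hm⟩
    obtain ⟨k, hk⟩ := ec_pos hg
    rw [pos_iff hk hu hn] at hx
    subst hx
    exact ⟨x, ⟨hg, hk⟩, hm⟩
  · rintro ⟨x, ⟨hg, hk⟩, hm⟩
    exact ⟨x, hg, (pos_iff hk hu hn).2 rfl, hm⟩

theorem PRep.mem {f : (ℕ → ℕ) → ℕ} (hf : LinF f) : PRep (fun A e => f e ∈ A) := by
  intro c d
  obtain ⟨F, hF, h⟩ := (hf.smul c).add (LinF.const d)
  refine ⟨fun v => Mem (v 0) (F v), dio_mem (DioFn.var 0) hF, ?_⟩
  intro v e A he
  obtain ⟨h0, h3⟩ := h v e he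
  have h3' : padicValRat 3 (F v) = ((c * f e + d : ℕ) : ℤ) := h3
  refine ⟨fun hU hx => ?_, fun hL hx => ?_⟩
  · obtain ⟨x, hx, hm⟩ := (mem_iff h0 h3').1 hx
    exact hU _ x hx hm
  · exact (mem_iff h0 h3').2 (hL _ hx)

theorem PRep.sub {S : Set ℕ → (ℕ → ℕ) → Prop} (hS : PRep S) (c' d' : ℕ) :
    PRep (fun A e => S (sub c' d' A) e) := by
  intro c d
  obtain ⟨V, hV, h⟩ := hS (c * c') (c * d' + d)
  refine ⟨V, hV, fun v e A he => ?_⟩
  simp only
  rw [sub_sub]
  exact h v e A he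

/-- renaming of the natural variables -/
theorem PRep.ren {S : Set ℕ → (ℕ → ℕ) → Prop} (hS : PRep S) (r : ℕ → ℕ) :
    PRep (fun A e => S A (fun i => e (r i))) := by
  intro c d
  obtain ⟨V, hV, h⟩ := hS c d
  refine ⟨fun v => V (fun i => v (Nat.rec 0 (fun j _ => r j + 1) i)), hV.ren _,
    fun v e A he => ?_⟩
  have he' : Enc (fun i => v (Nat.rec 0 (fun j _ => r j + 1) i)) (fun i => e (r i)) :=
    fun i => he (r i)
  exact h _ _ A he'

end Vale.Agent.P027.N1
end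
end

section

section

/-! Relations certified by a finite set that is closed under rules with one premise. -/

namespace Vale.Agent.P027.N1

open Vale.Agent.P027.K2

/-- the first `r` members from `w`, then `e` -/
def ap (r : ℕ) (w e : ℕ → ℕ) : ℕ → ℕ := fun i => if i < r then w i else e (i - r)

theorem ap_zero (w e : ℕ → ℕ) : ap 0 w e = e := by
  funext i
  simp [ap]

def CP (T : (ℕ → ℕ) → Prop) : Prop :=
  ∃ (r : ℕ) (R0 R1 : Set ℕ → (ℕ → ℕ) → Prop), PRep R0 ∧ PRep R1 ∧ ∀ e, T e ↔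
    ∃ (w : ℕ → ℕ) (A : Set ℕ), A.Finite ∧ R0 A (ap r w e) ∧ ∀ n ∈ A, R1 A (nc n (ap r w e))

theorem CP.congr {S T : (ℕ → ℕ) → Prop} (h : CP S) (e : ∀ x, T x ↔ S x) : CP T := by
  have : T = S := by funext x; exact propext (e x)
  rwa [this]

theorem CP.of_rep {T : (ℕ → ℕ) → Prop} (h : PRep (fun _ e => T e)) : CP T := by
  refine ⟨0, _, _, h, PRep.true, fun e => ?_⟩
  simp only [ap_zero]
  exact ⟨fun ht => ⟨e, ∅, Set.finite_empty, ht, fun _ _ => trivial⟩, fun ⟨_, _, _, ht, _⟩ => ht⟩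

theorem CP.eq {f g : (ℕ → ℕ) → ℕ} (hf : LinF f) (hg : LinF g) : CP (fun e => f e = g e) :=
  CP.of_rep (PRep.eq hf hg)

/-- renaming for the first of two relations -/
def r1 (a b : ℕ) (i : ℕ) : ℕ := if i < a then i else i + b

theorem ap_r1 (a b : ℕ) (w e : ℕ → ℕ) : (fun i => ap (a + b) w e (r1 a b i)) = ap a w e := by
  funext i
  unfold ap r1
  by_cases h : i < a
  · rw [if_pos h, if_pos (show i < a + b by omega), if_pos h]
  · rw [if_neg h, if_neg (show ¬ i + b < a + b by omega), if_neg h]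
    congr 1
    omega

theorem ap_r2 (a b : ℕ) (w e : ℕ → ℕ) : (fun i => ap (a + b) w e (i + a)) =
    ap b (fun i => w (i + a)) e := by
  funext i
  unfold ap
  by_cases h : i < b
  · rw [if_pos (show i + a < a + b by omega), if_pos h]
  · rw [if_neg (show ¬ i + a < a + b by omega), if_neg h]
    congr 1
    omega

/-- renaming below two new variables -/
def up2 (r : ℕ → ℕ) (i : ℕ) : ℕ := Nat.rec 0 (fun j _ => r j + 2) i

theorem nc_up2 (n n' : ℕ) (e : ℕ → ℕ) (r : ℕ → ℕ) :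
    (fun i => nc n' (nc n e) (up2 r i)) = nc n' (fun i => e (r i)) := by
  funext i
  rcases i with _ | i <;> rfl

theorem CP.and {S T : (ℕ → ℕ) → Prop} (hS : CP S) (hT : CP T) : CP (fun e => S e ∧ T e) := by
  obtain ⟨a, P0, P1, hP0, hP1, h⟩ := hS
  obtain ⟨b, Q0, Q1, hQ0, hQ1, h'⟩ := hT
  refine ⟨a + b, fun A e => P0 (sub 2 0 A) (fun i => e (r1 a b i)) ∧
      Q0 (sub 2 1 A) (fun i => e (i + a)),
    fun A e => (∃ n', (fun A e => e 1 = 2 * e 0 ∧ P1 (sub 2 0 A) (fun i => e (up2 (r1 a b) i)))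
        A (nc n' e)) ∨
      (∃ n', (fun A e => e 1 = 2 * e 0 + 1 ∧ Q1 (sub 2 1 A) (fun i => e (up2 (fun i => i + a) i)))
        A (nc n' e)),
    ((hP0.sub 2 0).ren _).and ((hQ0.sub 2 1).ren _), ?_, fun e => ?_⟩
  · have g1 : PRep (fun A e => e 1 = 2 * e 0 ∧
        P1 (sub 2 0 A) (fun i => e (up2 (r1 a b) i))) :=
      (PRep.eq (LinF.var 1) ((LinF.var 0).smul 2)).and ((hP1.sub 2 0).ren _)
    have g2 : PRep (fun A e => e 1 = 2 * e 0 + 1 ∧
        Q1 (sub 2 1 A) (fun i => e (up2 (fun i => i + a) i))) :=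
      (PRep.eq (LinF.var 1) (((LinF.var 0).smul 2).add (LinF.const 1))).and
        ((hQ1.sub 2 1).ren _)
    exact PRep.or g1.ex g2.ex
  · simp only [nc_up2, ap_r1, ap_r2, nc_zero]
    rw [h, h']
    have n1 : ∀ (n' : ℕ) (e : ℕ → ℕ), nc n' e 1 = e 0 := fun _ _ => rfl
    constructor
    · rintro ⟨⟨w, A, hA, h0, h1⟩, ⟨w', B, hB, h2, h3⟩⟩
      let W : ℕ → ℕ := fun i => if i < a then w i else w' (i - a)
      have e1 : ap a W e = ap a w e := by
        funext i
        unfold ap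
        by_cases hi : i < a
        · rw [if_pos hi, if_pos hi]; exact if_pos hi
        · rw [if_neg hi, if_neg hi]
      have e2 : (fun i => W (i + a)) = w' := by
        funext i
        simp only [W]
        rw [if_neg (by omega), Nat.add_sub_cancel]
      refine ⟨W, join 2 (fun i => if i = 0 then A else B), finite_join 2 ?_ (by norm_num),
        ?_, ?_⟩
      · intro i; split_ifs <;> assumption
      · rw [sub_join (by norm_num), sub_join (by norm_num), e1, e2]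
        exact ⟨by simpa using h0, by simpa using h2⟩
      · rw [sub_join (show 0 < 2 by norm_num), sub_join (show 1 < 2 by norm_num), e1, e2]
        intro n hn
        simp only [if_true, one_ne_zero, if_false]
        have hn' : n / 2 ∈ (if n % 2 = 0 then A else B) := hn
        rcases Nat.mod_two_eq_zero_or_one n with h4 | h4
        · rw [if_pos h4] at hn'
          exact Or.inl ⟨n / 2, by rw [n1, nc_zero]; omega, h1 _ hn'⟩
        · rw [if_neg (by omega)] at hn'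
          exact Or.inr ⟨n / 2, by rw [n1, nc_zero]; omega, h3 _ hn'⟩
    · rintro ⟨w, A, hA, ⟨h0, h2⟩, h3⟩
      refine ⟨⟨w, sub 2 0 A, finite_sub hA 1 0, h0, fun n hn => ?_⟩,
        ⟨fun i => w (i + a), sub 2 1 A, finite_sub hA 1 1, h2, fun n hn => ?_⟩⟩
      · rcases h3 _ hn with ⟨n', h4, h5⟩ | ⟨n', h4, h5⟩
        · rw [n1, nc_zero] at h4
          have : n = n' := by omega
          rw [this]; exact h5
        · rw [n1, nc_zero] at h4
          omega
      · rcases h3 _ hn with ⟨n', h4, h5⟩ | ⟨n', h4, h5⟩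
        · rw [n1, nc_zero] at h4
          omega
        · rw [n1, nc_zero] at h4
          have : n = n' := by omega
          rw [this]; exact h5

theorem ap_succ (r : ℕ) (w e : ℕ → ℕ) : ap (r + 1) w e = ap r w (nc (w r) e) := by
  funext i
  unfold ap
  by_cases h1 : i < r
  · rw [if_pos h1, if_pos (by omega)]
  · rw [if_neg h1]
    by_cases h2 : i = r
    · subst h2
      rw [if_pos (by omega), Nat.sub_self]
      rfl
    · rw [if_neg (by omega)]
      obtain ⟨j, hj⟩ : ∃ j, i = r + 1 + j := ⟨i - (r + 1), by omega⟩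
      subst hj
      have e1 : r + 1 + j - r = j + 1 := by omega
      have e2 : r + 1 + j - (r + 1) = j := by omega
      rw [e1, e2, nc_succ]

theorem ap_congr {r : ℕ} {w w' : ℕ → ℕ} (h : ∀ i < r, w i = w' i) (e : ℕ → ℕ) :
    ap r w e = ap r w' e := by
  funext i
  unfold ap
  split_ifs with h1
  · exact h i h1
  · rfl

theorem CP.ex {T : (ℕ → ℕ) → Prop} (hT : CP T) : CP (fun e => ∃ n, T (nc n e)) := by
  obtain ⟨r, R0, R1, h0, h1, h⟩ := hT
  refine ⟨r + 1, R0, R1, h0, h1, fun e => ?_⟩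
  constructor
  · rintro ⟨n, hn⟩
    obtain ⟨w, A, hA, h2, h3⟩ := (h _).1 hn
    have e1 : ap (r + 1) (fun i => if i < r then w i else n) e = ap r w (nc n e) := by
      rw [ap_succ, if_neg (lt_irrefl _)]
      exact ap_congr (fun i hi => if_pos hi) _
    exact ⟨fun i => if i < r then w i else n, A, hA, by rw [e1]; exact h2, by rw [e1]; exact h3⟩
  · rintro ⟨w, A, hA, h2, h3⟩
    rw [ap_succ] at h2 h3
    exact ⟨w r, (h _).2 ⟨w, A, hA, h2, h3⟩⟩

/-- renaming under `r` fixed variables -/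
def lf (r : ℕ) (ρ : ℕ → ℕ) (i : ℕ) : ℕ := if i < r then i else r + ρ (i - r)

theorem ap_lf (r : ℕ) (ρ w e : ℕ → ℕ) : (fun i => ap r w e (lf r ρ i)) =
    ap r w (fun i => e (ρ i)) := by
  funext i
  unfold ap lf
  by_cases h : i < r
  · rw [if_pos h, if_pos h, if_pos h]
  · rw [if_neg h, if_neg (by omega), if_neg h, Nat.add_sub_cancel_left]

def up1 (r : ℕ → ℕ) (i : ℕ) : ℕ := Nat.rec 0 (fun j _ => r j + 1) i

theorem nc_up1 (n : ℕ) (e : ℕ → ℕ) (r : ℕ → ℕ) :
    (fun i => nc n e (up1 r i)) = nc n (fun i => e (r i)) := by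
  funext i
  rcases i with _ | i <;> rfl

theorem CP.ren {T : (ℕ → ℕ) → Prop} (hT : CP T) (ρ : ℕ → ℕ) :
    CP (fun e => T (fun i => e (ρ i))) := by
  obtain ⟨r, R0, R1, h0, h1, h⟩ := hT
  refine ⟨r, _, _, h0.ren (lf r ρ), h1.ren (up1 (lf r ρ)), fun e => ?_⟩
  simp only [nc_up1, ap_lf]
  exact h _

theorem prod_sound {A₂ A₃ : Set ℕ} {m L Y : ℕ} (hY : Y ∈ A₂) (hYm : Y + m ∈ A₃) (hm : m < L)
    (h2 : ∀ y ∈ A₂, y = 0 ∨ ∃ y', y = y' + L ∧ y' ∈ A₂)
    (h3 : ∀ w ∈ A₃, ∃ y j, w = y + j ∧ y ∈ A₂ ∧ j < L ∧ ((y = 0 ∧ j = 0) ∨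
      ∃ y' j', y = y' + L ∧ j = j' + 1 ∧ y' ∈ A₂ ∧ y' + j' ∈ A₃)) : Y = L * m := by
  have hL : 0 < L := by omega
  have d2 : ∀ y, y ∈ A₂ → ∃ q, y = L * q := by
    intro y
    induction y using Nat.strong_induction_on with
    | _ y ih =>
      intro hy
      rcases h2 y hy with h | ⟨y', h, hy'⟩
      · exact ⟨0, by simpa using h⟩
      · obtain ⟨q, hq⟩ := ih y' (by omega) hy'
        exact ⟨q + 1, by rw [h, hq]; ring⟩
  have d3 : ∀ w, w ∈ A₃ → ∀ y j, w = y + j → y ∈ A₂ → j < L → y = L * j := by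
    intro w
    induction w using Nat.strong_induction_on with
    | _ w ih =>
      intro hw y j hwy hy hj
      obtain ⟨y₁, j₁, hw₁, hy₁, hj₁, hc⟩ := h3 w hw
      obtain ⟨q, hq⟩ := d2 y hy
      obtain ⟨q₁, hq₁⟩ := d2 y₁ hy₁
      have e : L * q + j = L * q₁ + j₁ := by rw [← hq, ← hq₁, ← hwy, hw₁]
      obtain ⟨e1, e2⟩ := digit_eq hj hj₁ e
      subst e1
      subst e2
      have hyy : y = y₁ := hq.trans hq₁.symm
      subst hyy
      rcases hc with ⟨h1, h1'⟩ | ⟨y', j', h1, h1', h1'', h1'''⟩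
      · rw [h1, h1']; simp
      · have := ih (y' + j') (by omega) h1''' y' j' rfl h1'' (by omega)
        rw [h1, h1', this]; ring
  exact d3 _ hYm Y m rfl hY hm

theorem prod_complete {m L : ℕ} (hm : m < L) : ∃ A₂ A₃ : Set ℕ, A₂.Finite ∧ A₃.Finite ∧
    L * m ∈ A₂ ∧ L * m + m ∈ A₃ ∧ (∀ y ∈ A₂, y = 0 ∨ ∃ y', y = y' + L ∧ y' ∈ A₂) ∧
    (∀ w ∈ A₃, ∃ y j, w = y + j ∧ y ∈ A₂ ∧ j < L ∧ ((y = 0 ∧ j = 0) ∨
      ∃ y' j', y = y' + L ∧ j = j' + 1 ∧ y' ∈ A₂ ∧ y' + j' ∈ A₃)) := by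
  have fin : ∀ f : ℕ → ℕ, {x | ∃ j, j ≤ m ∧ x = f j}.Finite := by
    intro f
    refine ((Set.finite_le_nat m).image f).subset ?_
    rintro x ⟨j, hj, rfl⟩
    exact ⟨j, hj, rfl⟩
  refine ⟨{x | ∃ j, j ≤ m ∧ x = L * j}, {x | ∃ j, j ≤ m ∧ x = L * j + j}, fin _, fin _,
    ⟨m, le_rfl, rfl⟩, ⟨m, le_rfl, rfl⟩, ?_, ?_⟩
  · rintro y ⟨j, hj, rfl⟩
    rcases j with _ | j
    · left; simp
    · right
      exact ⟨L * j, by ring, j, by omega, rfl⟩
  · rintro w ⟨j, hj, rfl⟩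
    refine ⟨L * j, j, rfl, ⟨j, hj, rfl⟩, by omega, ?_⟩
    rcases j with _ | j
    · left; simp
    · right
      exact ⟨L * j, j, by ring, rfl, ⟨j, by omega, rfl⟩, ⟨j, by omega, rfl⟩⟩

theorem CP.prod : CP (fun e => e 0 < e 1 ∧ e 2 = e 1 * e 0) := by
  refine ⟨0, fun A e => e 2 ∈ sub 2 0 A ∧ e 2 + e 0 ∈ sub 2 1 A ∧ e 0 < e 1,
    fun A e => (∃ y, (fun A e => e 1 = 2 * e 0 ∧ (e 0 = 0 ∨ ∃ y', (fun A e =>
        e 1 = e 0 + e 4 ∧ e 0 ∈ sub 2 0 A) A (nc y' e))) A (nc y e)) ∨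
      (∃ y, (fun A e => ∃ j, (fun A e => e 2 = 2 * (e 1 + e 0) + 1 ∧ e 1 ∈ sub 2 0 A ∧
        e 0 < e 4 ∧ ((e 1 = 0 ∧ e 0 = 0) ∨ ∃ y', (fun A e => ∃ j', (fun A e =>
          e 3 = e 1 + e 6 ∧ e 2 = e 0 + 1 ∧ e 1 ∈ sub 2 0 A ∧ e 1 + e 0 ∈ sub 2 1 A)
            A (nc j' e)) A (nc y' e))) A (nc j e)) A (nc y e)), ?_, ?_, fun e => ?_⟩
  · exact ((PRep.mem (LinF.var 2)).sub 2 0).and
      (((PRep.mem ((LinF.var 2).add (LinF.var 0))).sub 2 1).and
        (PRep.lt (LinF.var 0) (LinF.var 1)))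
  · have g1 : PRep (fun A e => e 1 = e 0 + e 4 ∧ e 0 ∈ sub 2 0 A) :=
      (PRep.eq (LinF.var 1) ((LinF.var 0).add (LinF.var 4))).and
        ((PRep.mem (LinF.var 0)).sub 2 0)
    have g2 : PRep (fun A e => e 1 = 2 * e 0 ∧ (e 0 = 0 ∨ ∃ y', (fun A e =>
        e 1 = e 0 + e 4 ∧ e 0 ∈ sub 2 0 A) A (nc y' e))) :=
      (PRep.eq (LinF.var 1) ((LinF.var 0).smul 2)).and
        ((PRep.eq (LinF.var 0) (LinF.const 0)).or g1.ex)
    have g3 : PRep (fun A e => e 3 = e 1 + e 6 ∧ e 2 = e 0 + 1 ∧ e 1 ∈ sub 2 0 A ∧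
        e 1 + e 0 ∈ sub 2 1 A) :=
      (PRep.eq (LinF.var 3) ((LinF.var 1).add (LinF.var 6))).and
        ((PRep.eq (LinF.var 2) ((LinF.var 0).add (LinF.const 1))).and
        (((PRep.mem (LinF.var 1)).sub 2 0).and
        ((PRep.mem ((LinF.var 1).add (LinF.var 0))).sub 2 1)))
    have g4 : PRep (fun A e => e 2 = 2 * (e 1 + e 0) + 1 ∧ e 1 ∈ sub 2 0 A ∧
        e 0 < e 4 ∧ ((e 1 = 0 ∧ e 0 = 0) ∨ ∃ y', (fun A e => ∃ j', (fun A e =>
          e 3 = e 1 + e 6 ∧ e 2 = e 0 + 1 ∧ e 1 ∈ sub 2 0 A ∧ e 1 + e 0 ∈ sub 2 1 A)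
            A (nc j' e)) A (nc y' e))) :=
      (PRep.eq (LinF.var 2) ((((LinF.var 1).add (LinF.var 0)).smul 2).add
        (LinF.const 1))).and (((PRep.mem (LinF.var 1)).sub 2 0).and
        ((PRep.lt (LinF.var 0) (LinF.var 4)).and (((PRep.eq (LinF.var 1) (LinF.const 0)).and
        (PRep.eq (LinF.var 0) (LinF.const 0))).or g3.ex.ex)))
    exact PRep.or g2.ex g4.ex.ex
  · simp only [ap_zero]
    constructor
    · rintro ⟨hm, hY⟩
      obtain ⟨A₂, A₃, f2, f3, g1, g2, g3, g4⟩ := prod_complete hm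
      refine ⟨e, join 2 (fun i => if i = 0 then A₂ else A₃), finite_join 2 ?_ (by norm_num),
        ?_, ?_⟩
      · intro i; split_ifs <;> assumption
      · rw [sub_join (show 0 < 2 by norm_num), sub_join (show 1 < 2 by norm_num)]
        simp only [if_true, one_ne_zero, if_false]
        rw [hY]
        exact ⟨g1, g2, hm⟩
      · rw [sub_join (show 0 < 2 by norm_num), sub_join (show 1 < 2 by norm_num)]
        simp only [if_true, one_ne_zero, if_false]
        intro n hn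
        have hn' : n / 2 ∈ (if n % 2 = 0 then A₂ else A₃) := hn
        rcases Nat.mod_two_eq_zero_or_one n with h4 | h4
        · rw [if_pos h4] at hn'
          left
          refine ⟨n / 2, ?_, ?_⟩
          · change n = 2 * (n / 2)
            omega
          · rcases g3 _ hn' with h | ⟨y', h, h'⟩
            · exact Or.inl h
            · exact Or.inr ⟨y', h, h'⟩
        · rw [if_neg (by omega)] at hn'
          right
          obtain ⟨y, j, h5, h6, h7, h8⟩ := g4 _ hn'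
          refine ⟨y, j, ?_, h6, h7, ?_⟩
          · change n = 2 * (y + j) + 1
            omega
          · rcases h8 with h | ⟨y', j', h⟩
            · exact Or.inl h
            · exact Or.inr ⟨y', j', h⟩
    · rintro ⟨w, A, hA, ⟨h0, h1, h2⟩, h3⟩
      refine ⟨h2, prod_sound h0 h1 h2 (fun y hy => ?_) (fun w hw => ?_)⟩
      · rcases h3 _ hy with ⟨y₁, h4, h5⟩ | ⟨y₁, j₁, h4, -⟩
        · have h4' : 2 * y + 0 = 2 * y₁ := h4
          have : y = y₁ := by omega
          subst this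
          rcases h5 with h | ⟨y', h, h'⟩
          · exact Or.inl h
          · exact Or.inr ⟨y', h, h'⟩
        · have h4' : 2 * y + 0 = 2 * (y₁ + j₁) + 1 := h4
          omega
      · rcases h3 _ hw with ⟨y₁, h4, -⟩ | ⟨y₁, j₁, h4, h5, h6, h7⟩
        · have h4' : 2 * w + 1 = 2 * y₁ := h4
          omega
        · have h4' : 2 * w + 1 = 2 * (y₁ + j₁) + 1 := h4
          refine ⟨y₁, j₁, by (clear * - h4'; omega), h5, h6, ?_⟩
          rcases h7 with h | ⟨y', j', h⟩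
          · exact Or.inl h
          · exact Or.inr ⟨y', j', h⟩

theorem CP.mul : CP (fun e => e 2 = e 0 * e 1) := by
  have h := ((CP.eq (LinF.var 3) (((LinF.var 4).add (LinF.var 5)).add (LinF.const 1))).and
    ((CP.eq (LinF.var 2) ((LinF.var 4).add (LinF.const 1))).and
    ((CP.prod.ren (fun l => if l = 0 then 4 else if l = 1 then 3 else 1)).and
    ((CP.prod.ren (fun l => if l = 0 then 4 else if l = 1 then 2 else 0)).and
    (CP.eq (LinF.var 1) ((LinF.var 6).add (LinF.var 0))))))).ex.ex.ex.ex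
  refine h.congr (fun e => ?_)
  change e 2 = e 0 * e 1 ↔ ∃ d c b a : ℕ, d = e 0 + e 1 + 1 ∧ c = e 0 + 1 ∧
    (e 0 < d ∧ b = d * e 0) ∧ (e 0 < c ∧ a = c * e 0) ∧ b = e 2 + a
  constructor
  · intro h
    refine ⟨_, _, _, _, rfl, rfl, ⟨by omega, rfl⟩, ⟨by omega, rfl⟩, ?_⟩
    rw [h]; ring
  · rintro ⟨d, c, b, a, rfl, rfl, ⟨-, rfl⟩, ⟨-, rfl⟩, h⟩
    have h1 : (e 0 + e 1 + 1) * e 0 = e 0 * e 1 + (e 0 + 1) * e 0 := by ring
    omega

theorem CP.mul' (i j k : ℕ) : CP (fun e => e k = e i * e j) := by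
  have := CP.mul.ren (fun l => if l = 0 then i else if l = 1 then j else k)
  exact this

/-- polynomial relations -/
theorem CP.poly {α : Type} {f : (α → ℕ) → ℤ} (hf : IsPoly f) : ∀ (r : α → ℕ) (i j : ℕ),
    CP (fun e => f (fun a => e (r a)) = (e i : ℤ) - e j) := by
  induction hf with
  | proj a =>
    intro r i j
    refine (CP.eq ((LinF.var (r a)).add (LinF.var j)) (LinF.var i)).congr (fun e => ?_)
    beta_reduce
    omega
  | const c =>
    intro r i j
    refine (CP.eq ((LinF.var j).add (LinF.const c.toNat))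
      ((LinF.var i).add (LinF.const (-c).toNat))).congr (fun e => ?_)
    beta_reduce
    omega
  | @sub f g hf hg ihf ihg =>
    intro r i j
    have h := ((ihf (fun a => r a + 4) 0 1).and ((ihg (fun a => r a + 4) 2 3).and
      (CP.eq (((LinF.var 0).add (LinF.var 3)).add (LinF.var (j + 4)))
        (((LinF.var 1).add (LinF.var 2)).add (LinF.var (i + 4)))))).ex.ex.ex.ex
    refine h.congr (fun e => ?_)
    change (f fun a => e (r a)) - (g fun a => e (r a)) = (e i : ℤ) - (e j : ℤ) ↔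
      ∃ d c b a : ℕ, (f fun a => e (r a)) = ((a : ℕ) : ℤ) - ((b : ℕ) : ℤ) ∧
      (g fun a => e (r a)) = ((c : ℕ) : ℤ) - ((d : ℕ) : ℤ) ∧ a + d + e j = b + c + e i
    generalize f (fun a => e (r a)) = F
    generalize g (fun a => e (r a)) = G
    constructor
    · intro he
      exact ⟨(-G).toNat, G.toNat, (-F).toNat, F.toNat, by omega, by omega, by omega⟩
    · rintro ⟨d, c, b, a, h1, h2, h3⟩
      omega
  | @mul f g hf hg ihf ihg =>
    intro r i j
    have h := ((ihf (fun a => r a + 8) 0 1).and ((ihg (fun a => r a + 8) 2 3).and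
      (((CP.mul' 0 2 4).and ((CP.mul' 1 3 5).and ((CP.mul' 0 3 6).and (CP.mul' 1 2 7)))).and
      (CP.eq (((LinF.var 4).add (LinF.var 5)).add (LinF.var (j + 8)))
        (((LinF.var 6).add (LinF.var 7)).add (LinF.var (i + 8))))))).ex.ex.ex.ex.ex.ex.ex.ex
    refine h.congr (fun e => ?_)
    change (f fun a => e (r a)) * (g fun a => e (r a)) = (e i : ℤ) - (e j : ℤ) ↔
      ∃ u₇ u₆ u₅ u₄ d c b a : ℕ, (f fun a => e (r a)) = ((a : ℕ) : ℤ) - ((b : ℕ) : ℤ) ∧
      (g fun a => e (r a)) = ((c : ℕ) : ℤ) - ((d : ℕ) : ℤ) ∧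
      (u₄ = a * c ∧ u₅ = b * d ∧ u₆ = a * d ∧ u₇ = b * c) ∧ u₄ + u₅ + e j = u₆ + u₇ + e i
    generalize f (fun a => e (r a)) = F
    generalize g (fun a => e (r a)) = G
    constructor
    · intro he
      refine ⟨_, _, _, _, (-G).toNat, G.toNat, (-F).toNat, F.toNat, by omega, by omega,
        ⟨rfl, rfl, rfl, rfl⟩, ?_⟩
      have h1 : F = (F.toNat : ℤ) - ((-F).toNat : ℤ) := by omega
      have h2 : G = (G.toNat : ℤ) - ((-G).toNat : ℤ) := by omega
      zify
      generalize (F.toNat : ℤ) = a at *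
      generalize ((-F).toNat : ℤ) = b at *
      generalize (G.toNat : ℤ) = c at *
      generalize ((-G).toNat : ℤ) = d at *
      rw [h1, h2] at he
      linear_combination he
    · rintro ⟨_, _, _, _, d, c, b, a, h1, h2, ⟨rfl, rfl, rfl, rfl⟩, h3⟩
      zify at h3
      rw [h1, h2]
      linear_combination h3

theorem CP.exN {m : ℕ} {T : (ℕ → ℕ) → Prop} (hT : CP T) :
    CP (fun e => ∃ w : ℕ → ℕ, T (ap m w e)) := by
  induction m with
  | zero =>
    refine hT.congr (fun e => ?_)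
    simp only [ap_zero]
    exact ⟨fun ⟨_, h⟩ => h, fun h => ⟨e, h⟩⟩
  | succ m ih =>
    refine (CP.ex ih).congr (fun e => ?_)
    constructor
    · rintro ⟨w, hw⟩
      rw [ap_succ] at hw
      exact ⟨w m, w, hw⟩
    · rintro ⟨n, w, hw⟩
      refine ⟨fun i => if i < m then w i else n, ?_⟩
      rw [ap_succ, if_neg (lt_irrefl _), ap_congr (w' := w) (fun i hi => if_pos hi)]
      exact hw

open Vale.Agent.P345 in
theorem CP.of_rePred {k : ℕ} {S : Set (Fin k → ℕ)} (hS : REPred (fun a => a ∈ S)) :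
    CP (fun e => (fun i : Fin k => e i) ∈ S) := by
  obtain ⟨m, f, hf, h⟩ := sf_of_rePred k S hS
  have h1 : CP (fun e => ∃ w : ℕ → ℕ, f ((fun i : Fin k => e i), (fun j : Fin m => w j)) = 0) := by
    have h2 := (CP.poly hf (fun a => Sum.elim (fun i : Fin k => (i : ℕ) + m)
      (fun j : Fin m => (j : ℕ)) a) 0 0).exN (m := m)
    refine h2.congr (fun e => exists_congr (fun w => ?_))
    rw [sub_self]
    have e1 : Ctx.eqv.symm (fun a : Ctx.ix ((Fin k → ℕ) × (Fin m → ℕ)) =>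
        ap m w e (Sum.elim (fun i : Fin k => (i : ℕ) + m) (fun j : Fin m => (j : ℕ)) a)) =
        ((fun i : Fin k => e i), (fun j : Fin m => w j)) := by
      change ((fun i : Fin k => ap m w e ((i : ℕ) + m)), (fun j : Fin m => ap m w e (j : ℕ))) = _
      congr 1
      · funext i
        unfold ap
        rw [if_neg (by omega), Nat.add_sub_cancel]
      · funext j
        unfold ap
        rw [if_pos j.2]
    rw [e1]
  refine h1.congr (fun e => ?_)
  constructor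
  · intro hs
    obtain ⟨w, hw⟩ := ((h _).1 hs).exists
    refine ⟨fun i => if hi : i < m then w ⟨i, hi⟩ else 0, ?_⟩
    have : (fun j : Fin m => (fun i : ℕ => if hi : i < m then w ⟨i, hi⟩ else 0) (j : ℕ)) = w := by
      funext j
      simp
    rw [this]
    exact hw
  · rintro ⟨w, hw⟩
    exact (h _).2 _ hw

end Vale.Agent.P027.N1
end
end

section

section

/-! Recursively enumerable relations of three-adic valuations and one universal quantifier. -/

namespace Vale.Agent.P027.K2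

open MvPolynomial

theorem dio_basic : Dio (fun v => Basic (v 0)) := by
  unfold Basic
  refine Dio.or ?_ (Dio.or ?_ (Dio.or ?_ ?_))
  · exact (Dio.ne (DioFn.var 0) (lit_fn 3)).and
      (dio_int2 ((lit_fn 4).div ((DioFn.var 0).sub (lit_fn 3))))
  · exact (dio_int3 ((DioFn.var 0).div (lit_fn 3))).or
      (dio_int3 (one_fn.div ((lit_fn 3).mul (DioFn.var 0))))
  · exact dio_mach (one_fn.div (DioFn.var 0)) (one_fn.div (DioFn.var 0))
  · refine Dio.ex (Dio.ex ?_)
    exact (Dio.eq ((DioFn.var 1).mul (DioFn.var 0)) (DioFn.var 2)).and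
      (dio_mach (DioFn.var 1) (DioFn.var 0))

theorem sub_one_zero (A : Set ℕ) : sub 1 0 A = A := by
  ext n
  rw [mem_sub, one_mul, add_zero]

/-- main statement for natural numbers -/
theorem CE.dio {T : (ℕ → ℕ) → Prop} (hT : CE T) : ∃ W : (ℕ → ℚ) → Prop, Dio W ∧
    ∀ (t : ℚ) (v : ℕ → ℚ) (e : ℕ → ℕ), (∀ i, v i ≠ 0 ∧ padicValRat 3 (v i) = e i) →
      (¬ W (cns t v) → T e) ∧ (T e → ∀ j : ℕ, ∃ t : ℤ, 17 ^ j ≤ t.natAbs ∧
        ¬ W (cns (t : ℚ) v)) := by
  obtain ⟨Φ, hΦ, h⟩ := hT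
  obtain ⟨V, hV, h'⟩ := hΦ 1 0
  refine ⟨_, dio_basic.or hV, fun t v e he => ⟨fun hW => ?_, fun hT j => ?_⟩⟩
  · rw [not_or] at hW
    obtain ⟨A, hA, hL⟩ := exists_lower hW.1
    have he' : Enc (cns t v) e := fun i => he i
    have h1 := (h' (cns t v) e A he').2 hL
    rw [sub_one_zero] at h1
    rw [h]
    refine ⟨A, hA, ?_⟩
    by_contra hc
    exact hW.2 (h1 hc)
  · obtain ⟨A, hA, h1⟩ := (h e).1 hT
    obtain ⟨t, hlarge, hb, hU⟩ := exists_upper hA j
    have he' : Enc (cns (t : ℚ) v) e := fun i => he i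
    have h2 := (h' (cns (t : ℚ) v) e A he').1 hU
    rw [sub_one_zero] at h2
    refine ⟨t, hlarge, ?_⟩
    rintro (h3 | h3)
    · exact hb h3
    · exact h2 h3 h1

/-- many existential quantifiers -/
def appq {m : ℕ} (w : Fin m → ℚ) (e : ℕ → ℚ) : ℕ → ℚ :=
  fun i => if h : i < m then w ⟨i, h⟩ else e (i - m)

theorem Dio.exN {m : ℕ} {T : (ℕ → ℚ) → Prop} (hT : Dio T) :
    Dio (fun e => ∃ w : Fin m → ℚ, T (appq w e)) := by
  induction m with
  | zero =>
    refine hT.congr (fun e => ?_)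
    have : ∀ w : Fin 0 → ℚ, appq w e = e := fun w => by
      funext i
      simp [appq]
    simp [this]
  | succ m ih =>
    have ih' : Dio (fun v => ∃ w : Fin m → ℚ, T (appq w (cns (v 0) (tl v)))) :=
      ih.congr (fun v => by rw [cns_tl])
    refine (Dio.ex (S := fun x v => ∃ w : Fin m → ℚ, T (appq w (cns x v))) ih').congr
      (fun e => ?_)
    constructor
    · rintro ⟨w, hw⟩
      refine ⟨w (Fin.last m), fun i => w i.castSucc, ?_⟩
      convert hw using 1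
      funext i
      unfold appq
      by_cases h1 : i < m
      · rw [dif_pos h1, dif_pos (by omega)]
        rfl
      · rw [dif_neg h1]
        by_cases h2 : i = m
        · subst h2
          rw [dif_pos (by omega), Nat.sub_self]
          rfl
        · rw [dif_neg (by omega)]
          obtain ⟨j, hj⟩ : ∃ j, i = m + 1 + j := ⟨i - (m + 1), by omega⟩
          subst hj
          have e1 : m + 1 + j - m = j + 1 := by omega
          have e2 : m + 1 + j - (m + 1) = j := by omega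
          rw [e1, e2, cns_succ]
    · rintro ⟨n, w, hw⟩
      refine ⟨Fin.snoc w n, ?_⟩
      convert hw using 1
      funext i
      unfold appq
      by_cases h1 : i < m
      · rw [dif_pos h1, dif_pos (by omega)]
        have : (⟨i, by omega⟩ : Fin (m + 1)) = Fin.castSucc ⟨i, h1⟩ := rfl
        rw [this, Fin.snoc_castSucc]
      · rw [dif_neg h1]
        by_cases h2 : i = m
        · subst h2
          rw [dif_pos (by omega), Nat.sub_self]
          have : (⟨i, by omega⟩ : Fin (i + 1)) = Fin.last i := rfl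
          rw [this, Fin.snoc_last]
          rfl
        · rw [dif_neg (by omega)]
          obtain ⟨j, hj⟩ : ∃ j, i = m + 1 + j := ⟨i - (m + 1), by omega⟩
          subst hj
          have e1 : m + 1 + j - m = j + 1 := by omega
          have e2 : m + 1 + j - (m + 1) = j := by omega
          rw [e1, e2, cns_succ]

theorem Dio.forall_lt {S : ℕ → (ℕ → ℚ) → Prop} (h : ∀ i, Dio (S i)) (n : ℕ) :
    Dio (fun v => ∀ i < n, S i v) := by
  induction n with
  | zero => exact Dio.true.congr (fun v => by simp)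
  | succ n ih =>
    refine (ih.and (h n)).congr (fun v => ?_)
    constructor
    · intro h; exact ⟨fun i hi => h i (by omega), h n (by omega)⟩
    · rintro ⟨h1, h2⟩ i hi
      rcases Nat.lt_succ_iff_lt_or_eq.1 hi with h3 | rfl
      · exact h1 i h3
      · exact h2

/-- the polynomial with finitely many variables -/
theorem Dio.fin {S : (ℕ → ℚ) → Prop} (h : Dio S) (k : ℕ) :
    ∃ (m : ℕ) (F : MvPolynomial (Fin k ⊕ Fin (m + 1)) ℤ), ∀ (α : Fin k → ℚ) (t : ℚ),
      S (cns t (fun i => if h : i < k then α ⟨i, h⟩ else 1)) ↔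
        ∃ y : Fin m → ℚ, aeval (Sum.elim α (Matrix.vecCons t y)) F = 0 := by
  obtain ⟨p, hp⟩ := h
  obtain ⟨m, hm⟩ : ∃ m : ℕ, ∀ j, Sum.inr j ∈ p.vars → j < m := by
    refine ⟨(p.vars.toRight.sup id).succ, fun j hj => ?_⟩
    rw [Nat.lt_succ_iff]
    exact Finset.le_sup (f := id) (by simpa using hj)
  let φ : ℕ ⊕ ℕ → MvPolynomial (Fin k ⊕ Fin (m + 1)) ℤ :=
    Sum.elim (fun i => Nat.rec (X (Sum.inr 0))
        (fun i _ => if h : i < k then X (Sum.inl ⟨i, h⟩) else 1) i)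
      (fun j => if h : j < m then X (Sum.inr ⟨j + 1, by omega⟩) else 0)
  refine ⟨m, aeval φ p, fun α t => ?_⟩
  rw [hp]
  have ev : ∀ y : Fin m → ℚ, aeval (Sum.elim α (Matrix.vecCons t y)) (aeval φ p) =
      aeval (Sum.elim (cns t (fun i => if h : i < k then α ⟨i, h⟩ else 1))
        (fun j => if h : j < m then y ⟨j, h⟩ else 0)) p := by
    intro y
    rw [← AlgHom.comp_apply, comp_aeval]
    congr 2
    funext i
    rcases i with (_ | i) | i
    · simp [φ, cns]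
    · simp only [φ, Sum.elim_inl, cns_succ]
      split_ifs <;> simp
    · simp only [φ, Sum.elim_inr]
      split_ifs with h
      · rw [aeval_X]
        rfl
      · simp
  constructor
  · rintro ⟨y, hy⟩
    refine ⟨fun j => y j, ?_⟩
    rw [ev]
    refine Eq.trans ?_ hy
    refine eval₂Hom_congr' rfl ?_ rfl
    intro i hi _
    rcases i with i | i
    · rfl
    · simp only [Sum.elim_inr]
      rw [dif_pos (hm i hi)]
  · rintro ⟨y, hy⟩
    rw [ev] at hy
    exact ⟨_, hy⟩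

end Vale.Agent.P027.K2
end
end

section

section

/-! From natural numbers to integers. -/

namespace Vale.Agent.P027.K2

open MvPolynomial

theorem primrec_intsub : Primrec₂ (fun a b : ℕ => (a : ℤ) - (b : ℤ)) := by
  have h : Primrec (fun p : ℕ × ℕ => if p.2 ≤ p.1 then 2 * (p.1 - p.2) else
      2 * (p.2 - p.1 - 1) + 1) := by
    refine Primrec.ite (Primrec.nat_le.comp Primrec.snd Primrec.fst) ?_ ?_
    · exact Primrec.nat_mul.comp (Primrec.const 2) (Primrec.nat_sub.comp Primrec.fst Primrec.snd)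
    · exact Primrec.succ.comp (Primrec.nat_mul.comp (Primrec.const 2)
        (Primrec.nat_sub.comp (Primrec.nat_sub.comp Primrec.snd Primrec.fst) (Primrec.const 1)))
  refine Primrec.encode_iff.1 (h.of_eq ?_)
  rintro ⟨a, b⟩
  simp only
  split_ifs with hab
  · obtain ⟨c, rfl⟩ := Nat.exists_eq_add_of_le hab
    have e1 : ((b + c : ℕ) : ℤ) - (b : ℤ) = ((c : ℕ) : ℤ) := by push_cast; ring
    rw [e1, Nat.add_sub_cancel_left]
    rfl
  · obtain ⟨c, rfl⟩ : ∃ c, b = a + c + 1 := ⟨b - a - 1, by omega⟩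
    have e1 : ((a : ℕ) : ℤ) - ((a + c + 1 : ℕ) : ℤ) = Int.negSucc c := by
      rw [Int.negSucc_eq]; push_cast; ring
    have e2 : a + c + 1 - a - 1 = c := by omega
    rw [e1, e2]
    rfl

theorem rePred_pairs {k : ℕ} {S : Set (Fin k → ℤ)} (hS : REPred (fun a => a ∈ S)) :
    REPred (fun a : Fin (2 * k) → ℕ => a ∈ {a : Fin (2 * k) → ℕ | (fun i : Fin k =>
      ((a ⟨2 * i, by omega⟩ : ℕ) : ℤ) - ((a ⟨2 * i + 1, by omega⟩ : ℕ) : ℤ)) ∈ S}) := by
  have h1 : Primrec (fun (a : Fin (2 * k) → ℕ) (i : Fin k) =>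
      ((a ⟨2 * i, by omega⟩ : ℕ) : ℤ) - ((a ⟨2 * i + 1, by omega⟩ : ℕ) : ℤ)) := by
    refine Primrec.fin_curry.2 (Primrec₂.swap (Primrec.fin_curry₁.2 (fun i => ?_)))
    exact primrec_intsub.comp (Primrec.fin_app.comp Primrec.id (Primrec.const _))
      (Primrec.fin_app.comp Primrec.id (Primrec.const _))
  exact Partrec.comp hS h1.to_comp

def Can (a b c : ℚ) : Prop :=
  (0 ≤ padicValRat 3 a ∧ (b = a ∧ c = 1)) ∨ (0 ≤ padicValRat 3 (1 / (3 * a)) ∧ (b = 1 ∧ c = 1 / a))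

theorem can_iff {a b c : ℚ} (ha : a ≠ 0) : Can a b c ↔
    b = (if 0 ≤ padicValRat 3 a then a else 1) ∧ c = (if 0 ≤ padicValRat 3 a then 1 else 1 / a) := by
  have h : padicValRat 3 (1 / (3 * a)) = -1 - padicValRat 3 a := by
    rw [padicValRat.div one_ne_zero (mul_ne_zero (by norm_num) ha), padicValRat.one,
      padicValRat.mul (by norm_num) ha, v33]
    ring
  unfold Can
  rw [h]
  split_ifs with h0
  · have h1 : ¬ (0 ≤ -1 - padicValRat 3 a) := by omega
    constructor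
    · rintro (h2 | h2)
      · exact h2.2
      · exact absurd h2.1 h1
    · exact fun h2 => Or.inl ⟨h0, h2⟩
  · have h1 : (0 ≤ -1 - padicValRat 3 a) := by omega
    constructor
    · rintro (h2 | h2)
      · exact absurd h2.1 h0
      · exact h2.2
    · exact fun h2 => Or.inr ⟨h1, h2⟩

theorem dio_can (i j l : ℕ) : Dio (fun v => Can (v i) (v j) (v l)) := by
  unfold Can
  refine Dio.or ?_ ?_
  · exact (dio_int3 (DioFn.var i)).and ((Dio.eq (DioFn.var j) (DioFn.var i)).and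
      (Dio.eq (DioFn.var l) one_fn))
  · exact (dio_int3 (one_fn.div ((lit_fn 3).mul (DioFn.var i)))).and
      ((Dio.eq (DioFn.var j) one_fn).and (Dio.eq (DioFn.var l) (one_fn.div (DioFn.var i))))

theorem main_int {k : ℕ} {S : Set (Fin k → ℤ)} (hS : REPred (fun a => a ∈ S)) :
    ∃ W : (ℕ → ℚ) → Prop, Dio W ∧ ∀ (t : ℚ) (v : ℕ → ℚ) (a : Fin k → ℤ),
      (∀ i : Fin k, v i ≠ 0 ∧ padicValRat 3 (v i) = a i) →
      (¬ W (cns t v) → a ∈ S) ∧ (a ∈ S → ∀ j : ℕ, ∃ t : ℤ, 17 ^ j ≤ t.natAbs ∧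
        ¬ W (cns (t : ℚ) v)) := by
  obtain ⟨W, hW, h⟩ := (CE.of_rePred (rePred_pairs hS)).dio
  refine ⟨fun v => ∃ w : Fin (2 * k + 1) → ℚ, (fun u : ℕ → ℚ => u (2 * k) = 1 ∧
    (∀ i < k, Can (u (2 * k + 2 + i)) (u (2 * i)) (u (2 * i + 1))) ∧
    W (fun i => u (Nat.rec (2 * k + 1) (fun j _ => if j < 2 * k then j else 2 * k) i)))
      (appq w v), ?_, ?_⟩
  · refine Dio.exN (T := fun u : ℕ → ℚ => u (2 * k) = 1 ∧
      (∀ i < k, Can (u (2 * k + 2 + i)) (u (2 * i)) (u (2 * i + 1))) ∧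
      W (fun i => u (Nat.rec (2 * k + 1) (fun j _ => if j < 2 * k then j else 2 * k) i))) ?_
    exact (Dio.eq (DioFn.var _) one_fn).and ((Dio.forall_lt (fun i => dio_can _ _ _) k).and
      (hW.ren _))
  · intro t v a hv
    -- the encoding of the positive and negative parts
    let w : ℕ → ℚ := fun j => if j < 2 * k then
      (if j % 2 = 0 then (if 0 ≤ padicValRat 3 (v (j / 2)) then v (j / 2) else 1)
        else (if 0 ≤ padicValRat 3 (v (j / 2)) then 1 else 1 / v (j / 2))) else 1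
    let e : ℕ → ℕ := fun j => if h : j < 2 * k then
      (if j % 2 = 0 then (a ⟨j / 2, by omega⟩).toNat else (-a ⟨j / 2, by omega⟩).toNat) else 0
    have hwe : ∀ j, w j ≠ 0 ∧ padicValRat 3 (w j) = e j := by
      intro j
      by_cases hj : j < 2 * k
      · obtain ⟨h0, h1⟩ := hv ⟨j / 2, by omega⟩
        simp only at h0 h1
        simp only [w, e, if_pos hj, dif_pos hj]
        split_ifs with h2 h3 h4
        · exact ⟨h0, by rw [h1] at h3 ⊢; omega⟩
        · refine ⟨one_ne_zero, ?_⟩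
          rw [h1] at h3
          rw [padicValRat.one]
          omega
        · refine ⟨one_ne_zero, ?_⟩
          rw [h1] at h4
          rw [padicValRat.one]
          omega
        · refine ⟨one_div_ne_zero h0, ?_⟩
          rw [padicValRat.div one_ne_zero h0, padicValRat.one, h1]
          rw [h1] at h4
          omega
      · simp only [w, e, if_neg hj, dif_neg hj]
        exact ⟨one_ne_zero, by simp⟩
    have hT : (fun i : Fin (2 * k) => e i) ∈ {a : Fin (2 * k) → ℕ | (fun i : Fin k =>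
        ((a ⟨2 * i, by omega⟩ : ℕ) : ℤ) - ((a ⟨2 * i + 1, by omega⟩ : ℕ) : ℤ)) ∈ S} ↔ a ∈ S := by
      have : (fun i : Fin k => ((e (2 * i) : ℕ) : ℤ) - ((e (2 * i + 1) : ℕ) : ℤ)) = a := by
        funext i
        have h1 : 2 * (i : ℕ) < 2 * k := by omega
        have h2 : 2 * (i : ℕ) + 1 < 2 * k := by omega
        have h3 : (2 * (i : ℕ)) % 2 = 0 := by omega
        have h4 : ¬ (2 * (i : ℕ) + 1) % 2 = 0 := by omega
        simp only [e, dif_pos h1, dif_pos h2, if_pos h3, if_neg h4]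
        have h5 : (⟨2 * (i : ℕ) / 2, by omega⟩ : Fin k) = i := by
          apply Fin.ext; simp
        have h6 : (⟨(2 * (i : ℕ) + 1) / 2, by omega⟩ : Fin k) = i := by
          apply Fin.ext; simp only; omega
        rw [h5, h6]
        omega
      rw [Set.mem_ofPred_eq]
      simp only
      rw [this]
    -- the existential quantifiers are determined
    have key : ∀ t : ℚ, (∃ w' : Fin (2 * k + 1) → ℚ, (fun u : ℕ → ℚ => u (2 * k) = 1 ∧
        (∀ i < k, Can (u (2 * k + 2 + i)) (u (2 * i)) (u (2 * i + 1))) ∧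
        W (fun i => u (Nat.rec (2 * k + 1) (fun j _ => if j < 2 * k then j else 2 * k) i)))
          (appq w' (cns t v))) ↔ W (cns t w) := by
      intro t
      have a1 : ∀ (w' : Fin (2 * k + 1) → ℚ) (i : ℕ), appq w' (cns t v) (2 * k + 2 + i) = v i := by
        intro w' i
        unfold appq
        rw [dif_neg (by omega)]
        have : 2 * k + 2 + i - (2 * k + 1) = i + 1 := by omega
        rw [this, cns_succ]
      have a2 : ∀ (w' : Fin (2 * k + 1) → ℚ), appq w' (cns t v) (2 * k + 1) = t := by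
        intro w'
        unfold appq
        rw [dif_neg (by omega), Nat.sub_self, cns_zero]
      have a3 : ∀ (w' : Fin (2 * k + 1) → ℚ) (i : ℕ) (hi : i < 2 * k + 1),
          appq w' (cns t v) i = w' ⟨i, hi⟩ := by
        intro w' i hi
        unfold appq
        rw [dif_pos hi]
      have a4 : ∀ w' : Fin (2 * k + 1) → ℚ, (∀ i (hi : i < 2 * k + 1), w' ⟨i, hi⟩ = w i) →
          (fun i => appq w' (cns t v)
            (Nat.rec (2 * k + 1) (fun j _ => if j < 2 * k then j else 2 * k) i)) = cns t w := by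
        intro w' hw'
        funext i
        rcases i with _ | i
        · exact a2 w'
        · rw [cns_succ]
          change appq w' (cns t v) (if i < 2 * k then i else 2 * k) = w i
          split_ifs with hi
          · rw [a3 _ _ (by omega), hw']
          · rw [a3 _ _ (by omega), hw']
            simp only [w, if_neg hi, lt_irrefl, if_false]
      have a5 : ∀ i < k, w (2 * i) = (if 0 ≤ padicValRat 3 (v i) then v i else 1) ∧
          w (2 * i + 1) = (if 0 ≤ padicValRat 3 (v i) then 1 else 1 / v i) := by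
        intro i hi
        have h1 : 2 * i < 2 * k := by (clear * - hi; omega)
        have h2 : 2 * i + 1 < 2 * k := by omega
        have h3 : (2 * i) % 2 = 0 := by omega
        have h4 : ¬ (2 * i + 1) % 2 = 0 := by omega
        have h5 : 2 * i / 2 = i := by omega
        have h6 : (2 * i + 1) / 2 = i := by omega
        simp only [w, if_pos h1, if_pos h2, if_pos h3, if_neg h4, h5, h6]
        exact ⟨trivial, trivial⟩
      constructor
      · rintro ⟨w', h1, h2, h3⟩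
        rw [a4 w'] at h3
        · exact h3
        · intro i hi
          rcases Nat.lt_succ_iff_lt_or_eq.1 hi with hi' | hi'
          · have h4 := h2 (i / 2) (by omega)
            rw [a1, can_iff (hv ⟨i / 2, by omega⟩).1, a3 _ _ (by omega), a3 _ _ (by omega)] at h4
            obtain ⟨h5, h6⟩ := a5 (i / 2) (by omega)
            rw [← h5, ← h6] at h4
            rcases Nat.mod_two_eq_zero_or_one i with h7 | h7
            · have h8 : 2 * (i / 2) = i := by omega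
              simp only [h8] at h4
              exact h4.1
            · have h8 : 2 * (i / 2) + 1 = i := by omega
              simp only [h8] at h4
              exact h4.2
          · subst hi'
            rw [a3 _ _ (by omega)] at h1
            rw [h1]
            simp only [w, lt_irrefl, if_false]
      · intro hw
        refine ⟨fun i => w i, ?_, ?_, ?_⟩
        · rw [a3 _ _ (by omega)]
          simp only [w, lt_irrefl, if_false]
        · intro i hi
          rw [a1, can_iff (hv ⟨i, hi⟩).1, a3 _ _ (by omega), a3 _ _ (by omega)]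
          exact a5 i hi
        · rw [a4 _ (fun i hi => rfl)]
          exact hw
    have h' := h t w e hwe
    rw [← hT]
    refine ⟨fun hn => h'.1 (fun hw => hn ((key t).2 hw)), fun hs j => ?_⟩
    obtain ⟨t', hlarge, ht'⟩ := h'.2 hs j
    exact ⟨t', hlarge, fun hw => ht' ((key _).1 hw)⟩

theorem infinite_of_large {P : ℤ → Prop} (h : ∀ j : ℕ, ∃ t : ℤ, 17 ^ j ≤ t.natAbs ∧ P t) :
    {t : ℤ | P t}.Infinite := by
  intro hfin
  obtain ⟨N, hN⟩ := (hfin.image Int.natAbs).bddAbove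
  obtain ⟨t, h1, h2⟩ := h N
  have h3 : t.natAbs ≤ N := hN ⟨t, h2, rfl⟩
  have h4 : N < 17 ^ N := Nat.lt_pow_self (by norm_num)
  omega

theorem dprm_one {k : ℕ} {S : Set (Fin k → ℤ)} (hS : REPred (fun a => a ∈ S)) :
    ∃ (m : ℕ) (F : MvPolynomial (Fin k ⊕ Fin (m + 1)) ℤ), ∀ (α : Fin k → ℚ) (a : Fin k → ℤ),
      (∀ i, α i ≠ 0 ∧ padicValRat 3 (α i) = a i) →
      (a ∈ S → {t : ℤ | ∀ y : Fin m → ℚ,
        aeval (Sum.elim α (Matrix.vecCons (t : ℚ) y)) F ≠ 0}.Infinite) ∧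
      (a ∉ S → ∀ t : ℚ, ∃ y : Fin m → ℚ, aeval (Sum.elim α (Matrix.vecCons t y)) F = 0) := by
  obtain ⟨W, hW, h⟩ := main_int hS
  obtain ⟨m, F, hF⟩ := Dio.fin hW k
  refine ⟨m, F, fun α a ha => ?_⟩
  have hv : ∀ i : Fin k, (fun i : ℕ => if h : i < k then α ⟨i, h⟩ else 1) (i : ℕ) ≠ 0 ∧
      padicValRat 3 ((fun i : ℕ => if h : i < k then α ⟨i, h⟩ else 1) (i : ℕ)) = a i := by
    intro i
    simpa using ha i
  have h' := fun t => h t (fun i => if h : i < k then α ⟨i, h⟩ else 1) a hv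
  refine ⟨fun ha => infinite_of_large (fun j => ?_), fun ha t => ?_⟩
  · obtain ⟨t, hlarge, ht⟩ := (h' 0).2 ha j
    refine ⟨t, hlarge, fun y hy => ht ((hF _ _).2 ⟨y, hy⟩)⟩
  · have h1 : ¬ ¬ W (cns t (fun i => if h : i < k then α ⟨i, h⟩ else 1)) :=
      fun hw => ha ((h' t).1 hw)
    exact (hF _ _).1 (not_not.1 h1)

end Vale.Agent.P027.K2
end
end

section

section

/-! A universal quantifier over the prime divisors of one unknown. -/

namespace Vale.Agent.P027.N1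

open Vale.Agent.P027.K2 MvPolynomial

/-- the positions captured by inert primes dividing `t` -/
def Pset (t : ℚ) : Set ℕ := {n | ∃ q x, Inert q ∧ q ≠ 3 ∧ 1 ≤ padicValRat q t ∧ Pos x n ∧
  1 ≤ padicValRat q (kap x)}

theorem up_pset {t : ℚ} (ht : t ≠ 0) : Up t (Pset t) := by
  intro n x hx hm
  obtain ⟨q, hq, hq3, h1, h2⟩ := mach_sound hm
  exact ⟨q, x, hq, hq3, h1.resolve_left ht, hx, h2.resolve_left (ec_two hx.1).1⟩

theorem pset_finite {t : ℚ} (ht : t ≠ 0) : (Pset t).Finite := by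
  have hp : ∀ n, ∃ q, n ∈ Pset t → (Inert q ∧ q ≠ 3 ∧ 1 ≤ padicValRat q t ∧ ∃ x, Pos x n ∧
      1 ≤ padicValRat q (kap x)) := by
    intro n
    by_cases hm : n ∈ Pset t
    · obtain ⟨q, x, hq, hq3, h1, hx, h2⟩ := hm
      exact ⟨q, fun _ => ⟨hq, hq3, h1, x, hx, h2⟩⟩
    · exact ⟨0, fun h => absurd h hm⟩
  choose qs hqs using hp
  have hsub : qs '' (Pset t) ⊆ ↑(t.num.natAbs.primeFactors) := by
    rintro q ⟨n, hn, rfl⟩
    obtain ⟨hq, hq3, h1, -⟩ := hqs n hn
    rw [Finset.mem_coe, Nat.mem_primeFactors]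
    refine ⟨hq.1, ?_, by simpa using ht⟩
    by_contra hd
    have : padicValInt (qs n) t.num = 0 :=
      padicValInt.eq_zero_of_not_dvd (fun h => hd (Int.natCast_dvd.1 h))
    have h5 : (0 : ℤ) ≤ (padicValNat (qs n) t.den : ℤ) := Int.natCast_nonneg _
    rw [padicValRat_def, this] at h1
    omega
  refine Set.Finite.of_finite_image ((Finset.finite_toSet _).subset hsub) ?_
  intro n hn m hm hnm
  obtain ⟨hq, hq3, h1, x, hx, h2⟩ := hqs n hn
  obtain ⟨hq', hq3', h1', x', hx', h2'⟩ := hqs m hm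
  rw [← hnm] at h2'
  have := ec_unique hq hq3 hx.1 hx'.1 (by omega) (by omega)
  rw [hx.2, hx'.2] at this
  omega

theorem sub_one_zero' (A : Set ℕ) : sub 1 0 A = A := by
  ext n
  rw [mem_sub, one_mul, add_zero]

/-- the rational version of `ap` -/
def apr (r : ℕ) (z v : ℕ → ℚ) : ℕ → ℚ := fun i => if i < r then z i else v (i - r)

theorem enc_apr {r : ℕ} {z v : ℕ → ℚ} {w e : ℕ → ℕ} {t : ℚ}
    (hv : ∀ i, v i ≠ 0 ∧ padicValRat 3 (v i) = e i)
    (hz : ∀ i < r, z i ≠ 0 ∧ padicValRat 3 (z i) = w i) : Enc (cns t (apr r z v)) (ap r w e) := by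
  intro i
  rw [cns_succ]
  unfold apr ap
  split_ifs with h
  · exact hz i h
  · exact hv _

theorem CP.dio {T : (ℕ → ℕ) → Prop} (hT : CP T) : ∃ (r : ℕ) (V0 V1 : (ℕ → ℚ) → Prop),
    Dio V0 ∧ Dio V1 ∧ (∀ v, V0 v → v 0 ≠ 0) ∧ ∀ (v : ℕ → ℚ) (e : ℕ → ℕ), (∀ i, v i ≠ 0 ∧ padicValRat 3 (v i) = e i) →
      (T e ↔ ∃ (t : ℚ) (z : ℕ → ℚ), V0 (cns t (apr r z v)) ∧
        ∀ p : ℕ, p.Prime → 0 < padicValRat p t → V1 (cns (p : ℚ) (cns t (apr r z v)))) := by
  obtain ⟨r, R0, R1, hR0, hR1, h⟩ := hT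
  obtain ⟨W0, hW0, h0⟩ := hR0 1 0
  obtain ⟨W1, hW1, h1⟩ := hR1 1 0
  simp only [sub_one_zero'] at h0 h1
  refine ⟨r, fun v => v 0 ≠ 0 ∧ (∀ i < r, v (i + 1) ≠ 0 ∧ 0 ≤ padicValRat 3 (v (i + 1))) ∧ W0 v,
    fun v => ∃ u : ℚ, (u ≠ 0 ∧ 0 ≤ padicValRat 3 u) ∧ Mem (v 0) u ∧
      W1 (cns (v 1) (cns u (tl (tl v)))), ?_, ?_, fun v hv => hv.1, ?_⟩
  · refine (Dio.ne (DioFn.var 0) zero_fn).and (Dio.and (Dio.forall_lt (fun i => ?_) r) hW0)
    exact (Dio.ne (DioFn.var _) zero_fn).and (dio_int3 (DioFn.var _))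
  · refine Dio.ex (S := fun u v => (u ≠ 0 ∧ 0 ≤ padicValRat 3 u) ∧ Mem (v 0) u ∧
      W1 (cns (v 1) (cns u (tl (tl v))))) ?_
    refine ((Dio.ne (DioFn.var 0) zero_fn).and (dio_int3 (DioFn.var 0))).and
      ((dio_mem (DioFn.var 1) (DioFn.var 0)).and ?_)
    refine (hW1.ren (fun i => if i = 0 then 2 else if i = 1 then 0 else i + 1)).congr (fun v => ?_)
    have : (cns (tl v 1) (cns (v 0) (tl (tl (tl v))))) =
        (fun i => v (if i = 0 then 2 else if i = 1 then 0 else i + 1)) := by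
      funext i
      rcases i with _ | _ | i <;> rfl
    rw [this]
  · intro v e hv
    rw [h]
    constructor
    · rintro ⟨w, A, hA, g0, g1⟩
      choose ps hin hp3 hps using ec_prime
      obtain ⟨T0, hT0⟩ : ∃ T0 : ℕ, T0 = ∏ n ∈ hA.toFinset, ps n := ⟨_, rfl⟩
      have hT0pos : T0 ≠ 0 := by
        rw [hT0]
        exact Finset.prod_ne_zero_iff.2 (fun n _ => (hin n).1.ne_zero)
      have ht0 : (T0 : ℚ) ≠ 0 := by exact_mod_cast hT0pos
      have hdvd : ∀ n ∈ A, 1 ≤ padicValRat (ps n) (T0 : ℚ) := by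
        intro n hn
        have := Fact.mk (hin n).1
        have h2 : ps n ∣ T0 := by
          rw [hT0]
          exact Finset.dvd_prod_of_mem ps (hA.mem_toFinset.2 hn)
        rw [padicValRat.of_nat]
        exact_mod_cast one_le_padicValNat_of_dvd hT0pos h2
      have hcap : ∀ (t : ℚ) (n : ℕ), 0 ≤ padicValRat 2 t → 1 ≤ padicValRat (ps n) t →
          ∃ x, Pos x n ∧ Mach t (kap x) := by
        intro t n h2 h3
        obtain ⟨x, hx, hxn⟩ := ec_exists n
        refine ⟨x, ⟨hx, hxn⟩, mach_complete (hin n) (hp3 n) h2 ?_ (Or.inr h3) (Or.inr ?_)⟩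
        · rw [(ec_two hx).2]
        · have := (hps n x hx).2 hxn
          omega
      have hlow : Low (T0 : ℚ) A := fun n hn =>
        hcap _ n (zero_le_padicValRat_of_nat _) (hdvd n hn)
      have hz : ∀ i < r, ((3 : ℚ) ^ w i) ≠ 0 ∧ padicValRat 3 ((3 : ℚ) ^ w i) = w i := by
        intro i _
        refine ⟨by positivity, ?_⟩
        rw [padicValRat.pow, v33, mul_one]
      have henc := enc_apr (t := (T0 : ℚ)) hv (z := fun i => 3 ^ w i) hz
      refine ⟨T0, fun i => 3 ^ w i, ⟨ht0, fun i hi => ?_, ?_⟩, fun p hp hpt => ?_⟩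
      · rw [cns_succ]
        unfold apr
        rw [if_pos hi]
        obtain ⟨h2, h3⟩ := hz i hi
        exact ⟨h2, by rw [h3]; omega⟩
      · exact (h0 _ _ A henc).2 hlow g0
      · have hpT : p ∣ T0 := by
          by_contra hc
          rw [padicValRat.of_nat, padicValNat.eq_zero_of_not_dvd hc] at hpt
          simp at hpt
        rw [hT0] at hpT
        obtain ⟨n, hn, hpn⟩ := (hp.prime.dvd_finsetProd_iff _).1 hpT
        have hn' : n ∈ A := hA.mem_toFinset.1 hn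
        have hpe : p = ps n := (Nat.prime_dvd_prime_iff_eq hp (hin n).1).1 hpn
        have hu : (3 : ℚ) ^ n ≠ 0 := by positivity
        have hun : padicValRat 3 ((3 : ℚ) ^ n) = n := by
          rw [padicValRat.pow, v33, mul_one]
        refine ⟨3 ^ n, ⟨hu, by rw [hun]; omega⟩, ?_, ?_⟩
        · rw [cns_zero, mem_iff hu hun]
          refine hcap _ n ?_ ?_
          · exact zero_le_padicValRat_of_nat _
          · have := Fact.mk (hin n).1
            rw [hpe, padicValRat.of_nat, padicValNat.self (hin n).1.one_lt]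
            norm_num
        · have henc' : Enc (cns (T0 : ℚ) (cns (3 ^ n) (apr r (fun i => 3 ^ w i) v)))
              (nc n (ap r w e)) := by
            intro i
            rcases i with _ | i
            · exact ⟨hu, hun⟩
            · exact henc i
          exact (h1 _ _ A henc').2 hlow (g1 n hn')
    · rintro ⟨t, z, ⟨ht, hz, g0⟩, g1⟩
      rw [cns_zero] at ht
      have hz' : ∀ i < r, z i ≠ 0 ∧ padicValRat 3 (z i) = ((padicValRat 3 (z i)).toNat : ℕ) := by
        intro i hi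
        have := hz i hi
        rw [cns_succ] at this
        unfold apr at this
        rw [if_pos hi] at this
        exact ⟨this.1, by omega⟩
      have henc := enc_apr (t := t) hv (z := z) (w := fun i => (padicValRat 3 (z i)).toNat) hz'
      refine ⟨_, Pset t, pset_finite ht, (h0 _ _ _ henc).1 (up_pset ht) g0, fun n hn => ?_⟩
      obtain ⟨q, x, hq, hq3, hqt, hx, hqx⟩ := hn
      obtain ⟨u, ⟨hu, hu3⟩, hm, hw⟩ := g1 q hq.1 (by omega)
      obtain ⟨n', hn'⟩ := Int.eq_ofNat_of_zero_le hu3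
      rw [cns_zero, mem_iff hu hn'] at hm
      obtain ⟨x', hx', hm'⟩ := hm
      obtain ⟨q', hq', hq3', h2, h3⟩ := mach_sound hm'
      have hqq : q' = q := by
        have := Fact.mk hq'.1
        have h2' := h2.resolve_left (by exact_mod_cast hq.1.ne_zero)
        by_contra hne
        rw [padicValRat.of_nat, padicValNat_primes (hp := Fact.mk hq'.1) (hq := Fact.mk hq.1) hne] at h2'
        norm_num at h2'
      subst hqq
      have h3' := h3.resolve_left (ec_two hx'.1).1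
      have h4 := ec_unique hq hq3 hx.1 hx'.1 (by omega) (by omega)
      rw [hx.2, hx'.2] at h4
      have hnn : n' = n := by omega
      subst hnn
      have henc' : Enc (cns t (cns u (apr r z v)))
          (nc n' (ap r (fun i => (padicValRat 3 (z i)).toNat) e)) := by
        intro i
        rcases i with _ | i
        · exact ⟨hu, hn'⟩
        · exact henc i
      exact (h1 _ _ _ henc').1 (up_pset ht) hw

/-- the version for integers -/
theorem normal_int {k : ℕ} {S : Set (Fin k → ℤ)} (hS : REPred (fun a => a ∈ S)) :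
    ∃ (r : ℕ) (V0 V1 : (ℕ → ℚ) → Prop), Dio V0 ∧ Dio V1 ∧ (∀ v, V0 v → v 0 ≠ 0) ∧
      ∀ (v : ℕ → ℚ) (a : Fin k → ℤ),
      (∀ i : Fin k, v i ≠ 0 ∧ padicValRat 3 (v i) = a i) →
      (a ∈ S ↔ ∃ (t : ℚ) (z : ℕ → ℚ), V0 (cns t (apr r z v)) ∧
        ∀ p : ℕ, p.Prime → 0 < padicValRat p t → V1 (cns (p : ℚ) (cns t (apr r z v)))) := by
  obtain ⟨r, V0, V1, hV0, hV1, hne, h⟩ := (CP.of_rePred (rePred_pairs hS)).dio
  refine ⟨r + 2 * k + 1, fun v => (v (r + 2 * k + 1) = 1 ∧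
      (∀ i < k, Can (v (r + 2 * k + 1 + 1 + i)) (v (r + 2 * i + 1)) (v (r + 2 * i + 1 + 1)))) ∧
      V0 (fun i => v (min i (r + 2 * k + 1))),
    fun v => V1 (fun i => v (min i (r + 2 * k + 2))), ?_, hV1.ren _,
    fun v hv => by simpa only [ne_eq, le_add_iff_nonneg_left, zero_le, inf_of_le_left] using hne _ hv.2, ?_⟩
  · exact ((Dio.eq (DioFn.var _) one_fn).and (Dio.forall_lt (fun i => dio_can _ _ _) k)).and
      (hV0.ren _)
  · intro v a hv
    let w : ℕ → ℚ := fun j => if j < 2 * k then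
      (if j % 2 = 0 then (if 0 ≤ padicValRat 3 (v (j / 2)) then v (j / 2) else 1)
        else (if 0 ≤ padicValRat 3 (v (j / 2)) then 1 else 1 / v (j / 2))) else 1
    let e : ℕ → ℕ := fun j => if h : j < 2 * k then
      (if j % 2 = 0 then (a ⟨j / 2, by omega⟩).toNat else (-a ⟨j / 2, by omega⟩).toNat) else 0
    have hwe : ∀ j, w j ≠ 0 ∧ padicValRat 3 (w j) = e j := by
      intro j
      by_cases hj : j < 2 * k
      · obtain ⟨h0, h1⟩ := hv ⟨j / 2, by omega⟩
        simp only at h0 h1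
        simp only [w, e, if_pos hj, dif_pos hj]
        split_ifs with h2 h3 h4
        · exact ⟨h0, by rw [h1] at h3 ⊢; omega⟩
        · refine ⟨one_ne_zero, ?_⟩
          rw [h1] at h3
          rw [padicValRat.one]
          omega
        · refine ⟨one_ne_zero, ?_⟩
          rw [h1] at h4
          rw [padicValRat.one]
          omega
        · refine ⟨one_div_ne_zero h0, ?_⟩
          rw [padicValRat.div one_ne_zero h0, padicValRat.one, h1]
          rw [h1] at h4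
          omega
      · simp only [w, e, if_neg hj, dif_neg hj]
        exact ⟨one_ne_zero, by simp⟩
    have hT : (fun i : Fin (2 * k) => e i) ∈ {a : Fin (2 * k) → ℕ | (fun i : Fin k =>
        ((a ⟨2 * i, by omega⟩ : ℕ) : ℤ) - ((a ⟨2 * i + 1, by omega⟩ : ℕ) : ℤ)) ∈ S} ↔ a ∈ S := by
      have : (fun i : Fin k => ((e (2 * i) : ℕ) : ℤ) - ((e (2 * i + 1) : ℕ) : ℤ)) = a := by
        funext i
        have h1 : 2 * (i : ℕ) < 2 * k := by omega
        have h2 : 2 * (i : ℕ) + 1 < 2 * k := by omega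
        have h3 : (2 * (i : ℕ)) % 2 = 0 := by omega
        have h4 : ¬ (2 * (i : ℕ) + 1) % 2 = 0 := by omega
        simp only [e, dif_pos h1, dif_pos h2, if_pos h3, if_neg h4]
        have h5 : (⟨2 * (i : ℕ) / 2, by omega⟩ : Fin k) = i := by
          apply Fin.ext; simp
        have h6 : (⟨(2 * (i : ℕ) + 1) / 2, by omega⟩ : Fin k) = i := by
          apply Fin.ext; simp only; omega
        rw [h5, h6]
        omega
      rw [Set.mem_ofPred_eq]
      simp only
      rw [this]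
    have hw5 : ∀ i < k, w (2 * i) = (if 0 ≤ padicValRat 3 (v i) then v i else 1) ∧
        w (2 * i + 1) = (if 0 ≤ padicValRat 3 (v i) then 1 else 1 / v i) := by
      intro i hi
      have h1 : 2 * i < 2 * k := by omega
      have h2 : 2 * i + 1 < 2 * k := by omega
      have h3 : (2 * i) % 2 = 0 := by omega
      have h4 : ¬ (2 * i + 1) % 2 = 0 := by omega
      have h5 : 2 * i / 2 = i := by omega
      have h6 : (2 * i + 1) / 2 = i := by omega
      simp only [w, if_pos h1, if_pos h2, if_pos h3, if_neg h4, h5, h6]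
      exact ⟨trivial, trivial⟩
    -- the environments
    have env : ∀ (t : ℚ) (z : ℕ → ℚ), (∀ i < 2 * k, z (r + i) = w i) → z (r + 2 * k) = 1 →
        (fun i => cns t (apr (r + 2 * k + 1) z v) (min i (r + 2 * k + 1))) =
          cns t (apr r z w) := by
      intro t z hz hz1
      funext i
      rcases i with _ | i
      · rw [Nat.zero_min]; rfl
      · rw [cns_succ]
        by_cases hi : i < r + 2 * k
        · rw [min_eq_left (by omega), cns_succ]
          unfold apr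
          rw [if_pos (by omega)]
          by_cases hi' : i < r
          · rw [if_pos hi']
          · rw [if_neg hi', ← hz (i - r) (by omega)]
            congr 1
            omega
        · rw [min_eq_right (by omega), cns_succ]
          unfold apr
          rw [if_pos (by omega), if_neg (by omega), hz1]
          simp only [w]
          rw [if_neg (by omega)]
    have env1 : ∀ (p t : ℚ) (z : ℕ → ℚ), (∀ i < 2 * k, z (r + i) = w i) → z (r + 2 * k) = 1 →
        (fun i => cns p (cns t (apr (r + 2 * k + 1) z v)) (min i (r + 2 * k + 2))) =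
          cns p (cns t (apr r z w)) := by
      intro p t z hz hz1
      funext i
      rcases i with _ | i
      · rw [Nat.zero_min]; rfl
      · have e1 : min (i + 1) (r + 2 * k + 2) = min i (r + 2 * k + 1) + 1 := by omega
        rw [e1, cns_succ, cns_succ, ← env t z hz hz1]
    have hcan : ∀ (t : ℚ) (z : ℕ → ℚ), (cns t (apr (r + 2 * k + 1) z v) (r + 2 * k + 1) = 1 ∧
        (∀ i < k, Can (cns t (apr (r + 2 * k + 1) z v) (r + 2 * k + 1 + 1 + i))
          (cns t (apr (r + 2 * k + 1) z v) (r + 2 * i + 1))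
          (cns t (apr (r + 2 * k + 1) z v) (r + 2 * i + 1 + 1)))) ↔
        (z (r + 2 * k) = 1 ∧ ∀ i < 2 * k, z (r + i) = w i) := by
      intro t z
      have c1 : ∀ i, i < r + 2 * k + 1 → cns t (apr (r + 2 * k + 1) z v) (i + 1) = z i := by
        intro i hi
        rw [cns_succ]
        unfold apr
        rw [if_pos hi]
      have c2 : ∀ i, cns t (apr (r + 2 * k + 1) z v) (r + 2 * k + 1 + 1 + i) = v i := by
        intro i
        have : r + 2 * k + 1 + 1 + i = (r + 2 * k + 1 + i) + 1 := by omega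
        rw [this, cns_succ]
        unfold apr
        rw [if_neg (by omega), Nat.add_sub_cancel_left]
      rw [c1 _ (by omega)]
      constructor
      · rintro ⟨h1, h2⟩
        refine ⟨h1, fun i hi => ?_⟩
        have h3 := h2 (i / 2) (by omega)
        rw [c2, can_iff (hv ⟨i / 2, by omega⟩).1, c1 _ (by omega), c1 _ (by omega)] at h3
        obtain ⟨h5, h6⟩ := hw5 (i / 2) (by omega)
        rw [← h5, ← h6] at h3
        rcases Nat.mod_two_eq_zero_or_one i with h7 | h7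
        · have h8 : 2 * (i / 2) = i := by omega
          simp only [h8] at h3
          exact h3.1
        · have h8 : 2 * (i / 2) + 1 = i := by omega
          have h9 : r + 2 * (i / 2) + 1 = r + i := by omega
          rw [h8, h9] at h3
          exact h3.2
      · rintro ⟨h1, h2⟩
        refine ⟨h1, fun i hi => ?_⟩
        rw [c2, can_iff (hv ⟨i, hi⟩).1, c1 _ (by omega), c1 _ (by omega)]
        obtain ⟨h5, h6⟩ := hw5 i hi
        rw [← h5, ← h6, ← h2 (2 * i) (by omega), ← h2 (2 * i + 1) (by omega)]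
        exact ⟨rfl, rfl⟩
    rw [← hT, h w e hwe]
    constructor
    · rintro ⟨t, z, g0, g1⟩
      let z' : ℕ → ℚ := fun i => if i < r then z i else w (i - r)
      have hz' : ∀ i < 2 * k, z' (r + i) = w i := by
        intro i _
        simp only [z']
        rw [if_neg (by omega), Nat.add_sub_cancel_left]
      have hz1 : z' (r + 2 * k) = 1 := by
        simp only [z', w]
        rw [if_neg (by omega), Nat.add_sub_cancel_left, if_neg (by omega)]
      have hzz : apr r z' w = apr r z w := by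
        funext i
        unfold apr
        by_cases hi : i < r
        · rw [if_pos hi, if_pos hi]
          simp only [z']
          rw [if_pos hi]
        · rw [if_neg hi, if_neg hi]
      refine ⟨t, z', ⟨(hcan t z').2 ⟨hz1, hz'⟩, ?_⟩, fun p hp hpt => ?_⟩
      · rw [env t z' hz' hz1, hzz]
        exact g0
      · beta_reduce
        rw [env1 _ t z' hz' hz1, hzz]
        exact g1 p hp hpt
    · rintro ⟨t, z, ⟨g, g0⟩, g1⟩
      obtain ⟨hz1, hz'⟩ := (hcan t z).1 g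
      rw [env t z hz' hz1] at g0
      refine ⟨t, z, g0, fun p hp hpt => ?_⟩
      have := g1 p hp hpt
      beta_reduce at this
      rw [env1 _ t z hz' hz1] at this
      exact this

theorem dvd_num_iff {q : ℚ} (hq : q ≠ 0) {p : ℕ} (hp : p.Prime) :
    (p : ℤ) ∣ q.num ↔ 0 < padicValRat p q := by
  have := Fact.mk hp
  constructor
  · intro h
    have h1 : ¬ p ∣ q.den := by
      intro h2
      have h3 : p ∣ Nat.gcd q.num.natAbs q.den := Nat.dvd_gcd (Int.natCast_dvd.1 h) h2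
      rw [q.reduced.gcd_eq_one] at h3
      exact hp.one_lt.ne' (Nat.dvd_one.1 h3)
    rw [padicValRat_def, padicValNat.eq_zero_of_not_dvd h1]
    have h2 : 1 ≤ padicValInt p q.num := by
      rw [padicValInt]
      exact one_le_padicValNat_of_dvd (by simpa using hq) (Int.natCast_dvd.1 h)
    omega
  · intro h
    by_contra hc
    have h1 : padicValInt p q.num = 0 := padicValInt.eq_zero_of_not_dvd hc
    rw [padicValRat_def, h1] at h
    have h5 : (0 : ℤ) ≤ (padicValNat p q.den : ℤ) := Int.natCast_nonneg _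
    omega

/-- normal form of recursively enumerable relations of three-adic valuations -/
theorem normal_form (k : ℕ) (S : Set (Fin k → ℤ)) (hS : REPred (fun a => a ∈ S)) :
    ∃ (r m : ℕ) (G : MvPolynomial (Fin k ⊕ Fin (r + 1)) ℤ)
      (F : MvPolynomial (Fin k ⊕ (Fin (r + 1) ⊕ Fin (m + 1))) ℤ),
      ∀ (α : Fin k → ℚ) (a : Fin k → ℤ), (∀ i, α i ≠ 0 ∧ padicValRat 3 (α i) = a i) →
        (a ∈ S ↔ ∃ z : Fin (r + 1) → ℚ, z 0 ≠ 0 ∧ aeval (Sum.elim α z) G = 0 ∧
          ∀ p : ℕ, p.Prime → (p : ℤ) ∣ (z 0).num → ∃ y : Fin m → ℚ,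
            aeval (Sum.elim α (Sum.elim z (Matrix.vecCons (p : ℚ) y))) F = 0) := by
  obtain ⟨r, V0, V1, ⟨p0, hp0⟩, ⟨p1, hp1⟩, hne, h⟩ := normal_int hS
  have bound : ∀ p : MvPolynomial (ℕ ⊕ ℕ) ℤ, ∃ m : ℕ, ∀ j, Sum.inr j ∈ p.vars → j < m := by
    intro p
    refine ⟨(p.vars.toRight.sup id).succ, fun j hj => ?_⟩
    rw [Nat.lt_succ_iff]
    exact Finset.le_sup (f := id) (by simpa using hj)
  obtain ⟨m0, hm0⟩ := bound p0
  obtain ⟨m1, hm1⟩ := bound p1
  let v : (Fin k → ℚ) → ℕ → ℚ := fun α i => if h : i < k then α ⟨i, h⟩ else 1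
  let Z : (Fin (r + m0 + 1) → ℚ) → ℕ → ℚ := fun z i =>
    if h : i + 1 < r + m0 + 1 then z ⟨i + 1, h⟩ else 0
  let φ : ℕ ⊕ ℕ → MvPolynomial (Fin k ⊕ Fin (r + m0 + 1)) ℤ :=
    Sum.elim (fun i => Nat.rec (X (Sum.inr 0)) (fun i _ => if i < r then
        (if h : i + 1 < r + m0 + 1 then X (Sum.inr ⟨i + 1, h⟩) else 0) else
        (if h : i - r < k then X (Sum.inl ⟨i - r, h⟩) else 1)) i)
      (fun j => if h : j < m0 then X (Sum.inr ⟨r + j + 1, by omega⟩) else 0)
  let ψ : ℕ ⊕ ℕ → MvPolynomial (Fin k ⊕ (Fin (r + m0 + 1) ⊕ Fin (m1 + 1))) ℤ :=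
    Sum.elim (fun i => Nat.rec (X (Sum.inr (Sum.inr 0))) (fun i _ =>
        Nat.rec (X (Sum.inr (Sum.inl 0))) (fun i _ => if i < r then
        (if h : i + 1 < r + m0 + 1 then X (Sum.inr (Sum.inl ⟨i + 1, h⟩)) else 0) else
        (if h : i - r < k then X (Sum.inl ⟨i - r, h⟩) else 1)) i) i)
      (fun j => if h : j < m1 then X (Sum.inr (Sum.inr ⟨j + 1, by omega⟩)) else 0)
  refine ⟨r + m0, m1, aeval φ p0, aeval ψ p1, fun α a ha => ?_⟩
  have hv : ∀ i : Fin k, v α i ≠ 0 ∧ padicValRat 3 (v α i) = a i := by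
    intro i
    simp only [v, dif_pos i.2]
    exact ha i
  have h' := h (v α) a hv
  have evG : ∀ z : Fin (r + m0 + 1) → ℚ, aeval (Sum.elim α z) (aeval φ p0) =
      aeval (Sum.elim (cns (z 0) (apr r (Z z) (v α)))
        (fun j => if j < m0 then Z z (r + j) else 0)) p0 := by
    intro z
    rw [← AlgHom.comp_apply, comp_aeval]
    congr 2
    funext i
    rcases i with (_ | i) | i
    · simp [φ, cns_zero]
    · simp only [φ, Sum.elim_inl, cns_succ, apr, Z, v]
      split_ifs <;> simp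
    · simp only [φ, Sum.elim_inr, Z]
      split_ifs with h1 h2
      · rw [aeval_X]; rfl
      · omega
      · simp
  have evF : ∀ (z : Fin (r + m0 + 1) → ℚ) (p : ℚ) (y : Fin m1 → ℚ),
      aeval (Sum.elim α (Sum.elim z (Matrix.vecCons p y))) (aeval ψ p1) =
      aeval (Sum.elim (cns p (cns (z 0) (apr r (Z z) (v α))))
        (fun j => if h : j < m1 then y ⟨j, h⟩ else 0)) p1 := by
    intro z p y
    rw [← AlgHom.comp_apply, comp_aeval]
    congr 2
    funext i
    rcases i with (_ | _ | i) | i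
    · simp [ψ, cns_zero]
    · simp [ψ, cns_zero, cns_succ]
    · simp only [ψ, Sum.elim_inl, cns_succ, apr, Z, v]
      split_ifs <;> simp
    · simp only [ψ, Sum.elim_inr]
      split_ifs with h
      · rw [aeval_X]
        rfl
      · simp
  have trunc : ∀ (p : MvPolynomial (ℕ ⊕ ℕ) ℤ) (m : ℕ), (∀ j, Sum.inr j ∈ p.vars → j < m) →
      ∀ (x w w' : ℕ → ℚ), (∀ j < m, w j = w' j) → aeval (Sum.elim x w) p = 0 →
        aeval (Sum.elim x w') p = 0 := by
    intro p m hm x w w' hw hp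
    refine Eq.trans ?_ hp
    refine eval₂Hom_congr' rfl ?_ rfl
    intro i hi _
    rcases i with i | i
    · rfl
    · exact (hw i (hm i hi)).symm
  rw [h']
  constructor
  · rintro ⟨t, z, h0, h1⟩
    obtain ⟨w, hw⟩ := (hp0 _).1 h0
    let Y : Fin (r + m0 + 1) → ℚ := fun i => if (i : ℕ) = 0 then t else
      if (i : ℕ) - 1 < r then z ((i : ℕ) - 1) else w ((i : ℕ) - 1 - r)
    have hY0 : Y 0 = t := rfl
    have hYz : apr r (Z Y) (v α) = apr r z (v α) := by
      funext i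
      unfold apr
      by_cases hi : i < r
      · rw [if_pos hi, if_pos hi]
        simp only [Z, Y]
        rw [dif_pos (by omega), if_neg (by omega), if_pos (by omega)]
        rfl
      · rw [if_neg hi, if_neg hi]
    have ht0 : t ≠ 0 := by simpa [cns_zero] using hne _ h0
    refine ⟨Y, by rw [hY0]; exact ht0, ?_, fun p hp hpt => ?_⟩
    · rw [evG, hY0, hYz]
      refine trunc p0 m0 hm0 _ w _ (fun j hj => ?_) hw
      simp only [Z, Y]
      rw [if_pos hj, dif_pos (by omega), if_neg (by omega), if_neg (by omega)]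
      congr 1
      omega
    · rw [hY0] at hpt
      obtain ⟨w', hw'⟩ := (hp1 _).1 (h1 p hp ((dvd_num_iff ht0 hp).1 hpt))
      refine ⟨fun j => w' j, ?_⟩
      rw [evF, hY0, hYz]
      refine trunc p1 m1 hm1 _ w' _ (fun j hj => ?_) hw'
      rw [dif_pos hj]
  · rintro ⟨z, hz0, h0, h1⟩
    rw [evG] at h0
    refine ⟨z 0, Z z, (hp0 _).2 ⟨_, h0⟩, fun p hp hpt => ?_⟩
    obtain ⟨y, hy⟩ := h1 p hp ((dvd_num_iff hz0 hp).2 hpt)
    rw [evF] at hy
    exact (hp1 _).2 ⟨_, hy⟩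

end Vale.Agent.P027.N1
end
end

section

section

/-! Undecidability with one universal quantifier for one fixed polynomial. -/

namespace Vale.Agent.P027.N1

open Vale.Agent.P027.K2 MvPolynomial

theorem comp_re {α β : Type} [Primcodable α] [Primcodable β] {p : β → Prop}
    (hp : REPred p) {f : α → β} (hf : Computable f) : REPred (fun a => p (f a)) :=
  Partrec.comp hp hf

/-- the halting problem as a set of natural numbers -/
theorem halting : ∃ p : ℕ → Prop, REPred p ∧ ¬ REPred (fun n => ¬ p n) := by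
  refine ⟨fun k => (Nat.Partrec.Code.eval (Denumerable.ofNat Nat.Partrec.Code k) 0).Dom, ?_, ?_⟩
  · have h1 : REPred fun c : Nat.Partrec.Code => (Nat.Partrec.Code.eval c 0).Dom :=
      ComputablePred.halting_problem_re 0
    exact comp_re h1 (Computable.ofNat Nat.Partrec.Code)
  · intro h
    apply ComputablePred.halting_problem_not_re 0
    have h2 := comp_re h (Computable.encode (α := Nat.Partrec.Code))
    simpa using h2

theorem undec_one : ∃ (m : ℕ) (F : MvPolynomial (Fin (m + 2)) ℤ),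
    ∀ D : Set ℚ, (∀ z : ℤ, (z : ℚ) ∈ D) →
      (¬ REPred (fun a : ℕ => ∀ t ∈ D, ∃ y : Fin m → ℚ,
        aeval (Matrix.vecCons (a : ℚ) (Matrix.vecCons t y)) F = 0)) ∧
      ¬ REPred (fun a : ℕ => {t ∈ D | ∀ y : Fin m → ℚ,
        aeval (Matrix.vecCons (a : ℚ) (Matrix.vecCons t y)) F ≠ 0}.Finite) := by
  obtain ⟨p, hp, hpn⟩ := halting
  have hS : REPred (fun a : Fin 1 → ℤ => a ∈ {a : Fin 1 → ℤ | p (a 0).toNat}) := by
    have h1 : Computable (fun a : Fin 1 → ℤ => (a 0).toNat) := by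
      have h2 : Primrec (fun z : ℤ => z.toNat) := by
        have h3 : Primrec (fun n : ℕ => if n % 2 = 0 then n / 2 else 0) := by
          refine Primrec.ite (Primrec.eq.comp ?_ (Primrec.const 0)) ?_ (Primrec.const 0)
          · exact Primrec.nat_mod.comp Primrec.id (Primrec.const 2)
          · exact Primrec.nat_div.comp Primrec.id (Primrec.const 2)
        refine (h3.comp (Primrec.encode (α := ℤ))).of_eq (fun z => ?_)
        rcases z with n | n
        · have e : Encodable.encode (Int.ofNat n) = 2 * n := rfl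
          rw [e, if_pos (by omega)]
          simp
        · have e : Encodable.encode (Int.negSucc n) = 2 * n + 1 := rfl
          rw [e, if_neg (by omega)]
          rfl
      exact (h2.comp (Primrec.fin_app.comp Primrec.id (Primrec.const 0))).to_comp
    exact comp_re hp h1
  obtain ⟨m, F, hF⟩ := dprm_one hS
  let F' : MvPolynomial (Fin (m + 2)) ℤ := rename (Sum.elim (fun _ => 0) Fin.succ) F
  have ev : ∀ (a t : ℚ) (y : Fin m → ℚ), aeval (Matrix.vecCons a (Matrix.vecCons t y)) F' =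
      aeval (Sum.elim (fun _ : Fin 1 => a) (Matrix.vecCons t y)) F := by
    intro a t y
    simp only [F']
    rw [aeval_rename]
    congr 2
    funext i
    rcases i with i | i <;> rfl
  have h3 : Computable (fun n : ℕ => 3 ^ n) := by
    have h : Primrec₂ (fun a b : ℕ => a ^ b) := by
      refine Primrec₂.unpaired'.1 ?_
      exact Nat.Primrec.pow
    exact (h.comp (Primrec.const 3) Primrec.id).to_comp
  have key : ∀ n : ℕ, (p n → {t : ℤ | ∀ y : Fin m → ℚ,
      aeval (Matrix.vecCons (((3 ^ n : ℕ) : ℕ) : ℚ) (Matrix.vecCons (t : ℚ) y)) F' ≠ 0}.Infinite) ∧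
      (¬ p n → ∀ t : ℚ, ∃ y : Fin m → ℚ,
        aeval (Matrix.vecCons (((3 ^ n : ℕ) : ℕ) : ℚ) (Matrix.vecCons t y)) F' = 0) := by
    intro n
    have h1 := hF (fun _ => (((3 ^ n : ℕ) : ℕ) : ℚ)) (fun _ => (n : ℤ)) (fun _ => by
      push_cast
      exact ⟨by positivity, by rw [padicValRat.pow, v33, mul_one]⟩)
    have e1 : ((fun _ => (n : ℤ)) ∈ {a : Fin 1 → ℤ | p (a 0).toNat}) ↔ p n := by
      rw [Set.mem_ofPred_eq]
      simp
    rw [e1] at h1
    refine ⟨fun hn => (h1.1 hn).mono (fun t ht y => ?_), fun hn t => ?_⟩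
    · rw [ev]
      exact ht y
    · obtain ⟨y, hy⟩ := h1.2 hn t
      exact ⟨y, by rw [ev]; exact hy⟩
  refine ⟨m, F', fun D hD => ⟨fun hre => hpn ?_, fun hre => hpn ?_⟩⟩
  · refine (comp_re hre h3).of_eq (fun n => ?_)
    constructor
    · intro h hn
      obtain ⟨t, ht⟩ := ((key n).1 hn).nonempty
      obtain ⟨y, hy⟩ := h t (hD t)
      exact ht y hy
    · intro hn t _
      exact (key n).2 hn t
  · refine (comp_re hre h3).of_eq (fun n => ?_)
    constructor
    · intro h hn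
      refine (key n).1 hn ?_
      refine Set.Finite.of_finite_image (f := fun t : ℤ => (t : ℚ)) (h.subset ?_)
        (Set.injOn_of_injective Int.cast_injective)
      rintro _ ⟨t, ht, rfl⟩
      exact ⟨hD t, ht⟩
    · intro hn
      have : {t ∈ D | ∀ y : Fin m → ℚ, aeval
          (Matrix.vecCons (((3 ^ n : ℕ) : ℕ) : ℚ) (Matrix.vecCons t y)) F' ≠ 0} = ∅ := by
        ext t
        simp only [Set.mem_sep_iff, Set.mem_empty_iff_false, iff_false, not_and]
        intro _ h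
        obtain ⟨y, hy⟩ := (key n).2 hn t
        exact h y hy
      rw [this]
      exact Set.finite_empty

end Vale.Agent.P027.N1
end
end
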